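import Vale.Agent.P231.ChW.Newton
import Vale.Agent.P231.S2X.Test
import Vale.Agent.P231.S2T.Alg

/-!
# P231 (D), classification of the dimension of the cut spheres: the algebraic interface

`H` is a commutative real algebra (closed even basic forms on the space of pairs, modulo exact
ones), `x0`, `x1` are the generators at the two ends (degree `2 r`), `t` is the class of the circle
bundle (degree `2`), `z` has degree `2 r - 2`; the manifold has dimension `2 r k`.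
-/

namespace Vale.Agent.P231Z.D

open Finset Vale.Agent.P231 Vale.Agent.P231.ChW

noncomputable section

/-- the fundamental class of the space of pairs of points at maximal distance, on monomials -/
def lam (k a b : ℕ) : ℝ :=
  (if a = k ∧ b + 1 = k then 1 else 0) - (if a + 1 = k ∧ b = k then 1 else 0)

/-- the power sums of the roots of `X ^ 2 - b X + q` -/
structure PS (b q : ℝ) (p : ℕ → ℝ) : Prop where
  p0 : p 0 = 2
  p1 : p 1 = b
  ps : ∀ a, p (a + 2) = b * p (a + 1) - q * p a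

/-- the coefficients of `(1 - b w + q w ^ 2) ^ ((k + 1) / 2) / (1 - 2 b w)` -/
structure CS (k : ℕ) (b : ℝ) (p c : ℕ → ℝ) : Prop where
  c0 : c 0 = 1
  cs : ∀ j : ℕ, ((j : ℝ) + 1) * c (j + 1) =
    ∑ a ∈ range (j + 1), ((2 * b) ^ (a + 1) - ((k : ℝ) + 1) / 2 * p (a + 1)) * c (j - a)

/-- the power sums, as a function -/
def pw (b q : ℝ) : ℕ → ℝ
  | 0 => 2
  | 1 => b
  | (a + 2) => b * pw b q (a + 1) - q * pw b q a

theorem ps_pw (b q : ℝ) : PS b q (pw b q) := ⟨rfl, rfl, fun _ => rfl⟩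

/-- the coefficients, as a function -/
def cw (k : ℕ) (b : ℝ) (p : ℕ → ℝ) : ℕ → ℝ
  | 0 => 1
  | (j + 1) => ((j : ℝ) + 1)⁻¹ * ∑ a : Fin (j + 1),
      ((2 * b) ^ ((a : ℕ) + 1) - ((k : ℝ) + 1) / 2 * p (a + 1)) * cw k b p (j - a)
  decreasing_by exact Nat.lt_succ_of_le (Nat.sub_le _ _)

theorem cs_cw (k : ℕ) (b : ℝ) (p : ℕ → ℝ) : CS k b p (cw k b p) := by
  refine ⟨by rw [cw], fun j => ?_⟩
  have hj : ((j : ℝ) + 1) ≠ 0 := by positivity
  rw [cw, ← mul_assoc, mul_inv_cancel₀ hj, one_mul, ← Fin.sum_univ_eq_sum_range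
    (fun a => ((2 * b) ^ (a + 1) - ((k : ℝ) + 1) / 2 * p (a + 1)) * cw k b p (j - a)) (j + 1)]

variable {H : Type*} [CommRing H] [Algebra ℝ H]

/-- the Chern classes of the complexified bundle of planes:
`1 - b (x0 + x1) s ^ r + q (x0 - x1) ^ 2 s ^ (2 r)` -/
def cP (r : ℕ) (b q : ℝ) (x0 x1 : H) (j : ℕ) : H :=
  if j = 0 then 1 else if j = r then -(b • (x0 + x1)) else
    if j = 2 * r then q • (x0 - x1) ^ 2 else 0

/-- the power sums of the complexified tangent bundle, in terms of numbers `t a` -/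
def tg (r : ℕ) (t : ℕ → ℝ) (x : H) (j : ℕ) : H := if r ∣ j then t (j / r) • x ^ (j / r) else 0

/-- the values of the numbers `t a` -/
def tv (k r : ℕ) (b : ℝ) (p : ℕ → ℝ) (a : ℕ) : ℝ :=
  (r : ℝ) * (((k : ℝ) + 1) * p a - (2 * b) ^ a)

/-- the basic relations and the values of the integral -/
structure Base (k : ℕ) (κ : ℝ) (x0 x1 t z : H) (Φ : H →ₗ[ℝ] ℝ) : Prop where
  tz : t * z = x0 - x1
  n0 : x0 ^ (k + 1) = 0
  n1 : x1 ^ (k + 1) = 0
  hk : S2X.hs x0 x1 k = 0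
  ne : κ ≠ 0
  val : ∀ a b, Φ (x0 ^ a * x1 ^ b * z ^ 2) = κ * lam k a b

/-- the input of block `plane`: `π` are the power sums of the bundle of planes, `σ` those of the
complement of the two tautological vectors, `θ` is the exchange of the two ends -/
structure Pl (k r : ℕ) (κ c : ℝ) (x0 x1 t : H) (Φ : H →ₗ[ℝ] ℝ) (θ : H →ₐ[ℝ] H)
    (π cp σ cq : ℕ → H) : Prop where
  vt : ∀ a b, Φ (x0 ^ a * x1 ^ b * t ^ (2 * r - 2)) = c * κ * lam k a b
  vt' : ∀ a b, Φ (x0 ^ a * x1 ^ b * t ^ (r - 2)) = 0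
  θt : θ t = t
  θ0 : θ x0 = x1
  θ1 : θ x1 = x0
  np : NewtonRec ℝ π cp
  nq : NewtonRec ℝ σ cq
  top : ∀ j, 2 * r - 2 < j → cq j = 0
  spl : ∀ j, 1 ≤ j → π j = t ^ j + (-t) ^ j + σ j
  odd : ∀ j, Odd j → π j = 0
  low : ∀ j, 1 ≤ j → j < 2 * r → j ≠ r → cp j = 0
  lin : ∃ β₀ β₁ : ℝ, cp r = β₀ • x0 + β₁ • x1
  quad : ∃ a₀ a₁ a₂ : ℝ, cp (2 * r) = a₀ • x0 ^ 2 + a₁ • (x0 * x1) + a₂ • x1 ^ 2

/-- the input of block `tangent`, in the ring of the fibre product: `g` are the Chern classes of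
`T - P₁ - P₂` -/
structure Tg (k r : ℕ) (b q : ℝ) (x0 x1 x2 : H) (t : ℕ → ℝ) (T π₁ π₂ g : ℕ → H) : Prop where
  n1 : x1 ^ (k + 1) = 0
  n2 : x2 ^ (k + 1) = 0
  p1 : NewtonRec ℝ π₁ (cP r b q x0 x1)
  p2 : NewtonRec ℝ π₂ (cP r b q x0 x2)
  ev : ∀ j, 1 ≤ j → T (2 * j) = tg r t x0 (2 * j)
  odd : ∀ j, Odd j → T j = 0
  ng : NewtonRec ℝ (fun j => T j - π₁ j - π₂ j) g
  rel : ∀ j, 2 * r * k < 2 * j + 4 * r → (x1 - x2) * g (2 * j) = 0

/-- the input of block `top`: `ww`, `ss` are the power sums of the normal bundles at the two ends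
with their complex structures, `cW` the Chern classes of the first one -/
structure Rel (k r : ℕ) (b q : ℝ) (p : ℕ → ℝ) (x0 x1 t z : H) (π ww ss cW : ℕ → H) : Prop where
  z1 : ∃ w, z ^ 2 = t * w
  z2 : Even r → ∃ w, z ^ 2 = t ^ 2 * w
  hb : Odd r → b = 0
  np : NewtonRec ℝ π (cP r b q x0 x1)
  wz : ∀ j, ww j = ∑ i ∈ range (j + 1), ((j.choose i : ℕ) : ℝ) • (t ^ i * ss (j - i))
  s0 : ss 0 = algebraMap ℝ H ((r * (k - 1) : ℕ) : ℝ)
  ev0 : ∀ j, 1 ≤ j → (2 : ℝ) • ww (2 * j) = tg r (tv k r b p) x0 (2 * j) - π (2 * j)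
  ev1 : ∀ j, 1 ≤ j → (2 : ℝ) • ss (2 * j) = tg r (tv k r b p) x1 (2 * j) - π (2 * j)
  nw : NewtonRec ℝ ww cW
  top : ∀ j, r * (k - 1) < j → cW j = 0
  g5 : x0 * (x0 - x1) * cW (r * (k - 1)) = 0

end

end Vale.Agent.P231Z.D
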