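import Vale.Agent.P231Z.D.Defs

/-!
# P231 (D), block D5: the relations between the classes of the bundles over the space of pairs
-/

set_option maxSynthPendingDepth 3
set_option linter.unusedSectionVars false
set_option linter.unusedVariables false

open Bundle Manifold Set Filter Module MeasureTheory Matrix
open scoped ContDiff Manifold Topology ENNReal Real

namespace Vale.Agent.P231Z.D

noncomputable section

open Vale.Agent.P234 Vale.Agent.P231 Vale.Agent.P231.Fm Vale.Agent.P231.W Vale.Agent.P231.WR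
  Vale.Agent.P231.H766 Vale.Agent.P231.WG Vale.Agent.P231.S2II Vale.Agent.P231.WQ
open Vale.Agent.P231.X3 Vale.Agent.P231.ChW

/-! ### real classes of basic idempotents -/

namespace Bn

section Rc

variable {X : Type*} {DX : Dif X} {Φ : X × ℝ → X} {hΦ : (DX.prod (Dif.lin ℝ)).Map DX Φ}
  {n n' : Type*} [Fintype n] [DecidableEq n] [Fintype n'] [DecidableEq n']

/-- the real Chern character form as a closed even basic form -/
def rb {A : Matrix n n (CF DX)} (h : ChW.IB Φ hΦ A) (k : ℕ) : H584.Bas Φ hΦ :=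
  ⟨sF k A, sF_even h.idem k, sF_closed h.idem k, sF_basic h.bas k⟩

/-- its class -/
def rc {A : Matrix n n (CF DX)} (h : ChW.IB Φ hΦ A) (k : ℕ) : Hb Φ hΦ := qm Φ hΦ (rb h k)

theorem qm_add (a b : H584.Bas Φ hΦ) : qm Φ hΦ (a + b) = qm Φ hΦ a + qm Φ hΦ b :=
  (qm Φ hΦ).toLinearMap.map_add a b

theorem qm_smul (c : ℝ) (a : H584.Bas Φ hΦ) : qm Φ hΦ (c • a) = c • qm Φ hΦ a :=
  (qm Φ hΦ).toLinearMap.map_smul c a

theorem rc_congr {A B : Matrix n n (CF DX)} (hA : ChW.IB Φ hΦ A) (hB : ChW.IB Φ hΦ B)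
    (h : A = B) (k : ℕ) : rc hA k = rc hB k := by
  subst h
  rfl

theorem rc_add {A B S : Matrix n n (CF DX)} (hS : ChW.IB Φ hΦ S) (hA : ChW.IB Φ hΦ A)
    (hB : ChW.IB Φ hΦ B) (h : S = A + B) (h1 : A * B = 0) (h2 : B * A = 0) (k : ℕ) :
    rc hS k = rc hA k + rc hB k := by
  subst h
  rw [rc, rc, rc, ← qm_add]
  exact Coh.qm_eq (coh_add hA.idem hB.idem h1 h2 hA.bas hB.bas k)

theorem rc_cj {A : Matrix n n (CF DX)} (hA : ChW.IB Φ hΦ A) (k : ℕ) :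
    rc hA.cj k = (-1 : ℝ) ^ k • rc hA k := by
  rw [rc, rc, ← qm_smul]
  congr 1
  exact Subtype.ext (sF_cj A k)

theorem cj_mul_zero {A : Matrix n n (CF DX)} (h : A * cj A = 0) : cj A * A = 0 := by
  have h1 := congrArg cj h
  rwa [cj_mul, cj_cj, cj_zero] at h1

theorem rc_conj_sum {A S : Matrix n n (CF DX)} (hS : ChW.IB Φ hΦ S) (hA : ChW.IB Φ hΦ A)
    (h : S = A + cj A) (h1 : A * cj A = 0) (k : ℕ) :
    rc hS k = rc hA k + (-1 : ℝ) ^ k • rc hA k := by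
  rw [rc_add hS hA hA.cj h h1 (cj_mul_zero h1), rc_cj]

theorem rc_image {A B : Matrix n n (CF DX)} (hA : ChW.IB Φ hΦ A) (hB : ChW.IB Φ hΦ B)
    (h1 : A * B = B) (h2 : B * A = A) (k : ℕ) : rc hB k = rc hA k :=
  Coh.qm_eq (coh_image hA.idem hB.idem h1 h2 hA.bas hB.bas k)

theorem rc_iso {A : Matrix n n (CF DX)} {B : Matrix n' n' (CF DX)} {a : Matrix n' n (CF DX)}
    {b : Matrix n n' (CF DX)} (hA : ChW.IB Φ hΦ A) (hB : ChW.IB Φ hΦ B) (ha : Ev a) (hb : Ev b)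
    (hab : a * b = B) (hba : b * a = A) (ba : BasicM Φ hΦ a) (bb : BasicM Φ hΦ b) (k : ℕ) :
    rc hB k = rc hA k :=
  Coh.qm_eq (coh_of hA.idem hB.idem ha hb hab hba hA.bas hB.bas ba bb k)

theorem rc_rankOne {A : Matrix n n (CF DX)} (hA : ChW.IB Φ hΦ A) (h1 : RankOne A)
    (h2 : Aᵀ = cj A) (k : ℕ) : rc hA k = rc hA 1 ^ k := by
  rw [rc, rc, ← map_pow]
  congr 1
  exact Subtype.ext (sF_rankOne hA.idem h1 h2 k)

theorem rc_line {A : Matrix n n (CF DX)} {B : Matrix n' n' (CF DX)} (hA : ChW.IB Φ hΦ A)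
    (hB : ChW.IB Φ hΦ B) (h1 : RankOne A) (h2 : Aᵀ = cj A) (k : ℕ) :
    rc (hA.kr hB) k = ∑ i ∈ Finset.range (k + 1),
      ((k.choose i : ℕ) : ℝ) • (rc hA 1 ^ i * rc hB (k - i)) := by
  have h3 : rb (hA.kr hB) k = ∑ i ∈ Finset.range (k + 1),
      ((k.choose i : ℕ) : ℝ) • (rb hA 1 ^ i * rb hB (k - i)) := by
    refine Subtype.ext ((sF_line hA.idem hB.idem h1 h2 k).trans ?_)
    refine Eq.trans ?_ (map_sum (H584.Bas Φ hΦ).val _ _).symm
    refine Finset.sum_congr rfl fun i _ => ?_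
    rw [← Nat.cast_smul_eq_nsmul ℝ]
    rfl
  rw [rc, h3, map_sum]
  refine Finset.sum_congr rfl fun i _ => ?_
  rw [qm_smul, map_mul, map_pow]
  rfl

theorem rc_pull {θ : X → X} (hθ : DX.Map DX θ) (hθR : ∀ x t, θ (Φ (x, t)) = Φ (θ x, t))
    {A : Matrix n n (CF DX)} (hA : ChW.IB Φ hΦ A) (k : ℕ) :
    hbPull hθ hθR (rc hA k) = rc (ib_pull hθ hθR hA) k := by
  rw [rc, hbPull_qm, rc]
  congr 1
  exact Subtype.ext (S2T.IB.sF_pull A θ hθ k).symm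

theorem rc_top {A : Matrix n n (CF DX)} (hA : ChW.IB Φ hΦ A) (h2 : Aᵀ = cj A) {r : ℕ}
    {a : X → Matrix n n ℂ} (hp : RankLE r A a) {j : ℕ} (hj : r < j) : newtE ℝ (rc hA) j = 0 :=
  hp.newton_quot (Complex.I / (2 * Real.pi)) (H584.Bas Φ hΦ).val Subtype.val_injective
    (qm Φ hΦ) (σ := fun k => rb hA k) (fun k => by
      change (Cx.of (sF (k + 1) A) : CF DX) = _
      rw [← sC_of_herm hA.idem h2]
      rfl) (newtE_spec _) hj

theorem rc_zero {A : Matrix n n (CF DX)} (hA : ChW.IB Φ hΦ A) {r : ℝ}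
    (hr : (trace A).re = algebraMap ℝ (Form DX) r) : rc hA 0 = algebraMap ℝ (Hb Φ hΦ) r := by
  have h1 : rb hA 0 = algebraMap ℝ (H584.Bas Φ hΦ) r := by
    refine Subtype.ext ?_
    change sF 0 A = _
    rw [sF_zero, hr]
    rfl
  rw [rc, h1, AlgHom.commutes]

theorem ibR {a : X → Matrix n n ℝ} (ha : SmM DX a) (h : ∀ x, a x * a x = a x)
    (h' : ∀ x t, a (Φ (x, t)) = a x) : ChW.IB Φ hΦ (S2T.cR a ha) :=
  ⟨⟨S2T.ev_cR _, S2T.cR_mul _ _ _ h⟩, basicM_cM _ fun x t => by rw [h']⟩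

theorem rc_odd {a : X → Matrix n n ℝ} {ha : SmM DX a} (h : ChW.IB Φ hΦ (S2T.cR a ha)) {k : ℕ}
    (hk : Odd k) : rc h k = 0 := by
  rw [rc, ← map_zero (qm Φ hΦ)]
  congr 1
  refine Subtype.ext ?_
  change sF k (S2T.cR a ha) = 0
  rw [S2T.cR_eq]
  exact sF_real_odd _ hk

theorem cR_mul_zero {a b : X → Matrix n n ℝ} (ha : SmM DX a) (hb : SmM DX b)
    (h : ∀ x, a x * b x = 0) : S2T.cR a ha * S2T.cR b hb = 0 :=
  (S2T.cR_mul ha hb (SmM.const DX 0) h).trans (S2T.cR_zero _ fun _ => rfl)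

theorem herm_cR {a : X → Matrix n n ℝ} (ha : SmM DX a) (h : ∀ x, (a x)ᵀ = a x) :
    (S2T.cR a ha)ᵀ = cj (S2T.cR a ha) := by
  rw [S2T.cj_cR, S2T.cR_transpose]
  exact S2T.cR_congr _ _ h

/-- the classes of a splitting -/
theorem rc_spl {tm pm : X → Matrix n n ℝ} {wm : X → Matrix n n ℂ} (h : Spl Φ tm pm wm)
    {ht : SmM DX tm} {hp : SmM DX pm} {hw : SmM DX wm} (iT : ChW.IB Φ hΦ (S2T.cR tm ht))
    (iP : ChW.IB Φ hΦ (S2T.cR pm hp)) (iW : ChW.IB Φ hΦ (cM wm hw)) (j : ℕ) :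
    (2 : ℝ) • rc iW (2 * j) = rc iT (2 * j) - rc iP (2 * j) := by
  have h1 : cM wm hw * cj (cM wm hw) = 0 := cM_mul_cj_zero hw hw h.ww
  have h2 : S2T.cR (fun x => tm x - pm x) (ht.sub hp) = cM wm hw + cj (cM wm hw) := by
    rw [cj_cM, cM_add]
    exact cM_congr _ _ h.eq
  have iN : ChW.IB Φ hΦ (S2T.cR (fun x => tm x - pm x) (ht.sub hp)) := by
    rw [h2]
    exact iW.add iW.cj h1 (cj_mul_zero h1)
  have h3 := rc_add iT iP iN (S2T.cR_add hp (ht.sub hp) ht fun x => by abel).symm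
    (cR_mul_zero _ _ h.pn) (cR_mul_zero _ _ h.np) (2 * j)
  rw [h3, rc_conj_sum iN iW h2 h1, (even_two_mul j).neg_one_pow, one_smul, two_smul]
  abel

end Rc

variable {E : Type*} [NormedAddCommGroup E] [NormedSpace ℝ E]
  {M : Type*} [MetricSpace M] [ChartedSpace E M]
  [RiemannianBundle (fun x : M => TangentSpace 𝓘(ℝ, E) x)]
  {e : ∀ x : M, TangentSpace 𝓘(ℝ, E) x → M}
  [FiniteDimensional ℝ E] [IsManifold 𝓘(ℝ, E) ∞ M]
  [IsContMDiffRiemannianBundle 𝓘(ℝ, E) ∞ E (fun x : M => TangentSpace 𝓘(ℝ, E) x)]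
  [CompactSpace M] [ConnectedSpace M] [IsRiemannianManifold 𝓘(ℝ, E) M]
  {D : ℝ} {K l : ℕ} (G : X3.Geo e D l) (P : PF E M K)

theorem ib_pF : ChW.IB G.R G.map_R (S2T.cR (pF P) (sm_pF G P)) :=
  ibR _ (pF_idem P) (pF_R G P)

theorem ib_pB : ChW.IB G.R G.map_R (S2T.cR (pB P) (sm_pB G P)) :=
  ibR _ (pB_idem P) (pB_R G P)

theorem ib_qF : ChW.IB G.R G.map_R (S2T.cR (qF P) (sm_qF G P)) :=
  ibR _ (qF_idem P) (qF_R G P)

theorem ib_lF : ChW.IB G.R G.map_R (S2T.cR (lF P) (sm_lF P)) :=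
  ibR _ (lF_idem P) (lF_R G P)

theorem ib_tF' : ChW.IB G.R G.map_R (S2T.cR (tF P) (sm_tF G P)) :=
  ibR _ (tF_idem P) (tF_R G P)

theorem ib_tB' : ChW.IB G.R G.map_R (S2T.cR (tB P) (sm_tB G P)) :=
  ibR _ (tB_idem P) (tB_R G P)

theorem ib_Wf : ChW.IB G.R G.map_R (cM (Wf G P) (sm_Wf G P)) :=
  ib_cM _ (fun p => (cor G P p).cs1.eig_eig) fun p t => Wf_R G P p t

theorem pi_eq (j : ℕ) : pi G P j = rc (ib_pF G P) j := rfl

theorem sg_eq : sg G P = rc (ib_qF G P) := rfl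

theorem ww_eq : ww G P = rc (ib_Wm G P) := rfl

theorem ss_eq (j : ℕ) : ss G P j = rc (ib_Hm G P) j := rfl

theorem ww_eq' (j : ℕ) : ww G P j = rc (ib_Wf G P) j :=
  rc_image (ib_Wf G P) (ib_Wm G P) (cM_mul_hp (sm_Wf G P) fun p => (cor G P p).cs1.eig_eig)
    (hp_mul_cM (sm_Wf G P) fun p => (cor G P p).cs1.eig_eig) j

theorem ss_eq' (j : ℕ) : ss G P j = rc (ib_Zm G P) j :=
  rc_image (ib_Zm G P) (ib_Hm G P) (cM_mul_hp (sm_Zm G P) fun p => (cor G P p).cs2.eig_eig)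
    (hp_mul_cM (sm_Zm G P) fun p => (cor G P p).cs2.eig_eig) j

theorem T0_eq (j : ℕ) : T0 G P j = rc (ib_tF' G P) j := by
  rw [T0, S2T.xf, rc]
  congr 1
  refine Subtype.ext ?_
  change Form.pull (fun p : Pr e D => foot p.v) G.map_foot (S2T.tcl P j) =
    sF j (S2T.cR (tF P) (sm_tF G P))
  rw [S2T.tcl, ← S2T.IB.sF_pull, S2T.map_pullC_cR]
  rfl

theorem T1_eq (j : ℕ) : T1 G P j = rc (ib_tB' G P) j := by
  rw [T1, S2T.xb, rc]
  congr 1
  refine Subtype.ext ?_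
  change Form.pull (fun p : Pr e D => bar e D p.v) G.map_bar (S2T.tcl P j) =
    sF j (S2T.cR (tB P) (sm_tB G P))
  rw [S2T.tcl, ← S2T.IB.sF_pull, S2T.map_pullC_cR]
  rfl

theorem th_pi (j : ℕ) : th G (pi G P j) = rc (ib_pB G P) j := by
  rw [th, pi_eq, rc_pull]
  refine rc_congr _ _ ?_ j
  rw [S2T.map_pullC_cR]
  exact S2T.cR_congr _ _ fun p => (pB_eq G P p).symm

theorem tt_eq : tt G P = rc (ib_Lm G P) 1 := by
  rw [tt, rc]
  congr 1
  exact Subtype.ext (congrArg Cx.re (sC_Lm (e := e) (D := D) P)).symm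

theorem herm_Lm : (cM (Lm (e := e) (D := D) P) (sm_Lm P))ᵀ = cj (cM (Lm P) (sm_Lm P)) := by
  rw [cM_transpose, cj_cM]
  exact cM_congr _ _ fun p => lin_transpose _

theorem one_Lm : RankOne (cM (Lm (e := e) (D := D) P) (sm_Lm P)) :=
  rankOne_cM (sm_Lm P) (Lm_idem P) (trace_Lm P)

theorem pi_spl (j : ℕ) : pi G P j = tt G P ^ j + (-tt G P) ^ j + sg G P j := by
  have h1 := rc_add (ib_pF G P) (ib_lF G P) (ib_qF G P)
    (S2T.cR_add (sm_lF P) (sm_qF G P) (sm_pF G P) fun p => by rw [qF]; abel).symm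
    (cR_mul_zero _ _ (lF_qF P)) (cR_mul_zero _ _ (qF_lF P)) j
  have h2 := rc_conj_sum (ib_lF G P) (ib_Lm G P) (by
    rw [cj_cM, cM_add]
    exact cM_congr _ _ fun p => (Lm_add P p).symm) (cM_mul_cj_zero _ _ (Lm_conj P)) j
  rw [pi_eq, h1, h2, rc_rankOne (ib_Lm G P) (one_Lm P) (herm_Lm P), ← tt_eq, sg_eq,
    ← neg_one_smul ℝ (tt G P), smul_pow]

theorem ww_line (j : ℕ) : ww G P j = ∑ i ∈ Finset.range (j + 1),
    ((j.choose i : ℕ) : ℝ) • (tt G P ^ i * ss G P (j - i)) := by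
  have h1 := rc_iso ((ib_Lm G P).kr (ib_Zm G P)) (ib_Wf G P) (a := cM (ka G P) (sm_ka G P))
    (b := cM (la G P) (sm_la G P)) (ev_cM _) (ev_cM _) (by
      rw [cM_mul]
      exact cM_congr _ _ fun p => ka_la G P p) (by
      rw [cM_mul, kr_cM]
      exact cM_congr _ _ fun p => la_ka G P p) (basicM_cM _ fun p t => ka_R G P p t)
    (basicM_cM _ fun p t => la_R G P p t) j
  rw [ww_eq', h1, rc_line (ib_Lm G P) (ib_Zm G P) (one_Lm P) (herm_Lm P), ← tt_eq]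
  exact Finset.sum_congr rfl fun i _ => by rw [ss_eq']

theorem cq_top (hl : 1 ≤ l) {j : ℕ} (hj : l - 1 < j) : cq G P j = 0 := by
  have hi : ∀ p : Pr e D, cplx (qF P p) * cplx (qF P p) = cplx (qF P p) := fun p => by
    rw [← cplx_mul, qF_idem]
  refine rc_top (ib_qF G P) (herm_cR _ (qF_tr P)) (a := fun p => cplx (qF P p))
    (rankLE_cM _ hi fun p => (rank_eq_of_trace (hi p) ?_).le) hj
  rw [cplx_trace, qF, Matrix.trace_sub, trace_pF G, trace_lF, Nat.cast_sub hl]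
  push_cast
  ring

end Bn

open Bn

variable {E : Type*} [NormedAddCommGroup E] [NormedSpace ℝ E]
  {M : Type*} [MetricSpace M] [ChartedSpace E M]
  [RiemannianBundle (fun x : M => TangentSpace 𝓘(ℝ, E) x)]
  {e : ∀ x : M, TangentSpace 𝓘(ℝ, E) x → M}
  [FiniteDimensional ℝ E] [IsManifold 𝓘(ℝ, E) ∞ M]
  [IsContMDiffRiemannianBundle 𝓘(ℝ, E) ∞ E (fun x : M => TangentSpace 𝓘(ℝ, E) x)]
  [CompactSpace M] [ConnectedSpace M] [IsRiemannianManifold 𝓘(ℝ, E) M]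
  {D : ℝ} {K : ℕ}

/-- D5 -/
theorem bun_rel {l s : ℕ} (G : X3.Geo e D l) (P : PF E M K) (hl : 1 ≤ l)
    (hE : finrank ℝ E = l + 1 + 2 * s) :
    (∀ j, l - 1 < j → cq G P j = 0) ∧
    (∀ j, 1 ≤ j → pi G P j = tt G P ^ j + (-tt G P) ^ j + sg G P j) ∧
    (∀ j, Odd j → pi G P j = 0) ∧
    (∀ j, ww G P j = ∑ i ∈ Finset.range (j + 1),
      ((j.choose i : ℕ) : ℝ) • (tt G P ^ i * ss G P (j - i))) ∧
    ss G P 0 = algebraMap ℝ (HH G) (s : ℝ) ∧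
    (∀ j, (2 : ℝ) • ww G P (2 * j) = T0 G P (2 * j) - pi G P (2 * j)) ∧
    (∀ j, (2 : ℝ) • ss G P (2 * j) = T1 G P (2 * j) - th G (pi G P (2 * j))) ∧
    ∀ j, s < j → cW G P j = 0 := by
  refine ⟨fun j hj => cq_top G P hl hj, fun j _ => pi_spl G P j,
    fun j hj => rc_odd (ib_pF G P) hj, ww_line G P, rc_zero (ib_Hm G P) (trace_Hm G P hE),
    fun j => ?_, fun j => ?_, fun j hj => ?_⟩
  · rw [ww_eq', T0_eq, pi_eq]
    exact rc_spl (spl_F G P) _ _ _ j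
  · rw [ss_eq', T1_eq, th_pi]
    exact rc_spl (spl_B G P) _ _ _ j
  · exact rc_top (ib_Wm G P) (herm_hp (sm_Wf G P) fun p => (cor G P p).cs1.eig_eig)
      (rankLE_hp (sm_Wf G P) (fun p => (cor G P p).cs1.eig_eig) (trace_Wf G P hE)) hj

end

end Vale.Agent.P231Z.D
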