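import Vale.Agent.P231Z.D.Defs
import Vale.Agent.P231Z.Res.AngZ
import Vale.Agent.P231Z.D.CohZ.A

/-!
# P231 (D), block D1: the classes which come from the space of cut pairs
-/

set_option maxSynthPendingDepth 3
set_option linter.unusedSectionVars false
set_option linter.unusedVariables false

open Bundle Manifold Set Filter Module MeasureTheory
open scoped ContDiff Manifold Topology ENNReal Real

namespace Vale.Agent.P231Z.D

noncomputable section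

open Vale.Agent.P234 Vale.Agent.P231 Vale.Agent.P231.Fm Vale.Agent.P231.W Vale.Agent.P231.WR
  Vale.Agent.P231.H766 Vale.Agent.P231.WG Vale.Agent.P231.S2II Vale.Agent.P231.WQ
open Vale.Agent.P231.X3 Vale.Agent.P231.ChW

variable {E : Type*} [NormedAddCommGroup E] [NormedSpace ℝ E]
  {M : Type*} [MetricSpace M] [ChartedSpace E M]
  [RiemannianBundle (fun x : M => TangentSpace 𝓘(ℝ, E) x)]
  {e : ∀ x : M, TangentSpace 𝓘(ℝ, E) x → M}
  [FiniteDimensional ℝ E] [IsManifold 𝓘(ℝ, E) ∞ M]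
  [IsContMDiffRiemannianBundle 𝓘(ℝ, E) ∞ E (fun x : M => TangentSpace 𝓘(ℝ, E) x)]
  [CompactSpace M] [ConnectedSpace M] [IsRiemannianManifold 𝓘(ℝ, E) M]
  {D : ℝ} {m k K : ℕ}

namespace CohZ

section Plane

variable {l : ℕ} (G : X3.Geo e D l) (P : PF E M K)

/-- the projector to the plane, over the unit tangent bundle -/
def pU (e : ∀ x : M, TangentSpace 𝓘(ℝ, E) x → M) (D : ℝ) (P : PF E M K) (v : UT E M) :
    Matrix (Fin K) (Fin K) ℝ :=
  P.mat (foot v) (foot v) (X3.prPL e D v)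

include G in
theorem sm_pU : SmM (dUT E M) (pU e D P) :=
  P.smM_mat map_foot ⟨fun hu ha => at_prP G.F G.hD G.hB G.hdiam G.hP hu ha⟩

theorem pU_idem (v : UT E M) : pU e D P v * pU e D P v = pU e D P v := by
  rw [pU, P.mat_mul]
  congr 1
  exact LinearMap.ext fun a => prP_prP D v a

theorem pU_tr (v : UT E M) : (pU e D P v).transpose = pU e D P v :=
  P.mat_transpose _ _ fun a b => ip_prP D v a b

include G in
theorem trace_pU (v : UT E M) : Matrix.trace (pU e D P v) = (l : ℝ) + 1 :=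
  trace_mat_prP G.F G.hD G.hB G.hP P v

open Classical in
/-- the projector to the plane, over the space of cut pairs -/
def pZ (e : ∀ x : M, TangentSpace 𝓘(ℝ, E) x → M) (D : ℝ) (P : PF E M K) (z : M × M) :
    Matrix (Fin K) (Fin K) ℝ :=
  if h : ∃ v : UT E M, CoZ.fb e D v = z then pU e D P h.choose else 0

theorem pZ_fb (v : UT E M) : pZ e D P (CoZ.fb e D v) = pU e D P v := by
  have h : ∃ w : UT E M, CoZ.fb e D w = CoZ.fb e D v := ⟨v, rfl⟩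
  rw [pZ, dif_pos h]
  have h1 : foot h.choose = foot v := congrArg Prod.fst h.choose_spec
  have h2 : bar e D h.choose = bar e D v := congrArg Prod.snd h.choose_spec
  exact X3.mat_congr P h1 h1 fun a => prP_congr h1 h2 a

theorem pZ_idem (z : M × M) : pZ e D P z * pZ e D P z = pZ e D P z := by
  rw [pZ]
  split_ifs with h
  · exact pU_idem P _
  · exact Matrix.mul_zero _

include G in
theorem sm_pZ : SmM (CoZ.dZ e D) (pZ e D P) := by
  intro i j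
  refine SmF.of ?_
  intro E' _ _ _ u x hu
  obtain ⟨v, h1, h2⟩ := hu
  refine ((sm_pU G P i j).sm h2).congr ?_
  filter_upwards [h1] with s hs
  have h3 : CoZ.fb e D (v s) = u s := hs
  rw [← h3, pZ_fb]

/-- the projector to the line of the vector -/
def lU (P : PF E M K) (v : UT E M) : Matrix (Fin K) (Fin K) ℝ :=
  Matrix.vecMulVec (P.em (foot v) (vec' v)) (P.em (foot v) (vec' v))

theorem sm_lU : SmM (dUT E M) (lU P) := by
  have h : ∀ i, SmF (dUT E M) (fun v => P.em (foot v) (vec' v) i) := fun i =>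
    SmF.of fun hu => P.sm_em (at_vec_tb hu) i
  exact fun i j => (h i).mul (h j)

theorem dot_em (v : UT E M) :
    dotProduct (P.em (foot v) (vec' v)) (P.em (foot v) (vec' v)) = 1 := by
  rw [← ip_vec' v, P.ip_eq]
  rfl

theorem lU_idem (v : UT E M) : lU P v * lU P v = lU P v := by
  rw [lU, Matrix.vecMulVec_mul_vecMulVec, dot_em, one_smul]

theorem lU_tr (v : UT E M) : (lU P v).transpose = lU P v := Matrix.transpose_vecMulVec _ _

theorem trace_lU (v : UT E M) : Matrix.trace (lU P v) = 1 := by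
  rw [lU, Matrix.trace_vecMulVec, dot_em]

theorem pU_lU (v : UT E M) : pU e D P v * lU P v = lU P v := by
  rw [lU, Matrix.mul_vecMulVec, pU, P.mat_mulVec]
  have h : X3.prPL e D v (vec' v) = vec' v := prP_of_mem (self_mem_Pl D v)
  rw [h]

/-- the cut pair of an orthonormal pair -/
def gZ (q : Pr e D) : M × M := CoZ.fb e D q.v

theorem map_gZ : (dPr e D).Map (CoZ.dZ e D) gZ := fun h => CoZ.map_fb (map_v h)

theorem gZ_R (q : Pr e D) (t : ℝ) : gZ (G.R (q, t)) = gZ q :=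
  Prod.ext (G.foot_R q t) (G.bar_R q t)

/-- the classes which come from the space of cut pairs -/
def fZ : (emp (CoZ.dZ e D)).Bas →ₐ[ℝ] HH G :=
  (qm G.R G.map_R).comp (phi G.map_R map_gZ (gZ_R G))

theorem fZ_d (w : (emp (CoZ.dZ e D)).Bas) (η : Form (CoZ.dZ e D)) (h : w.1 = η.d) :
    fZ G w = 0 := qm_phi _ _ _ w η h

theorem fZ_eq {w : (emp (CoZ.dZ e D)).Bas} {w' : H584.Bas G.R G.map_R}
    (h : Form.pull gZ map_gZ w.1 = w'.1) : fZ G w = qm G.R G.map_R w' :=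
  congrArg (qm G.R G.map_R) (Subtype.ext h)

theorem ib_pZ : S2T.IB (emp (CoZ.dZ e D)) (S2T.cR (pZ e D P) (sm_pZ G P)) :=
  S2T.ib_cR _ (pZ_idem P) fun i => i.elim

theorem fZ_cl (j : ℕ) : fZ G ((ib_pZ G P).cl j) = pi G P j := by
  refine fZ_eq G ?_
  change Form.pull gZ map_gZ (sF j (S2T.cR (pZ e D P) (sm_pZ G P))) =
    sF j (S2T.cR (pF P) (sm_pF G P))
  rw [← S2T.IB.sF_pull, S2T.map_pullC_cR]
  congr 1
  exact S2T.cR_congr _ _ fun q => pZ_fb P q.v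

/-- a closed even form at the first point -/
def Z0 {w : Form (dM E M)} (hd : w.d = 0) (hs : w.sg = w) : (emp (CoZ.dZ e D)).Bas :=
  ⟨Form.pull Prod.fst CoZ.map_Zfst w, by rw [← Form.pull_sg, hs], by
    rw [← Form.pull_d, hd, Co.pull_zero], fun i => i.elim⟩

/-- a closed even form at the second point -/
def Z1 {w : Form (dM E M)} (hd : w.d = 0) (hs : w.sg = w) : (emp (CoZ.dZ e D)).Bas :=
  ⟨Form.pull Prod.snd (CoZ.map_Zsnd G.F) w, by rw [← Form.pull_sg, hs], by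
    rw [← Form.pull_d, hd, Co.pull_zero], fun i => i.elim⟩

variable {w : Form (dM E M)} (hd : w.d = 0) (hs : w.sg = w)

theorem fZ_Z0 : fZ G (Z0 hd hs) = S2T.xf G hd hs :=
  fZ_eq G (H584.pull_pull (k := fun q : Pr e D => foot q.v) map_gZ CoZ.map_Zfst G.map_foot
    (fun _ => rfl) w)

theorem fZ_Z1 : fZ G (Z1 G hd hs) = S2T.xb G hd hs :=
  fZ_eq G (H584.pull_pull (k := fun q : Pr e D => bar e D q.v) map_gZ (CoZ.map_Zsnd G.F)
    G.map_bar (fun _ => rfl) w)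

theorem pull_Z0 : Form.pull (CoZ.fb e D) CoZ.map_fb (Z0 (e := e) (D := D) hd hs).1 =
    Form.pull foot map_foot w :=
  H584.pull_pull (k := foot) CoZ.map_fb CoZ.map_Zfst map_foot (fun _ => rfl) w

theorem pull_Z1 : Form.pull (CoZ.fb e D) CoZ.map_fb (Z1 G hd hs).1 =
    Form.pull (bar e D) (map_bar G.F D) w :=
  H584.pull_pull (k := bar e D) CoZ.map_fb (CoZ.map_Zsnd G.F) (map_bar G.F D) (fun _ => rfl) w

include hd hs in
theorem pth (hw : w ^ (k + 1) = 0) : H584.Pth k (Form.pull foot map_foot w)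
    (Form.pull (bar e D) (map_bar G.F D) w) (B0 G.F D w) := by
  obtain ⟨h1, h2, h3⟩ := H584.pull_good hd hs hw (map_gm G.F)
  have h4 := H584.Pth.of_cyl D h1 h2 h3
  rwa [WA.at_pull (map_gm G.F) D (map_bar G.F D) (fun _ => rfl),
    WA.at_pull (map_gm G.F) 0 map_foot (fun v => gm_zero G.F v)] at h4

end Plane

end CohZ

section Geo

variable (G : X3.Geo e D (2 * m + 1)) (P : PF E M K) {p : M}
  {Pi : TangentSpace 𝓘(ℝ, E) p → TangentSpace 𝓘(ℝ, E) p →L[ℝ] TangentSpace 𝓘(ℝ, E) p}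
  {o : TangentSpace 𝓘(ℝ, E) p → Fm.Lam (TangentSpace 𝓘(ℝ, E) p)}
  {ρ : TangentSpace 𝓘(ℝ, E) p → ℝ} {r₀ : ℝ}
  (hJ : FE.LineP e D p m Pi o) (hρ : WE.Rho e D p ρ r₀)

/-- D1a -/
theorem hs_zero (hm : 1 ≤ m) (hk : 1 ≤ k) (hE : finrank ℝ E = (2 * m + 2) * k) :
    S2X.hs (x0 G hJ hρ) (x1 G hJ hρ) k = 0 := by
  have : NeZero (2 * m + 1) := ⟨by omega⟩
  have hN : 2 ≤ finrank ℝ E := by
    rw [hE]
    nlinarith
  obtain ⟨hb, hc⟩ := Res.ornZ_FF G.F G.hD G.hB G.hdiam (S2T.Geo.hl G) hJ hρ hN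
  obtain ⟨κ, hκ, hψ⟩ := Res.exists_angZ G.F G.hD G.hB G.hdiam G.hP ⟨m, rfl⟩ (by omega) hb hc
  have h1 := CohZ.pth G (Om_d G hJ hρ) (Om_sg G hJ hρ) (Om_pow G hJ hρ hE)
  rw [← CohZ.pull_Z0 (e := e) (D := D) (Om_d G hJ hρ) (Om_sg G hJ hρ),
    ← CohZ.pull_Z1 G (Om_d G hJ hρ) (Om_sg G hJ hρ)] at h1
  have h2 := CohZ.hh_abs hψ h1 (CohZ.fZ G) (CohZ.fZ_d G)
  rw [CohZ.fZ_Z0, CohZ.fZ_Z1] at h2
  exact h2

/-- D1b -/
theorem cp_span (hm : 1 ≤ m) (hk : 2 ≤ k) (hE : finrank ℝ E = (2 * m + 2) * k) :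
    (∀ j, 1 ≤ j → j < 2 * (m + 1) → j ≠ m + 1 → cp G P j = 0) ∧
    (∃ β₀ β₁ : ℝ, cp G P (m + 1) = β₀ • x0 G hJ hρ + β₁ • x1 G hJ hρ) ∧
    ∃ a₀ a₁ a₂ : ℝ, cp G P (2 * (m + 1)) = a₀ • x0 G hJ hρ ^ 2 +
      a₁ • (x0 G hJ hρ * x1 G hJ hρ) + a₂ • x1 G hJ hρ ^ 2 := by
  have : NeZero (2 * m + 1) := ⟨by omega⟩
  have hN2 : 2 * (2 * m + 2) ≤ finrank ℝ E := by
    rw [hE, mul_comm]
    exact Nat.mul_le_mul_left _ hk
  have hN : 2 ≤ finrank ℝ E := by omega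
  obtain ⟨hb, hc⟩ := Res.ornZ_FF G.F G.hD G.hB G.hdiam (S2T.Geo.hl G) hJ hρ hN
  obtain ⟨κ, hκ, hψ⟩ := Res.exists_angZ G.F G.hD G.hB G.hdiam G.hP ⟨m, rfl⟩ (by omega) hb hc
  have hG := CoC.gen_UT
    (CoZ.gen_FF G.F G.hD G.hB G.hdiam (S2T.Geo.hl G) hJ hρ one_ne_zero hN)
  rw [← CohZ.pull_Z0 (e := e) (D := D) (Om_d G hJ hρ) (Om_sg G hJ hρ)] at hG
  have hC : NewtonRec ℝ (fun j => CohZ.fZ G ((CohZ.ib_pZ G P).cl j)) (cp G P) :=
    (newtE_spec (K := ℝ) (pi G P)).congr fun j => (CohZ.fZ_cl G P (j + 1)).symm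
  have h := CohZ.span_abs hψ (r := m + 1) (n₀ := finrank ℝ E - 1) (by ring) (by omega)
    (X0 := CohZ.Z0 (Om_d G hJ hρ) (Om_sg G hJ hρ))
    (X1 := CohZ.Z1 G (Om_d G hJ hρ) (Om_sg G hJ hρ)) hG (by omega)
    ((Om_deg G hJ hρ).pull _ CoZ.map_Zfst) (κ := κ⁻¹) (by rw [← smul_neg, CoZ.cZ, neg_sub]; rfl)
    (CohZ.sm_pZ G P) (CohZ.pZ_idem P)
    (fun v => by rw [CohZ.pZ_fb, CohZ.pU_tr])
    (fun v => by rw [CohZ.pZ_fb, CohZ.trace_pU G, Nat.cast_succ (2 * m + 1)])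
    (CohZ.sm_lU P) (CohZ.lU_idem P) (CohZ.lU_tr P)
    (fun v => by rw [CohZ.pZ_fb, CohZ.pU_lU]) (CohZ.trace_lU P) (CohZ.ib_pZ G P) (CohZ.fZ G)
    (CohZ.fZ_d G) hC
  rw [CohZ.fZ_Z0, CohZ.fZ_Z1] at h
  exact h

end Geo

end

end Vale.Agent.P231Z.D
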