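import Vale.Agent.P231Z.D.Alg
import Vale.Agent.P231.L3.AbsC

/-!
# P231 (D), classification of the dimension of the cut spheres: the geometric interface

`l = 2 m + 1`, `r = m + 1`, the dimension is `(2 m + 2) k`.
-/

set_option maxSynthPendingDepth 3
set_option linter.unusedSectionVars false
set_option linter.unusedVariables false

open Bundle Manifold Set Filter Module MeasureTheory
open scoped ContDiff Manifold Topology ENNReal Real

namespace Vale.Agent.P231Z.D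

noncomputable section

open Vale.Agent.P234 Vale.Agent.P231 Vale.Agent.P231.Fm Vale.Agent.P231.W Vale.Agent.P231.WR
  Vale.Agent.P231.H766 Vale.Agent.P231.WG Vale.Agent.P231.S2II Vale.Agent.P231.WQ
open Vale.Agent.P231.X3 Vale.Agent.P231.ChW

variable {E : Type*} [NormedAddCommGroup E] [NormedSpace ℝ E]
  {M : Type*} [MetricSpace M] [ChartedSpace E M]
  [RiemannianBundle (fun x : M => TangentSpace 𝓘(ℝ, E) x)]
  {e : ∀ x : M, TangentSpace 𝓘(ℝ, E) x → M}
  [FiniteDimensional ℝ E] [IsManifold 𝓘(ℝ, E) ∞ M]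
  [IsContMDiffRiemannianBundle 𝓘(ℝ, E) ∞ E (fun x : M => TangentSpace 𝓘(ℝ, E) x)]
  [CompactSpace M] [ConnectedSpace M] [IsRiemannianManifold 𝓘(ℝ, E) M]
  {D : ℝ} {m k K : ℕ}

/-! ### the classes of bundles (any `l`) -/

section Bundles

variable {l : ℕ} (G : X3.Geo e D l) (P : PF E M K)

/-- the ring of closed even basic forms modulo exact ones -/
abbrev HH : Type _ := Hb G.R G.map_R

/-- the class of the circle bundle -/
def tt : HH G := qm G.R G.map_R (yB G P)

/-- the exchange of the two ends -/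
def th : HH G →ₐ[ℝ] HH G := hbPull G.map_Th G.Th_R

/-- the power sums of the bundle of planes -/
def pi (j : ℕ) : HH G := qm G.R G.map_R (S2T.pcl G P j)

/-- the forms of the complement of `v`, `w` in the plane -/
def qcl (j : ℕ) : H584.Bas G.R G.map_R :=
  ⟨sF j (S2T.cR (qF P) (sm_qF G P)),
    sF_even ⟨S2T.ev_cR _, S2T.cR_mul _ _ _ (qF_idem P)⟩ j,
    sF_closed ⟨S2T.ev_cR _, S2T.cR_mul _ _ _ (qF_idem P)⟩ j,
    sF_basic (basicM_cM _ fun p t => by rw [qF_R]) j⟩

/-- the power sums of the complement of `v`, `w` in the plane -/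
def sg (j : ℕ) : HH G := qm G.R G.map_R (qcl G P j)

/-- the power sums of the tangent bundle at the foot -/
def T0 (j : ℕ) : HH G := S2T.xf G (S2T.tcl_d P j) (S2T.tcl_sg P j)

/-- the power sums of the tangent bundle at the other end -/
def T1 (j : ℕ) : HH G := S2T.xb G (S2T.tcl_d P j) (S2T.tcl_sg P j)

/-- the hermitian projector of the normal bundle at the foot with its complex structure -/
def Wm : Matrix (Fin K) (Fin K) (CF (dPr e D)) :=
  cM (fun p => hp (Wf G P p)) (smM_hp (sm_Wf G P) fun p => (cor G P p).cs1.eig_eig)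

theorem ib_Wm : ChW.IB G.R G.map_R (Wm G P) :=
  ib_hp (sm_Wf G P) (fun p => (cor G P p).cs1.eig_eig) fun p t => Wf_R G P p t

theorem ib_Hm : ChW.IB G.R G.map_R (Hm G P) :=
  ib_hp (sm_Zm G P) (fun p => (cor G P p).cs2.eig_eig) fun p t => Zm_R G P p t

/-- the forms of the normal bundle at the foot -/
def wcl (j : ℕ) : H584.Bas G.R G.map_R :=
  ⟨sF j (Wm G P), sF_even (ib_Wm G P).idem j, sF_closed (ib_Wm G P).idem j,
    sF_basic (ib_Wm G P).bas j⟩

/-- the forms of the normal bundle at the other end -/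
def scl (j : ℕ) : H584.Bas G.R G.map_R :=
  ⟨sF j (Hm G P), sF_even (ib_Hm G P).idem j, sF_closed (ib_Hm G P).idem j,
    sF_basic (ib_Hm G P).bas j⟩

/-- the power sums of the normal bundle at the foot -/
def ww (j : ℕ) : HH G := qm G.R G.map_R (wcl G P j)

/-- the power sums of the normal bundle at the other end -/
def ss (j : ℕ) : HH G := qm G.R G.map_R (scl G P j)

/-- the Chern classes of the normal bundle at the foot -/
def cW : ℕ → HH G := newtE ℝ (ww G P)

/-- the Chern classes of the complexified bundle of planes -/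
def cp : ℕ → HH G := newtE ℝ (pi G P)

/-- the Chern classes of the complexified complement -/
def cq : ℕ → HH G := newtE ℝ (sg G P)

theorem th_tt : th G (tt G P) = tt G P := hbPull_y G P

theorem th_xf {Om : Form (dM E M)} (hO : Om.d = 0) (hOe : Om.sg = Om) :
    th G (S2T.xf G hO hOe) = S2T.xb G hO hOe := by
  rw [th, S2T.xf, S2T.xb, hbPull_qm]
  congr 1
  refine Subtype.ext ?_
  exact H584.pull_pull (k := fun q : Pr e D => bar e D q.v) G.map_Th G.map_foot G.map_bar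
    (fun q => G.foot_Th q) _

theorem th_xb {Om : Form (dM E M)} (hO : Om.d = 0) (hOe : Om.sg = Om) :
    th G (S2T.xb G hO hOe) = S2T.xf G hO hOe := by
  rw [th, S2T.xf, S2T.xb, hbPull_qm]
  congr 1
  refine Subtype.ext ?_
  exact H584.pull_pull (k := fun q : Pr e D => foot q.v) G.map_Th G.map_bar G.map_foot
    (fun q => G.bar_Th q) _

theorem th_T0 (j : ℕ) : th G (T0 G P j) = T1 G P j := th_xf G _ _

end Bundles

/-! ### the generators -/

section Gen

variable (G : X3.Geo e D (2 * m + 1)) (P : PF E M K) {p : M}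
  {Pi : TangentSpace 𝓘(ℝ, E) p → TangentSpace 𝓘(ℝ, E) p →L[ℝ] TangentSpace 𝓘(ℝ, E) p}
  {o : TangentSpace 𝓘(ℝ, E) p → Fm.Lam (TangentSpace 𝓘(ℝ, E) p)}
  {ρ : TangentSpace 𝓘(ℝ, E) p → ℝ} {r₀ : ℝ}
  (hJ : FE.LineP e D p m Pi o) (hρ : WE.Rho e D p ρ r₀)

/-- the generator of the cohomology of `M` -/
abbrev Om : Form (dM E M) := S2T.FG G hJ hρ 1

theorem Om_d : (Om G hJ hρ).d = 0 := FE.FF_d G.F G.hD G.hB G.hdiam (S2T.Geo.hl G) hJ hρ 1

theorem Om_deg : Form.IsDeg (2 * m + 2) (Om G hJ hρ) :=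
  S2II.isDeg_FF G.F G.hD G.hB G.hdiam (S2T.Geo.hl G) hJ hρ 1

theorem Om_sg : (Om G hJ hρ).sg = Om G hJ hρ := (Om_deg G hJ hρ).sg_of_even ⟨m + 1, by ring⟩

theorem Om_pow (hE : finrank ℝ E = (2 * m + 2) * k) : Om G hJ hρ ^ (k + 1) = 0 := by
  refine WA.DimLE.pow_eq_zero (S2T.dimLE_M' (M := M) hE) (j := 2 * m + 2) ?_ (Om_deg G hJ hρ)
  nlinarith

/-- the generator at the foot -/
def x0 : HH G := S2T.xf G (Om_d G hJ hρ) (Om_sg G hJ hρ)

/-- the generator at the other end -/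
def x1 : HH G := S2T.xb G (Om_d G hJ hρ) (Om_sg G hJ hρ)

/-- the form `b₀` -/
abbrev b0 : Form (dPr e D) := L3.b0P G.F G.hD G.hB G.hdiam (Om G hJ hρ)

theorem b0_deg : Form.IsDeg (2 * m) (b0 G hJ hρ) :=
  b0P_isDeg G.F G.hD G.hB G.hdiam (l := 2 * m + 1) (by omega) (Om_deg G hJ hρ)

/-- the form `b₀` in the ring of basic forms -/
def zB : H584.Bas G.R G.map_R :=
  ⟨b0 G hJ hρ, (b0_deg G hJ hρ).sg_of_even (even_two_mul m),
    b0P_d G.F G.hD G.hB G.hdiam (Om_d G hJ hρ), H584.J_basic G.isFlow_R _⟩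

/-- the class `z` -/
def zz : HH G := qm G.R G.map_R (zB G hJ hρ)

theorem th_x0 : th G (x0 G hJ hρ) = x1 G hJ hρ := th_xf G _ _

theorem th_x1 : th G (x1 G hJ hρ) = x0 G hJ hρ := th_xb G _ _

theorem th_zz : th G (zz G hJ hρ) = -zz G hJ hρ := by
  rw [th, zz, hbPull_qm]
  refine Eq.trans ?_ ((qm G.R G.map_R).toLinearMap.map_neg (zB G hJ hρ))
  change qm G.R G.map_R _ = qm G.R G.map_R _
  congr 1
  exact Subtype.ext (b0P_Th G.F G.hD G.hB G.hdiam (Om G hJ hρ))

/-- the form at the foot -/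
abbrev F0 : Form (dPr e D) := Form.pull Pr.v map_v (Form.pull foot map_foot (Om G hJ hρ))

/-- the form at the other end -/
abbrev F1 : Form (dPr e D) :=
  Form.pull Pr.v map_v (Form.pull (bar e D) (map_bar G.F D) (Om G hJ hρ))

/-- the primitive of the difference -/
abbrev BB : Form (dPr e D) := Form.pull Pr.v map_v (B0 G.F D (Om G hJ hρ))

theorem F0_eq : F0 G hJ hρ = Form.pull (fun q : Pr e D => foot q.v) G.map_foot (Om G hJ hρ) :=
  H584.pull_pull (k := fun q : Pr e D => foot q.v) map_v map_foot G.map_foot (fun _ => rfl) _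

theorem F1_eq : F1 G hJ hρ = Form.pull (fun q : Pr e D => bar e D q.v) G.map_bar (Om G hJ hρ) :=
  H584.pull_pull (k := fun q : Pr e D => bar e D q.v) map_v (map_bar G.F D) G.map_bar
    (fun _ => rfl) _

/-- the data of the classes (`κ = 1`) -/
theorem geo : S2X.Geo G.isFlow_R 1 (X3.nu e D P) (F1 G hJ hρ) (F0 G hJ hρ) (BB G hJ hρ) := by
  have hO := Om_deg G hJ hρ
  have hOd := Om_d G hJ hρ
  have g1 : Form.IsDeg (2 * m + 2) (F1 G hJ hρ) := (hO.pull _ (map_bar G.F D)).pull _ map_v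
  have g2 : Form.IsDeg (2 * m + 2) (F0 G hJ hρ) := (hO.pull _ map_foot).pull _ map_v
  have gB : Form.IsDeg (2 * m + 1) (BB G hJ hρ) := (S2II.isDeg_B0 G.F hO).pull _ map_v
  have hev : Even (2 * m + 2) := ⟨m + 1, by ring⟩
  refine ⟨mul_ne_zero two_ne_zero Real.pi_ne_zero, one_ne_zero, nu_R G P, nu_sg P,
    g1.sg_of_even hev, ?_, ?_, g2.sg_of_even hev, ?_, ?_, gB.sg_of_odd ⟨m, rfl⟩, ?_⟩
  · rw [F1_eq]
    exact (S2T.invB G G.map_bar G.bar_R hOd (Om_sg G hJ hρ)).2.2.1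
  · rw [F1_eq]
    exact (S2T.invB G G.map_bar G.bar_R hOd (Om_sg G hJ hρ)).2.2.2
  · rw [F0_eq]
    exact (S2T.invB G G.map_foot G.foot_R hOd (Om_sg G hJ hρ)).2.2.1
  · rw [F0_eq]
    exact (S2T.invB G G.map_foot G.foot_R hOd (Om_sg G hJ hρ)).2.2.2
  · rw [BB, ← Form.pull_d, S2II.B0_d G.F hOd]
    exact map_sub (Form.pullA Pr.v map_v) _ _

theorem geo_x1 : (geo G P hJ hρ).x1 = x1 G hJ hρ := by
  change qm G.R G.map_R _ = qm G.R G.map_R _
  congr 1
  refine Subtype.ext ?_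
  change (1 : ℝ)⁻¹ • F1 G hJ hρ = _
  rw [inv_one, one_smul, F1_eq]
  rfl

theorem geo_x2 : (geo G P hJ hρ).x2 = x0 G hJ hρ := by
  change qm G.R G.map_R _ = qm G.R G.map_R _
  congr 1
  refine Subtype.ext ?_
  change (1 : ℝ)⁻¹ • F0 G hJ hρ = _
  rw [inv_one, one_smul, F0_eq]
  rfl

theorem geo_y : (geo G P hJ hρ).y = -tt G P := by
  rw [tt, ← map_neg]
  change qm G.R G.map_R _ = qm G.R G.map_R _
  congr 1
  refine Subtype.ext ?_
  change (2 * Real.pi)⁻¹ • (X3.nu e D P).d = -(-(1 / (2 * Real.pi)) • (X3.nu e D P).d)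
  rw [neg_smul, neg_neg, one_div]

theorem geo_z : (geo G P hJ hρ).z = zz G hJ hρ := by
  change qm G.R G.map_R _ = qm G.R G.map_R _
  congr 1
  refine Subtype.ext ?_
  change (1 : ℝ)⁻¹ • b0 G hJ hρ = b0 G hJ hρ
  rw [inv_one, one_smul]

theorem tt_zz : tt G P * zz G hJ hρ = x0 G hJ hρ - x1 G hJ hρ := by
  have h := (geo G P hJ hρ).yz
  rw [geo_y, geo_z, geo_x1, geo_x2, neg_mul] at h
  rw [← neg_sub (x1 G hJ hρ), ← h, neg_neg]

theorem x1_pow (hE : finrank ℝ E = (2 * m + 2) * k) : x1 G hJ hρ ^ (k + 1) = 0 := by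
  rw [x1, S2T.xb, ← map_pow, ← map_zero (qm G.R G.map_R)]
  congr 1
  refine Subtype.ext ?_
  change (Form.pull (fun p : Pr e D => bar e D p.v) G.map_bar (Om G hJ hρ)) ^ (k + 1) = 0
  have h1 := map_pow (Form.pullA (fun p : Pr e D => bar e D p.v) G.map_bar) (Om G hJ hρ) (k + 1)
  rw [Om_pow G hJ hρ hE, map_zero] at h1
  exact h1.symm

theorem x0_pow (hE : finrank ℝ E = (2 * m + 2) * k) : x0 G hJ hρ ^ (k + 1) = 0 := by
  rw [← th_x1, ← map_pow, x1_pow G hJ hρ hE, map_zero]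

end Gen

end

end Vale.Agent.P231Z.D
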