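import Vale.Agent.P231Z.D.Gys0
import Vale.Agent.P231Z.HU.Bun
import Vale.Agent.P231Z.Ang.Main
import Vale.Agent.P231.S2T.Inst2

/-!
# P231 (D): the Gysin argument on the fibre product with the unit tangent bundle
-/

set_option maxSynthPendingDepth 3
set_option linter.unusedSectionVars false
set_option linter.unusedVariables false

open Bundle Manifold Set Filter Module MeasureTheory
open scoped ContDiff Manifold Topology ENNReal Real

namespace Vale.Agent.P231Z.D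

noncomputable section

open Vale.Agent.P234 Vale.Agent.P231 Vale.Agent.P231.Fm Vale.Agent.P231.W Vale.Agent.P231.WR
open Vale.Agent.P231.X3 Vale.Agent.P231.ChW

variable {E : Type*} [NormedAddCommGroup E] [NormedSpace ℝ E]
  {M : Type*} [MetricSpace M] [ChartedSpace E M]
  [RiemannianBundle (fun x : M => TangentSpace 𝓘(ℝ, E) x)]
  {e : ∀ x : M, TangentSpace 𝓘(ℝ, E) x → M}
  [FiniteDimensional ℝ E] [IsManifold 𝓘(ℝ, E) ∞ M]
  [IsContMDiffRiemannianBundle 𝓘(ℝ, E) ∞ E (fun x : M => TangentSpace 𝓘(ℝ, E) x)]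
  [CompactSpace M] [ConnectedSpace M] [IsRiemannianManifold 𝓘(ℝ, E) M]
  {D : ℝ}

/-- D6b: the Gysin argument -/
theorem mul_eq_zero_of_exact {l : ℕ} (G : X3.Geo e D l) (hl : 1 ≤ l) (h2 : 2 ≤ finrank ℝ E)
    {Om : Form (dM E M)} (hO : Om.d = 0) (hOe : Om.sg = Om) {j : ℕ} (hj : Form.IsDeg (j + 1) Om)
    {w : H584.Bas G.R G.map_R}
    {η : Form (Co.dPb (dPr e D) (dUT E M) foot (fun q : Pr e D => foot q.v))}
    (hη : Form.pull Prod.fst Co.map_pb_fst (w : Form (dPr e D)) = η.d)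
    {hR : ((Co.dPb (dPr e D) (dUT E M) foot (fun q : Pr e D => foot q.v)).prod
        (Dif.lin ℝ)).Map (Co.dPb (dPr e D) (dUT E M) foot (fun q : Pr e D => foot q.v))
        (fun z => (G.R (z.1.1, z.2), z.1.2))} (hb : Basic _ hR η) :
    S2T.xf G hO hOe * qm G.R G.map_R w = 0 := by
  obtain ⟨N, hN⟩ : ∃ N, finrank ℝ E = N + 1 := ⟨finrank ℝ E - 1, by omega⟩
  obtain ⟨P, hP⟩ := HU.exists_ori G.F G.hD G.hB G.hdiam
    (fun x y h => by rw [G.hP x y h]; omega) hN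
  obtain ⟨ψ, ε, hψ⟩ := Ang.exists_ang_M (HU.bun_U hN hP) (S2II.bas (N + 1)) (by omega)
  have h0 : Om * ε = 0 :=
    WA.DimLE.isDeg_eq_zero (S2T.dimLE_M' (M := M) hN) (by omega) (hj.mul hψ.dege)
  obtain ⟨u, hu, hu'⟩ := Gys.exists_prim (S2II.bas (N + 1)) (HU.bun_U hN hP) hψ G.map_foot
    G.map_R G.foot_R hO hOe h0 w.2.1 hη hb
  rw [S2T.xf, ← map_mul, ← map_zero (qm G.R G.map_R)]
  exact qm_eq_of hu ((sub_zero _).trans hu')

end

end Vale.Agent.P231Z.D
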