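import Vale.Agent.P231.Co.BunPb
import Vale.Agent.P231.H584.Bas

/-!
# P231 (D): the Gysin argument with basic forms (abstract part)
-/

set_option linter.unusedSectionVars false
set_option linter.unusedVariables false

open MeasureTheory Set Module Filter Topology
open scoped ContDiff

namespace Vale.Agent.P231Z.D.Gys

open Vale.Agent.P231 Vale.Agent.P231.Fm Vale.Agent.P231.W Vale.Agent.P231.H584
  Vale.Agent.P231.Co
open Vale.Agent.P231.Fm (Sm Dif Form Lam)

variable {B S Fr Y : Type*} {DB : Dif B} {DS : Dif S} {DF : Dif Fr} {DY : Dif Y}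
variable {F : Type} [NormedAddCommGroup F] [InnerProductSpace ℝ F] [FiniteDimensional ℝ F]
variable {π : S → B} {q : Fr → B} {ev : Fr × F → S} {p : Y → B}
variable [MeasurableSpace F] [BorelSpace F] {m : ℕ} (o : OrthonormalBasis (Fin m) ℝ F)

/-- the two ways from the fibre product to the base -/
theorem pull_sq (hπ : DS.Map DB π) (hp : DY.Map DB p) (a : Form DB) :
    (Form.pull Prod.snd map_pb_snd (Form.pull π hπ a) : Form (dPb DY DS π p)) =
      Form.pull Prod.fst map_pb_fst (Form.pull p hp a) :=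
  Form.ext_val fun E _ _ _ u x hu => by
    rw [Form.pull_val _ _ hu, Form.pull_val _ _ (map_pb_snd hu), Form.pull_val _ _ hu,
      Form.pull_val _ _ (map_pb_fst hu)]
    exact a.congr (hπ (map_pb_snd hu)) hu.2

/-- the angular form of a pull-back -/
theorem ang_pb (h : Bun DB DS DF F π q ev) (hp : DY.Map DB p) {ψ : Form DS} {ε : Form DB}
    (hψ : h.Ang o ψ ε) :
    (h.pb hp).Ang o (Form.pull Prod.snd map_pb_snd ψ) (Form.pull p hp ε) where
  d := by
    rw [← Form.pull_d, hψ.d, pull_neg, pull_sq h.hπ hp]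
  one := by
    rw [h.SI_pb o hp, hψ.one, pull_one]
  deg := hψ.deg.pull _ _
  dege := hψ.dege.pull _ _

/-- the fibre integral of a basic form is basic -/
theorem basic_SI (h : Bun DB DS DF F π q ev) (hp : DY.Map DB p) {Φ : Y × ℝ → Y}
    (hΦ : (DY.prod (Dif.lin ℝ)).Map DY Φ) (hi : ∀ y t, p (Φ (y, t)) = p y)
    {hR : ((dPb DY DS π p).prod (Dif.lin ℝ)).Map (dPb DY DS π p)
      (fun z => (Φ (z.1.1, z.2), z.1.2))} {σ : Form (dPb DY DS π p)} (hσ : Basic _ hR σ) :
    Basic Φ hΦ ((h.pb hp).SI o σ) := by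
  have hp' : (DY.prod (Dif.lin ℝ)).Map DB (fun z : Y × ℝ => p z.1) := fun hu => hp hu.1
  have h1 := h.SI_pb_nat o hp hp' (r := Φ) hΦ (fun z => hi z.1 z.2) σ
  have h2 := h.SI_pb_nat o hp hp' (r := Prod.fst) Dif.map_fst (fun z => rfl) σ
  have hs : (dPb (DY.prod (Dif.lin ℝ)) DS π (fun z : Y × ℝ => p z.1)).Map
      ((dPb DY DS π p).prod (Dif.lin ℝ)) (fun z => ((z.1.1, z.2), z.1.2)) :=
    fun hu => ⟨⟨⟨hu.1.1.1, hu.1.2⟩, hu.2⟩, hu.1.1.2⟩
  have h3 := congrArg (Form.pull _ hs) hσ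
  rw [pr, pull_pull hs hR (map_pb_map hΦ (fun z => hi z.1 z.2)) (fun z => rfl),
    pull_pull hs Dif.map_fst (map_pb_map Dif.map_fst (fun z => rfl)) (fun z => rfl)] at h3
  rw [h3, h2] at h1
  exact h1.symm

/-- **the Gysin argument with basic forms** -/
theorem exists_prim (h : Bun DB DS DF F π q ev) {ψ : Form DS} {ε : Form DB} (hψ : h.Ang o ψ ε)
    (hp : DY.Map DB p) {Φ : Y × ℝ → Y} (hΦ : (DY.prod (Dif.lin ℝ)).Map DY Φ)
    (hi : ∀ y t, p (Φ (y, t)) = p y) {Om : Form DB} (hO : Om.d = 0) (hOe : Om.sg = Om)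
    (h0 : Om * ε = 0) {w : Form DY} (hw : w.sg = w) {η : Form (dPb DY DS π p)}
    (hη : Form.pull Prod.fst map_pb_fst w = η.d)
    {hR : ((dPb DY DS π p).prod (Dif.lin ℝ)).Map (dPb DY DS π p)
      (fun z => (Φ (z.1.1, z.2), z.1.2))} (hb : Basic _ hR η) :
    ∃ u : Form DY, Basic Φ hΦ u ∧ Form.pull p hp Om * w = u.d := by
  have h1 := (h.pb hp).gysin1 o (ang_pb o h hp hψ) hη
  rw [Function.iterate_fixed hw] at h1
  have hs : (Form.pull p hp Om).sg = Form.pull p hp Om := by rw [← Form.pull_sg, hOe]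
  have hd : (Form.pull p hp Om).d = 0 := by rw [← Form.pull_d, hO, pull_zero]
  have h2 : Basic _ hR (η * Form.pull Prod.snd map_pb_snd ψ) :=
    Basic.mul hb (basic_pull (hΦ := hR) map_pb_snd (fun z t => rfl) ψ)
  refine ⟨(-1 : ℝ) ^ (m + 1) • (Form.pull p hp Om *
    (h.pb hp).SI o (η * Form.pull Prod.snd map_pb_snd ψ)),
    Basic.smul _ (Basic.mul (basic_pull hp hi Om) (basic_SI o h hp hΦ hi h2)), ?_⟩
  rw [Form.d_smul, Form.d_mul, hd, zero_mul, zero_add, hs]
  conv_lhs => rw [h1]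
  rw [mul_add, ← mul_assoc, (even_comm hs _).eq, mul_assoc, ← pull_mul, h0, pull_zero, mul_zero,
    zero_add, mul_smul_comm]

end Vale.Agent.P231Z.D.Gys
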