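import Mathlib

/-!
# The hairy ball theorem (the proof of Milnor)
-/

open Set Metric Module MeasureTheory Polynomial Filter
open scoped Topology

namespace Vale.Agent.P231Z.D.Hb

variable {W : Type*} [NormedAddCommGroup W] [InnerProductSpace ℝ W] [FiniteDimensional ℝ W]

/-- `det (1 + t A)` -/
noncomputable def dt (A : W →L[ℝ] W) (t : ℝ) : ℝ := (ContinuousLinearMap.id ℝ W + t • A).det

theorem exists_poly (A : W →L[ℝ] W) :
    ∃ p : ℝ[X], p.natDegree ≤ finrank ℝ W ∧ ∀ t, p.eval t = dt A t := by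
  classical
  let b := Module.finBasis ℝ W
  let M := LinearMap.toMatrix b b (A : W →ₗ[ℝ] W)
  refine ⟨Matrix.det ((X : ℝ[X]) • M.map C + (1 : Matrix _ _ ℝ).map C), ?_, fun t => ?_⟩
  · simpa using natDegree_det_X_add_C_le M 1
  · have h1 := RingHom.map_det (evalRingHom t)
      ((X : ℝ[X]) • M.map C + (1 : Matrix (Fin (finrank ℝ W)) (Fin (finrank ℝ W)) ℝ).map C)
    rw [coe_evalRingHom] at h1
    rw [h1, dt, ContinuousLinearMap.det, ← LinearMap.det_toMatrix b]
    congr 1
    have h2 : ((ContinuousLinearMap.id ℝ W + t • A : W →L[ℝ] W) : W →ₗ[ℝ] W) =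
        LinearMap.id + t • (A : W →ₗ[ℝ] W) := rfl
    rw [h2, (LinearMap.toMatrix b b).map_add, (LinearMap.toMatrix b b).map_smul,
      LinearMap.toMatrix_id]
    ext i j
    simp only [RingHom.mapMatrix_apply, Matrix.map_apply, Matrix.add_apply, Matrix.smul_apply,
      smul_eq_mul, coe_evalRingHom, eval_add, eval_mul, eval_X, eval_C]
    exact add_comm _ _

omit [FiniteDimensional ℝ W] in
theorem continuous_dt : Continuous fun p : (W →L[ℝ] W) × ℝ => dt p.1 p.2 :=
  ContinuousLinearMap.continuous_det.comp (by fun_prop)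

theorem dt_interp (A : W →L[ℝ] W) (t : ℝ) :
    dt A t = ∑ j ∈ Finset.range (finrank ℝ W + 1), dt A j *
      (Lagrange.basis (Finset.range (finrank ℝ W + 1)) (fun j : ℕ => (j : ℝ)) j).eval t := by
  obtain ⟨p, hp, he⟩ := exists_poly A
  have h1 : p.degree < (Finset.range (finrank ℝ W + 1)).card := by
    rw [Finset.card_range]
    refine degree_le_natDegree.trans_lt ?_
    exact_mod_cast Nat.lt_succ_of_le hp
  have h2 := Lagrange.eq_interpolate (v := fun j : ℕ => (j : ℝ))
    (Nat.cast_injective.injOn) h1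
  rw [← he, h2, Lagrange.interpolate_apply, eval_finsetSum]
  refine Finset.sum_congr rfl fun j _ => ?_
  rw [eval_mul, eval_C, he]

theorem dt_ne (A : W →L[ℝ] W) {t : ℝ} (h : |t| * ‖A‖ < 1) : dt A t ≠ 0 := by
  intro h0
  obtain ⟨w, hw, hw0⟩ := (Submodule.ne_bot_iff _).1
    (LinearMap.bot_lt_ker_of_det_eq_zero h0).ne'
  have h1 : w + t • A w = 0 := hw
  have h2 : ‖w‖ = |t| * ‖A w‖ := by
    rw [eq_neg_of_add_eq_zero_left h1, norm_neg, norm_smul, Real.norm_eq_abs,
      ← eq_neg_of_add_eq_zero_left h1]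
  have h3 := A.le_opNorm w
  have h4 : 0 < ‖w‖ := norm_pos_iff.2 hw0
  have h5 : |t| * ‖A w‖ ≤ |t| * (‖A‖ * ‖w‖) := mul_le_mul_of_nonneg_left h3 (abs_nonneg t)
  nlinarith

theorem dt_pos (A : W →L[ℝ] W) {t : ℝ} (h : |t| * ‖A‖ < 1) : 0 < dt A t := by
  by_contra hn
  have hc : Continuous fun τ : ℝ => dt A (τ * t) :=
    continuous_dt.comp (continuous_const.prodMk (continuous_id.mul continuous_const))
  have h0 : dt A (0 * t) = 1 := by
    simp [dt, ContinuousLinearMap.det]
  have h1 : (0 : ℝ) ∈ Icc (dt A (1 * t)) (dt A (0 * t)) := by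
    rw [h0, one_mul]
    exact ⟨not_lt.1 hn, zero_le_one⟩
  obtain ⟨τ, hτ, hτ0⟩ := intermediate_value_Icc' zero_le_one hc.continuousOn h1
  refine dt_ne A ?_ hτ0
  rw [abs_mul, abs_of_nonneg hτ.1, mul_assoc]
  have h2 : 0 ≤ |t| * ‖A‖ := by positivity
  nlinarith [hτ.1, hτ.2]

theorem even_of_poly {n : ℕ} {P : ℝ[X]} {c δ : ℝ} (hc : 0 < c) (hδ : 0 < δ)
    (h : ∀ t, |t| < δ → P.eval t = √(1 + t ^ 2) ^ n * c) : Even n := by
  have hinf : (Ioo (-δ) δ).Infinite := Ioo_infinite (by linarith)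
  have h1 : P ^ 2 = C (c ^ 2) * (X ^ 2 + C 1) ^ n := by
    refine eq_of_infinite_eval_eq _ _ (hinf.mono fun t ht => ?_)
    have h2 := h t (abs_lt.2 ht)
    have h3 : √(1 + t ^ 2) ^ 2 = 1 + t ^ 2 := Real.sq_sqrt (by positivity)
    simp only [mem_ofPred_eq, eval_pow, eval_mul, eval_C, eval_add, eval_X]
    rw [h2, mul_pow, ← pow_mul, mul_comm n 2, pow_mul, h3]
    ring
  have h2 : P.comp (-X) = P := by
    refine eq_of_infinite_eval_eq _ _ (hinf.mono fun t ht => ?_)
    have h3 := h t (abs_lt.2 ht)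
    have h4 := h (-t) (by rw [abs_neg]; exact abs_lt.2 ht)
    simp only [mem_ofPred_eq, eval_comp, eval_neg, eval_X]
    rw [h3, h4, neg_sq]
  have hP : P ≠ 0 := by
    intro h0
    have h3 := h 0 (by simpa using hδ)
    rw [h0] at h3
    simp at h3
    exact hc.ne' h3.symm
  have h3 : P.natDegree = n := by
    have h4 := congrArg natDegree h1
    rw [natDegree_pow, natDegree_C_mul (pow_pos hc 2).ne', natDegree_pow,
      natDegree_X_pow_add_C] at h4
    omega
  have h4 := comp_neg_X_leadingCoeff_eq P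
  rw [h2, h3] at h4
  have h5 : P.leadingCoeff ≠ 0 := leadingCoeff_ne_zero.2 hP
  by_contra hn
  rw [(Nat.not_even_iff_odd.1 hn).neg_one_pow] at h4
  exact h5 (by linarith)

/-- the homogeneous form of the theorem -/
theorem even_of_field {v : W → W} (hv : ∀ x, x ≠ 0 → ContDiffAt ℝ 1 v x)
    (hn : ∀ x, ‖v x‖ = ‖x‖) (ho : ∀ x, inner ℝ x (v x) = 0)
    (hh : ∀ (r : ℝ) x, 0 < r → v (r • x) = r • v x) : Even (finrank ℝ W) := by
  rcases subsingleton_or_nontrivial W with hW | hW
  · rw [Module.finrank_zero_of_subsingleton]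
    exact Even.zero
  borelize W
  have hd : ∀ x, x ≠ 0 → HasFDerivAt v (fderiv ℝ v x) x := fun x hx =>
    ((hv x hx).differentiableAt one_ne_zero).hasFDerivAt
  have hcf : ContinuousOn (fderiv ℝ v) {0}ᶜ := fun x hx =>
    ((hv x hx).continuousAt_fderiv one_ne_zero).continuousWithinAt
  have hfh : ∀ (r : ℝ) x, 0 < r → x ≠ 0 → fderiv ℝ v (r • x) = fderiv ℝ v x := by
    intro r x hr hx
    have e : v = fun y => r • v (r⁻¹ • y) := by
      funext y
      rw [← hh r _ hr, smul_smul, mul_inv_cancel₀ hr.ne', one_smul]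
    have h1 : HasFDerivAt v (fderiv ℝ v x) (r⁻¹ • r • x) := by
      rw [smul_smul, inv_mul_cancel₀ hr.ne', one_smul]
      exact hd x hx
    have h2 := (h1.comp (r • x) ((hasFDerivAt_id (r • x)).const_smul r⁻¹)).const_smul r
    have h3 : HasFDerivAt v (r • (fderiv ℝ v x).comp (r⁻¹ • ContinuousLinearMap.id ℝ W))
        (r • x) := by
      rw [e]
      rw [← e]
      refine h2.congr_of_eventuallyEq (Eventually.of_forall fun y => ?_)
      exact congrFun e y
    rw [h3.fderiv]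
    ext w
    simp [smul_smul, mul_inv_cancel₀ hr.ne']
  obtain ⟨K0, hK0⟩ := (isCompact_sphere (0 : W) 1).exists_bound_of_continuousOn
    (hcf.mono fun x hx => ne_zero_of_mem_unit_sphere ⟨x, hx⟩)
  set K := max K0 1 with hK
  have hK1 : 1 ≤ K := le_max_right _ _
  have hb : ∀ x, x ≠ 0 → ‖fderiv ℝ v x‖ ≤ K := by
    intro x hx
    have hx0 : 0 < ‖x‖ := norm_pos_iff.2 hx
    rw [← hfh ‖x‖⁻¹ x (inv_pos.2 hx0) hx]
    refine (hK0 _ ?_).trans (le_max_left _ _)
    rw [mem_sphere_zero_iff_norm, norm_smul, norm_inv, norm_norm, inv_mul_cancel₀ hx0.ne']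
  have hL : ∀ x y, ‖v x - v y‖ ≤ K * ‖x - y‖ := by
    intro x y
    by_cases h0 : (0 : W) ∈ segment ℝ y x
    · have h1 := dist_add_dist_of_mem_segment h0
      rw [dist_zero_right, dist_zero_left, dist_comm, dist_eq_norm] at h1
      have h2 := norm_sub_le (v x) (v y)
      rw [hn, hn] at h2
      nlinarith [norm_nonneg (x - y)]
    · have h1 : ∀ z ∈ segment ℝ y x, z ≠ 0 := fun z hz hz0 => h0 (hz0 ▸ hz)
      exact (convex_segment y x).norm_image_sub_le_of_norm_fderiv_le
        (fun z hz => (hd z (h1 z hz)).differentiableAt) (fun z hz => hb z (h1 z hz))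
        (left_mem_segment ℝ y x) (right_mem_segment ℝ y x)
  set s : Set W := ball 0 1 \ {0} with hs
  have hsm : MeasurableSet s := measurableSet_ball.diff (measurableSet_singleton 0)
  have hsf : volume s ≠ ⊤ := ((measure_mono sdiff_subset).trans_lt measure_ball_lt_top).ne
  have hint : ∀ j : ℝ, IntegrableOn (fun x => dt (fderiv ℝ v x) j) s := by
    intro j
    have h1 : Continuous fun A : W →L[ℝ] W => dt A j :=
      continuous_dt.comp (continuous_id.prodMk continuous_const)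
    obtain ⟨C, hC⟩ := (isCompact_closedBall (0 : W →L[ℝ] W) K).exists_bound_of_continuousOn
      h1.continuousOn
    refine Measure.integrableOn_of_bounded (M := C) hsf
      (h1.measurable.comp (measurable_fderiv ℝ v)).aestronglyMeasurable ?_
    filter_upwards [ae_restrict_mem hsm] with x hx
    exact hC _ (mem_closedBall_zero_iff.2 (hb x hx.2))
  have hc : 0 < (volume : Measure W).real (ball 0 1) :=
    ENNReal.toReal_pos (measure_ball_pos _ _ one_pos).ne' measure_ball_lt_top.ne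
  refine even_of_poly (P := ∑ j ∈ Finset.range (finrank ℝ W + 1),
    C (∫ x in s, dt (fderiv ℝ v x) j) *
      Lagrange.basis (Finset.range (finrank ℝ W + 1)) (fun j : ℕ => (j : ℝ)) j) hc
    (δ := K⁻¹) (by positivity) fun t ht => ?_
  have htK : |t| * K < 1 := by
    rwa [← one_div, lt_div_iff₀ (by positivity)] at ht
  set f : W → W := fun x => x + t • v x with hf
  have hρ : 0 < √(1 + t ^ 2) := Real.sqrt_pos.2 (by positivity)
  have hfn : ∀ x, ‖f x‖ = √(1 + t ^ 2) * ‖x‖ := by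
    intro x
    have h1 : ‖f x‖ ^ 2 = (√(1 + t ^ 2) * ‖x‖) ^ 2 := by
      rw [hf, norm_add_sq_real, inner_smul_right, ho, norm_smul, hn, mul_pow, mul_pow,
        Real.sq_sqrt (by positivity), Real.norm_eq_abs, sq_abs]
      ring
    exact (pow_left_inj₀ (norm_nonneg _) (by positivity) two_ne_zero).1 h1
  have hA : ApproximatesLinearOn f
      (ContinuousLinearEquiv.refl ℝ W : W →L[ℝ] W) univ ⟨|t| * K, by positivity⟩ := by
    intro x _ y _
    have e : f x - f y - (ContinuousLinearEquiv.refl ℝ W : W →L[ℝ] W) (x - y) =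
        t • (v x - v y) := by
      simp only [hf, ContinuousLinearEquiv.coe_refl, ContinuousLinearMap.id_apply, smul_sub]
      abel
    rw [e, norm_smul, Real.norm_eq_abs]
    change |t| * ‖v x - v y‖ ≤ |t| * K * ‖x - y‖
    rw [mul_assoc]
    exact mul_le_mul_of_nonneg_left (hL x y) (abs_nonneg t)
  have hlt : Subsingleton W ∨ (⟨|t| * K, by positivity⟩ : NNReal) <
      ‖((ContinuousLinearEquiv.refl ℝ W).symm : W →L[ℝ] W)‖₊⁻¹ := by
    right
    rw [ContinuousLinearEquiv.refl_symm, ContinuousLinearEquiv.coe_refl,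
      ContinuousLinearMap.nnnorm_id, inv_one]
    exact htK
  have hinj : InjOn f s := (hA.injOn hlt).mono (subset_univ _)
  have him : f '' s = ball 0 √(1 + t ^ 2) \ {0} := by
    ext y
    constructor
    · rintro ⟨x, hx, rfl⟩
      have h1 : ‖x‖ < 1 := mem_ball_zero_iff.1 hx.1
      have h2 : 0 < ‖x‖ := norm_pos_iff.2 hx.2
      refine ⟨mem_ball_zero_iff.2 ?_, ?_⟩
      · rw [hfn]
        nlinarith
      · rw [mem_singleton_iff, ← norm_eq_zero, hfn]
        positivity
    · rintro ⟨h1, h2⟩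
      obtain ⟨x, rfl⟩ := hA.surjective hlt y
      rw [mem_ball_zero_iff, hfn] at h1
      refine ⟨x, ⟨mem_ball_zero_iff.2 (by nlinarith), ?_⟩, rfl⟩
      intro hx
      apply h2
      rw [mem_singleton_iff] at hx ⊢
      rw [← norm_eq_zero, hfn, hx, norm_zero, mul_zero]
  have hder : ∀ x ∈ s, HasFDerivWithinAt f
      (ContinuousLinearMap.id ℝ W + t • fderiv ℝ v x) s x := fun x hx =>
    ((hasFDerivAt_id x).add ((hd x hx.2).const_smul t)).hasFDerivWithinAt
  have h1 := integral_image_eq_integral_abs_det_fderiv_smul (volume : Measure W) hsm hder hinj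
    (fun _ => (1 : ℝ))
  have h2 : ∫ x in s, |(ContinuousLinearMap.id ℝ W + t • fderiv ℝ v x).det| • (1 : ℝ) =
      ∫ x in s, ∑ j ∈ Finset.range (finrank ℝ W + 1), dt (fderiv ℝ v x) j *
        (Lagrange.basis (Finset.range (finrank ℝ W + 1)) (fun j : ℕ => (j : ℝ)) j).eval t := by
    refine setIntegral_congr_fun hsm fun x hx => ?_
    have h3 : 0 < dt (fderiv ℝ v x) t :=
      dt_pos _ ((mul_le_mul_of_nonneg_left (hb x hx.2) (abs_nonneg t)).trans_lt htK)
    change |dt (fderiv ℝ v x) t| • (1 : ℝ) = _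
    rw [abs_of_pos h3, smul_eq_mul, mul_one]
    exact dt_interp _ _
  rw [h2, integral_finsetSum _ fun (j : ℕ) _ => (hint j).mul_const _, him, integral_const,
    smul_eq_mul, mul_one, measureReal_restrict_apply_univ, measureReal_def,
    measure_sdiff_null (measure_singleton 0), Measure.addHaar_ball _ _ hρ.le,
    ENNReal.toReal_mul, ENNReal.toReal_ofReal (by positivity)] at h1
  rw [eval_finsetSum, measureReal_def, h1]
  refine Finset.sum_congr rfl fun j _ => ?_
  rw [eval_mul, eval_C, integral_mul_const]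

/-- **the hairy ball theorem** -/
theorem hairy {s : W → W} (hs : ∀ x, ‖x‖ = 1 → ContDiffAt ℝ 1 s x)
    (h0 : ∀ x, ‖x‖ = 1 → s x ≠ 0) (ho : ∀ x, ‖x‖ = 1 → inner ℝ x (s x) = 0) :
    Even (finrank ℝ W) := by
  have hu : ∀ x : W, x ≠ 0 → ‖‖x‖⁻¹ • x‖ = 1 := fun x hx => by
    rw [norm_smul, norm_inv, norm_norm, inv_mul_cancel₀ (norm_ne_zero_iff.2 hx)]
  refine even_of_field (v := fun x => (‖x‖ * ‖s (‖x‖⁻¹ • x)‖⁻¹) • s (‖x‖⁻¹ • x)) ?_ ?_ ?_ ?_
  · intro x hx
    have h1 : ContDiffAt ℝ 1 (fun x : W => ‖x‖) x := contDiffAt_norm ℝ hx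
    have h3 : ContDiffAt ℝ 1 (fun x : W => ‖x‖⁻¹ • x) x :=
      (h1.inv (norm_ne_zero_iff.2 hx)).smul contDiffAt_id
    have h2 : ContDiffAt ℝ 1 (fun x : W => s (‖x‖⁻¹ • x)) x :=
      ContDiffAt.comp (g := s) x (hs _ (hu x hx)) h3
    exact (h1.mul ((h2.norm ℝ (h0 _ (hu x hx))).inv
      (norm_ne_zero_iff.2 (h0 _ (hu x hx))))).smul h2
  · intro x
    by_cases hx : x = 0
    · simp [hx]
    · rw [norm_smul, norm_mul, norm_inv, norm_norm, norm_norm, mul_assoc,
        inv_mul_cancel₀ (norm_ne_zero_iff.2 (h0 _ (hu x hx))), mul_one]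
  · intro x
    by_cases hx : x = 0
    · simp [hx]
    · have h1 := ho _ (hu x hx)
      rw [inner_smul_left] at h1
      have h2 : inner ℝ x (s (‖x‖⁻¹ • x)) = 0 :=
        (mul_eq_zero.1 h1).resolve_left (by simpa using hx)
      rw [inner_smul_right, h2, mul_zero]
  · intro r x hr
    have e : ‖r • x‖⁻¹ • r • x = ‖x‖⁻¹ • x := by
      rw [norm_smul, Real.norm_eq_abs, abs_of_pos hr, smul_smul, mul_inv, mul_right_comm,
        inv_mul_cancel₀ hr.ne', one_mul]
    rw [e, norm_smul, Real.norm_eq_abs, abs_of_pos hr, smul_smul, mul_assoc]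

end Vale.Agent.P231Z.D.Hb
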