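import Vale.Agent.P231.FE.Defs
import Vale.Agent.P231Z.D.Hairy

/-!
# P231, block D0: a spread of planes of odd dimension at least three is trivial
-/

set_option linter.unusedSectionVars false

open Set Metric Module Filter
open scoped Topology ContDiff

namespace Vale.Agent.P231Z.D

open Vale.Agent.P231

namespace Od

variable {T : Type*} [NormedAddCommGroup T] [InnerProductSpace ℝ T] [FiniteDimensional ℝ T]
  {n : ℕ} {Pi : T → T →L[ℝ] T}

/-- the projection onto the part of the plane at `y` which is orthogonal to `y` -/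
noncomputable def Qp (Pi : T → T →L[ℝ] T) (y : T) : T →L[ℝ] T :=
  Pi y - (‖y‖ ^ 2)⁻¹ • (innerSL ℝ y).smulRight y

omit [FiniteDimensional ℝ T] in
theorem Qp_apply (y w : T) : Qp Pi y w = Pi y w - ((‖y‖ ^ 2)⁻¹ * inner ℝ y w) • y := by
  simp [Qp, smul_smul]

theorem Pi_Qp (h : FE.Spread n Pi) {y : T} (hy : y ≠ 0) (w : T) :
    Pi y (Qp Pi y w) = Qp Pi y w := by
  rw [Qp_apply, map_sub, map_smul, h.idem y hy, h.self y hy]

theorem inner_Qp (h : FE.Spread n Pi) {y : T} (hy : y ≠ 0) (w : T) :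
    inner ℝ y (Qp Pi y w) = 0 := by
  have h1 : ‖y‖ ^ 2 ≠ 0 := pow_ne_zero 2 (norm_ne_zero_iff.2 hy)
  rw [Qp_apply, inner_sub_right, ← h.symm y hy, h.self y hy, inner_smul_right,
    real_inner_self_eq_norm_sq, mul_right_comm, inv_mul_cancel₀ h1, one_mul, sub_self]

theorem Qp_Qp (h : FE.Spread n Pi) {y : T} (hy : y ≠ 0) (w : T) :
    Qp Pi y (Qp Pi y w) = Qp Pi y w := by
  rw [Qp_apply y (Qp Pi y w), Pi_Qp h hy, inner_Qp h hy, mul_zero, zero_smul, sub_zero]

theorem contDiffAt_Qp (h : FE.Spread n Pi) {y : T} (hy : y ≠ 0) : ContDiffAt ℝ 1 (Qp Pi) y := by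
  have h1 : ContDiffAt ℝ 1 (fun y : T => ‖y‖) y := contDiffAt_norm ℝ hy
  have h2 : ContDiffAt ℝ 1 (fun y : T => innerSL ℝ y) y := (innerSL ℝ).contDiff.contDiffAt
  exact ((h.smooth y hy).of_le (by simp)).sub
    (((h1.pow 2).inv (pow_ne_zero 2 (norm_ne_zero_iff.2 hy))).smul (h2.smulRight contDiffAt_id))

theorem exists_fixed (h : FE.Spread n Pi) (hn : 2 ≤ n) {a : T} (ha : a ≠ 0) :
    ∃ w, w ≠ 0 ∧ Qp Pi a w = w := by
  by_contra hc
  have h1 : LinearMap.range (Pi a : T →ₗ[ℝ] T) ≤ Submodule.span ℝ {a} := by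
    rintro _ ⟨w, rfl⟩
    have h2 : Qp Pi a w = 0 := by
      by_contra h0
      exact hc ⟨_, h0, Qp_Qp h ha w⟩
    rw [Qp_apply, sub_eq_zero] at h2
    exact Submodule.mem_span_singleton.2 ⟨_, h2.symm⟩
  have h2 := Submodule.finrank_mono h1
  rw [h.rank a ha, finrank_span_singleton ha] at h2
  omega

/-- transport along a chain of points -/
noncomputable def tr {X : Type*} (Pi : T → T →L[ℝ] T) (γ : ℕ → X → T) (w : T) : ℕ → X → T
  | 0 => fun _ => w
  | k + 1 => fun x => Qp Pi (γ (k + 1) x) (tr Pi γ w k x)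

end Od

open Od in
/-- D0 -/
theorem spread_even {T : Type*} [NormedAddCommGroup T] [InnerProductSpace ℝ T]
    [FiniteDimensional ℝ T] {n : ℕ} {Pi : T → T →L[ℝ] T} (h : FE.Spread n Pi) (hn : 3 ≤ n)
    (hlt : n < finrank ℝ T) : Even n := by
  have : Nontrivial T := Module.nontrivial_of_finrank_pos (R := ℝ) (by omega)
  obtain ⟨u0, hu0⟩ := exists_ne (0 : T)
  set W : Submodule ℝ T := LinearMap.range (Pi u0 : T →ₗ[ℝ] T) with hW
  have hWn : finrank ℝ W = n := h.rank u0 hu0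
  have hWm : ∀ w, w ∈ W ↔ Pi u0 w = w := by
    intro w
    constructor
    · rintro ⟨v, rfl⟩
      exact h.idem u0 hu0 v
    · intro hw
      exact ⟨w, hw⟩
  obtain ⟨a, ha⟩ : ∃ a, a ∉ W := by
    by_contra hc
    have h1 : W = ⊤ := eq_top_iff.2 fun a _ => by
      by_contra h2
      exact hc ⟨a, h2⟩
    rw [h1, finrank_top] at hWn
    omega
  have ha0 : a ≠ 0 := fun h0 => ha (h0 ▸ W.zero_mem)
  obtain ⟨w, hw0, hw⟩ := exists_fixed h (by omega) ha0
  let g : W × ℝ → T := fun p => (1 - p.2) • a + p.2 • (p.1 : T)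
  have hg0 : ∀ (u : W) (τ : ℝ), ‖u‖ = 1 → g (u, τ) ≠ 0 := by
    intro u τ hu h0
    by_cases hτ : τ = 1
    · have h1 : (u : T) = 0 := by simpa [g, hτ] using h0
      have h2 : ‖u‖ = 0 := by rw [Submodule.coe_norm, h1, norm_zero]
      rw [hu] at h2
      exact one_ne_zero h2
    · have h1 : (1 - τ) • a ∈ W := by
        rw [eq_neg_of_add_eq_zero_left h0]
        exact W.neg_mem (W.smul_mem _ u.2)
      exact ha ((W.smul_mem_iff (sub_ne_zero.2 (Ne.symm hτ))).1 h1)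
  have hgs : ContDiff ℝ 1 g :=
    ((contDiff_const.sub contDiff_snd).smul contDiff_const).add
      (contDiff_snd.smul (W.subtypeL.contDiff.comp contDiff_fst))
  have hK : IsCompact (sphere (0 : W) 1 ×ˢ Icc (0 : ℝ) 1) :=
    (isCompact_sphere _ _).prod isCompact_Icc
  have hc : ContinuousOn (fun p => Qp Pi (g p)) (sphere (0 : W) 1 ×ˢ Icc (0 : ℝ) 1) := by
    intro p hp
    exact ((contDiffAt_Qp h (hg0 p.1 p.2 (mem_sphere_zero_iff_norm.1 hp.1))).continuousAt.comp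
      hgs.continuous.continuousAt).continuousWithinAt
  obtain ⟨δ, hδ, hU⟩ := Metric.uniformContinuousOn_iff.1
    (hK.uniformContinuousOn_of_continuous hc) 1 one_pos
  obtain ⟨N, hN⟩ := exists_nat_one_div_lt hδ
  have hN0 : (0 : ℝ) < (N : ℝ) + 1 := by positivity
  let γ : ℕ → W → T := fun k u => g (u, (k : ℝ) / ((N : ℝ) + 1))
  have key : ∀ k, k ≤ N + 1 → ∀ u : W, ‖u‖ = 1 → ContDiffAt ℝ 1 (tr Pi γ w k) u ∧
      tr Pi γ w k u ≠ 0 ∧ Qp Pi (γ k u) (tr Pi γ w k u) = tr Pi γ w k u := by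
    intro k
    induction k with
    | zero =>
      intro _ u _
      refine ⟨contDiffAt_const, hw0, ?_⟩
      have e : γ 0 u = a := by simp [γ, g]
      rw [e]
      exact hw
    | succ k ih =>
      intro hk u hu
      obtain ⟨i1, i2, i3⟩ := ih (by omega) u hu
      have h1 : γ (k + 1) u ≠ 0 := hg0 u _ hu
      have h2 : ContDiffAt ℝ 1 (γ (k + 1)) u :=
        (hgs.comp (contDiff_id.prodMk contDiff_const)).contDiffAt
      have h3 : ContDiffAt ℝ 1 (fun x => Qp Pi (γ (k + 1) x)) u :=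
        ContDiffAt.comp (g := Qp Pi) u (contDiffAt_Qp h h1) h2
      refine ⟨h3.clm_apply i1, ?_, Qp_Qp h h1 _⟩
      intro h0
      have h0' : Qp Pi (γ (k + 1) u) (tr Pi γ w k u) = 0 := h0
      have hk1 : ((k + 1 : ℕ) : ℝ) ≤ (N : ℝ) + 1 := by exact_mod_cast hk
      have hk2 : (k : ℝ) ≤ (N : ℝ) + 1 := by exact_mod_cast (by omega : k ≤ N + 1)
      have h4 := hU (u, (k : ℝ) / ((N : ℝ) + 1))
        ⟨mem_sphere_zero_iff_norm.2 hu, by positivity, (div_le_one hN0).2 hk2⟩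
        (u, ((k + 1 : ℕ) : ℝ) / ((N : ℝ) + 1))
        ⟨mem_sphere_zero_iff_norm.2 hu, by positivity, (div_le_one hN0).2 hk1⟩ (by
          rw [Prod.dist_eq, dist_self, Real.dist_eq, ← sub_div, Nat.cast_succ, sub_add_cancel_left,
            abs_div, abs_neg, abs_one, abs_of_pos hN0]
          exact max_lt hδ hN)
      rw [dist_eq_norm] at h4
      have h5 := (Qp Pi (γ k u) - Qp Pi (γ (k + 1) u)).le_opNorm (tr Pi γ w k u)
      rw [sub_apply, i3, h0', sub_zero] at h5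
      have h6 : 0 < ‖tr Pi γ w k u‖ := norm_pos_iff.2 i2
      have h7 : ‖Qp Pi (γ k u) - Qp Pi (γ (k + 1) u)‖ < 1 := h4
      nlinarith
  have hγ : ∀ u : W, γ (N + 1) u = u := by
    intro u
    have e : ((N + 1 : ℕ) : ℝ) / ((N : ℝ) + 1) = 1 := by
      rw [Nat.cast_succ, div_self hN0.ne']
    simp only [γ, g, e, sub_self, zero_smul, one_smul, zero_add]
  have hmem : ∀ u : W, ‖u‖ = 1 → tr Pi γ w (N + 1) u ∈ W ∧
      inner ℝ (u : T) (tr Pi γ w (N + 1) u) = 0 := by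
    intro u hu
    have h1 : (u : T) ≠ 0 := by
      rw [← hγ u]
      exact hg0 u _ hu
    have h2 := (key (N + 1) le_rfl u hu).2.2
    rw [hγ] at h2
    refine ⟨(hWm _).2 ?_, ?_⟩
    · rw [← h.rel u0 u hu0 h1 ((hWm _).1 u.2), ← h2]
      exact Pi_Qp h h1 _
    · rw [← h2]
      exact inner_Qp h h1 _
  have hpr : ∀ u : W, ‖u‖ = 1 →
      (W.orthogonalProjectionOnto (tr Pi γ w (N + 1) u) : T) = tr Pi γ w (N + 1) u := fun u hu =>
    Submodule.starProjection_eq_self_iff.2 (hmem u hu).1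
  rw [← hWn]
  refine Hb.hairy (s := fun u : W => W.orthogonalProjectionOnto (tr Pi γ w (N + 1) u)) ?_ ?_ ?_
  · intro u hu
    exact W.orthogonalProjectionOnto.contDiff.contDiffAt.comp u (key (N + 1) le_rfl u hu).1
  · intro u hu h0
    apply (key (N + 1) le_rfl u hu).2.1
    rw [← hpr u hu, h0]
    rfl
  · intro u hu
    rw [Submodule.coe_inner, hpr u hu]
    exact (hmem u hu).2

end Vale.Agent.P231Z.D
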