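import Vale.Agent.P231Z.D.Alg

/-!
# P231 (D), block `plane`: the Chern classes of the bundle of planes
-/

namespace Vale.Agent.P231Z.D

open Finset PowerSeries Vale.Agent.P231 Vale.Agent.P231.ChW Vale.Agent.P231.S2T

noncomputable section

variable {H : Type*} [CommRing H] [Algebra ℝ H]

namespace Pn

/-- the signed power sums as a series -/
def NS (s : ℕ → H) : PowerSeries H :=
  X * PowerSeries.mk fun j => (2 * (-1) ^ (j + 1) : ℝ) • s (j + 1)

theorem coeff_NS (s : ℕ → H) (j : ℕ) :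
    coeff (j + 1) (NS s) = (2 * (-1) ^ (j + 1) : ℝ) • s (j + 1) := by
  rw [NS, coeff_succ_X_mul, coeff_mk]

theorem coeff_NS_zero (s : ℕ → H) : coeff 0 (NS s) = 0 := by
  rw [NS, coeff_zero_X_mul]

theorem ld_of {s e : ℕ → H} (h : NewtonRec ℝ s e) : LD (PowerSeries.mk e) (NS s) := by
  refine LD_mk (g := e) (s := fun j => (2 * (-1) ^ j : ℝ) • s j) fun k => ?_
  rw [mul_smul, h.2 k, Finset.smul_sum, ← Finset.sum_neg_distrib]
  refine Finset.sum_congr rfl fun i _ => ?_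
  rw [smul_mul_assoc, smul_smul, ← neg_smul]
  congr 1
  ring

omit [Algebra ℝ H] in
theorem coeff_ps (y : H) (j : ℕ) : coeff (j + 1) (ps y) = 2 * y ^ (j + 1) := by
  have h5 : (2 : PowerSeries H) = C 2 := rfl
  rw [ps, h5, coeff_C_mul, mul_assoc, coeff_C_mul, coeff_succ_X_mul, coeff_mk, pow_succ']

omit [Algebra ℝ H] in
theorem coeff_ps_zero (y : H) : coeff 0 (ps y) = 0 := by
  have h5 : (2 : PowerSeries H) = C 2 := rfl
  rw [ps, h5, coeff_C_mul, mul_assoc, coeff_C_mul, coeff_zero_X_mul, mul_zero, mul_zero]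

/-- the power sums are determined by the classes -/
theorem sums_eq {s s' e : ℕ → H} (h : NewtonRec ℝ s e) (h' : NewtonRec ℝ s' e) (j : ℕ) :
    s (j + 1) = s' (j + 1) := by
  induction j using Nat.strong_induction_on with
  | _ j ih =>
    have h1 := (h.2 j).symm.trans (h'.2 j)
    rw [Finset.sum_range_succ, Finset.sum_range_succ, Finset.sum_congr rfl
      (g := fun i => (-1 : ℝ) ^ i • (s' (i + 1) * e (j - i)))
      (fun i hi => by rw [ih i (Finset.mem_range.1 hi)]), Nat.sub_self, h.1, mul_one,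
      mul_one] at h1
    exact smul_right_injective H (pow_ne_zero j (by norm_num)) (add_left_cancel h1)

theorem map_rec {s e : ℕ → H} (θ : H →ₐ[ℝ] H) (h : NewtonRec ℝ s e) :
    NewtonRec ℝ (fun j => θ (s j)) (fun j => θ (e j)) := by
  refine ⟨(congrArg θ h.1).trans (map_one θ), fun j => ?_⟩
  rw [← map_smul, h.2 j, map_sum]
  exact Finset.sum_congr rfl fun i _ => by rw [map_smul, map_mul]

theorem map_cP (r : ℕ) (b q : ℝ) {x0 x1 : H} {θ : H →ₐ[ℝ] H} (h0 : θ x0 = x1) (h1 : θ x1 = x0)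
    (j : ℕ) : θ (cP r b q x0 x1 j) = cP r b q x0 x1 j := by
  unfold cP
  split_ifs
  · exact map_one θ
  · rw [map_neg, map_smul, map_add, h0, h1, add_comm]
  · rw [map_smul, map_pow, map_sub, h0, h1, ← neg_sub, neg_sq]
  · exact map_zero θ

variable {k r : ℕ} {κ c : ℝ} {x0 x1 t z : H} {Φ : H →ₗ[ℝ] ℝ} {θ : H →ₐ[ℝ] H}
  {u cp σ cq : ℕ → H}

theorem mk_cp (R : Pl k r κ c x0 x1 t Φ θ u cp σ cq) :
    PowerSeries.mk cp = (1 - C t * X) * ((1 - C (-t) * X) * PowerSeries.mk cq) := by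
  refine LD.unique (ld_of R.np) (((LD_lin t).mul ((LD_lin (-t)).mul (ld_of R.nq))).congr ?_)
    (coeff_NS_zero u) ?_
  · ext j
    cases j with
    | zero => simp only [map_add, coeff_ps_zero, coeff_NS_zero, add_zero]
    | succ j =>
      simp only [map_add, coeff_ps, coeff_NS]
      rw [R.spl _ (by omega), smul_add]
      rcases Nat.even_or_odd (j + 1) with h | h
      · rw [h.neg_one_pow, h.neg_pow, mul_one, Algebra.smul_def 2 (_ + _), map_ofNat]
        ring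
      · rw [h.neg_pow, add_neg_cancel, smul_zero]
        ring
  · simp [R.np.1, R.nq.1]

omit [Algebra ℝ H] in
theorem coeff_lin (y : H) (F : PowerSeries H) (j : ℕ) :
    coeff (j + 1) ((1 - C y * X) * F) = coeff (j + 1) F - y * coeff j F := by
  rw [sub_mul, one_mul, map_sub, mul_assoc, coeff_C_mul, coeff_succ_X_mul]

theorem cp_high (hr : 3 ≤ r) (R : Pl k r κ c x0 x1 t Φ θ u cp σ cq) {j : ℕ} (hj : 2 * r < j) :
    cp j = 0 := by
  obtain ⟨i, rfl⟩ : ∃ i, j = i + 1 + 1 := ⟨j - 2, by omega⟩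
  have h := congrArg (coeff (i + 1 + 1)) (mk_cp R)
  rw [coeff_mk, coeff_lin, coeff_lin, coeff_lin, coeff_mk, coeff_mk, coeff_mk,
    R.top _ (by omega), R.top _ (by omega), R.top i (by omega)] at h
  rw [h]
  ring

theorem mk_cp' (hr : 3 ≤ r) (R : Pl k r κ c x0 x1 t Φ θ u cp σ cq) :
    PowerSeries.mk cp = 1 + C (cp r) * X ^ r + C (cp (2 * r)) * X ^ (2 * r) := by
  ext j
  rw [coeff_mk, map_add, map_add, coeff_one, coeff_C_mul, coeff_C_mul, coeff_X_pow, coeff_X_pow]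
  by_cases h0 : j = 0
  · rw [if_pos h0, if_neg (by omega), if_neg (by omega), h0, R.np.1]
    ring
  by_cases h1 : j = r
  · rw [if_neg h0, if_pos h1, if_neg (by omega), h1]
    ring
  by_cases h2 : j = 2 * r
  · rw [if_neg h0, if_neg h1, if_pos h2, h2]
    ring
  rw [if_neg h0, if_neg h1, if_neg h2]
  rcases lt_or_gt_of_ne h2 with h | h
  · rw [R.low j (by omega) h h1]
    ring
  · rw [cp_high hr R h]
    ring

/-- the rank relation -/
theorem rank_rel (hr : 3 ≤ r) (R : Pl k r κ c x0 x1 t Φ θ u cp σ cq) :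
    t ^ (2 * r) + cp r * t ^ r + cp (2 * r) = 0 := by
  have h1 : (1 + C (cp r) * X ^ r + C (cp (2 * r)) * X ^ (2 * r)) *
      (PowerSeries.mk fun i => t ^ i) = (1 - C (-t) * X) * PowerSeries.mk cq := by
    rw [← mk_cp' hr R, mk_cp R]
    linear_combination ((1 - C (-t) * X) * PowerSeries.mk cq) * mk_pow t
  have h2 := congrArg (coeff (2 * r)) h1
  obtain ⟨i, hi⟩ : ∃ i, 2 * r = i + 1 := ⟨2 * r - 1, by omega⟩
  have h3 : coeff (2 * r) ((1 - C (-t) * X) * PowerSeries.mk cq) = 0 := by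
    rw [hi, coeff_lin, coeff_mk, coeff_mk, R.top _ (by omega), R.top i (by omega)]
    ring
  rw [h3, add_mul, add_mul, one_mul, mul_assoc, mul_assoc, map_add, map_add, coeff_C_mul,
    coeff_C_mul, coeff_X_pow_mul', coeff_X_pow_mul', if_pos (by omega), if_pos le_rfl, coeff_mk,
    coeff_mk, coeff_mk, Nat.sub_self, pow_zero, mul_one,
    show 2 * r - r = r by omega] at h2
  exact h2

theorem cp_odd (hr : 3 ≤ r) (R : Pl k r κ c x0 x1 t Φ θ u cp σ cq) (ho : Odd r) : cp r = 0 := by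
  obtain ⟨j, rfl⟩ : ∃ j, r = j + 1 := ⟨r - 1, by omega⟩
  have h := R.np.2 j
  rw [Finset.sum_eq_zero] at h
  · exact (smul_eq_zero_iff_right (by positivity)).1 h
  · intro i hi
    rcases eq_or_ne i j with rfl | hne
    · rw [R.odd _ ho, zero_mul, smul_zero]
    · have := Finset.mem_range.1 hi
      rw [R.low (j - i) (by omega) (by omega) (by omega), mul_zero, smul_zero]

theorem lam_pos {k a b : ℕ} (h : a = k ∧ b + 1 = k) : lam k a b = 1 := by
  rw [lam, if_pos h, if_neg (by omega), sub_zero]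

theorem lam_neg {k a b : ℕ} (h : a + 1 = k ∧ b = k) : lam k a b = -1 := by
  rw [lam, if_pos h, if_neg (by omega), zero_sub]

theorem lam_zero {k a b : ℕ} (h : ¬(a = k ∧ b + 1 = k)) (h' : ¬(a + 1 = k ∧ b = k)) :
    lam k a b = 0 := by
  rw [lam, if_neg h, if_neg h', sub_zero]

theorem cp_top (hk : 2 ≤ k) (hr : 3 ≤ r) (B : Base k κ x0 x1 t z Φ)
    (R : Pl k r κ c x0 x1 t Φ θ u cp σ cq) : cp (2 * r) = (-c) • (x0 - x1) ^ 2 := by
  obtain ⟨β₀, β₁, hβ⟩ := R.lin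
  obtain ⟨a₀, a₁, a₂, ha⟩ := R.quad
  have hrel := rank_rel hr R
  rw [hβ, ha] at hrel
  have e1 : t ^ (2 * r) = t ^ (2 * r - 2) * t ^ 2 := by
    rw [← pow_add]
    congr 1
    omega
  have e2 : t ^ r = t ^ (r - 2) * t ^ 2 := by
    rw [← pow_add]
    congr 1
    omega
  have key : ∀ i j, (a₀ + c) * lam k (i + 2) j + (a₁ - 2 * c) * lam k (i + 1) (j + 1) +
      (a₂ + c) * lam k i (j + 2) = 0 := by
    intro i j
    have h1 : (x0 ^ (i + 2) * x1 ^ j * t ^ (2 * r - 2) -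
        (2 : ℝ) • (x0 ^ (i + 1) * x1 ^ (j + 1) * t ^ (2 * r - 2)) +
        x0 ^ i * x1 ^ (j + 2) * t ^ (2 * r - 2)) +
        (β₀ • (x0 ^ (i + 3) * x1 ^ j * t ^ (r - 2) -
          (2 : ℝ) • (x0 ^ (i + 2) * x1 ^ (j + 1) * t ^ (r - 2)) +
          x0 ^ (i + 1) * x1 ^ (j + 2) * t ^ (r - 2)) +
        β₁ • (x0 ^ (i + 2) * x1 ^ (j + 1) * t ^ (r - 2) -
          (2 : ℝ) • (x0 ^ (i + 1) * x1 ^ (j + 2) * t ^ (r - 2)) +
          x0 ^ i * x1 ^ (j + 3) * t ^ (r - 2))) +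
        (a₀ • (x0 ^ (i + 2) * x1 ^ j * z ^ 2) + a₁ • (x0 ^ (i + 1) * x1 ^ (j + 1) * z ^ 2) +
          a₂ • (x0 ^ i * x1 ^ (j + 2) * z ^ 2)) = 0 := by
      have h2 : (x0 - x1) ^ 2 = t ^ 2 * z ^ 2 := by rw [← B.tz, mul_pow]
      rw [e1, e2] at hrel
      simp only [Algebra.smul_def, map_ofNat] at hrel ⊢
      linear_combination (x0 ^ i * x1 ^ j * z ^ 2) * hrel + (x0 ^ i * x1 ^ j *
        (t ^ (2 * r - 2) + (algebraMap ℝ H β₀ * x0 + algebraMap ℝ H β₁ * x1) * t ^ (r - 2))) * h2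
    have h3 := congrArg Φ h1
    simp only [map_add, map_sub, map_smul, R.vt, R.vt', B.val, smul_eq_mul, map_zero] at h3
    refine mul_left_cancel₀ B.ne ?_
    linear_combination h3
  have k1 : a₀ + c = a₁ - 2 * c := by
    have h := key (k - 2) (k - 1)
    rw [lam_pos (a := k - 2 + 2) (b := k - 1) (by omega),
      lam_neg (a := k - 2 + 1) (b := k - 1 + 1) (by omega),
      lam_zero (a := k - 2) (b := k - 1 + 2) (by omega) (by omega)] at h
    linarith
  have k2 : a₁ - 2 * c = a₂ + c := by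
    have h := key (k - 1) (k - 2)
    rw [lam_zero (a := k - 1 + 2) (b := k - 2) (by omega) (by omega),
      lam_pos (a := k - 1 + 1) (b := k - 2 + 1) (by omega),
      lam_neg (a := k - 1) (b := k - 2 + 2) (by omega)] at h
    linarith
  have k3 : (a₀ + c) • (x0 ^ 2 + x0 * x1 + x1 ^ 2) = 0 := by
    rcases eq_or_lt_of_le hk with rfl | h3
    · have h := B.hk
      simp only [S2X.hs, Finset.sum_range_succ, Finset.sum_range_zero] at h
      have h' : x0 ^ 2 + x0 * x1 + x1 ^ 2 = 0 := by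
        rw [← h]
        norm_num
        ring
      rw [h', smul_zero]
    · have h := key k (k - 3)
      rw [lam_zero (a := k + 2) (b := k - 3) (by omega) (by omega),
        lam_zero (a := k + 1) (b := k - 3 + 1) (by omega) (by omega),
        lam_pos (a := k) (b := k - 3 + 2) (by omega)] at h
      rw [show a₀ + c = 0 by linarith, zero_smul]
  rw [ha, show a₁ = a₀ + 3 * c by linarith, show a₂ = a₀ by linarith]
  simp only [Algebra.smul_def, map_add, map_mul, map_neg, map_ofNat] at k3 ⊢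
  linear_combination k3

theorem cp_mid (hk : 2 ≤ k) (hr : 3 ≤ r) (hc : c ≠ 0) (B : Base k κ x0 x1 t z Φ)
    (R : Pl k r κ c x0 x1 t Φ θ u cp σ cq) : ∃ b : ℝ, cp r = -(b • (x0 + x1)) := by
  obtain ⟨β₀, β₁, hβ⟩ := R.lin
  have hrel := rank_rel hr R
  rw [hβ, cp_top hk hr B R] at hrel
  have h1 := congrArg θ hrel
  simp only [map_add, map_mul, map_pow, map_smul, map_sub, map_zero, R.θt, R.θ0, R.θ1] at h1
  obtain ⟨j, rfl⟩ : ∃ j, k = j + 1 := ⟨k - 1, by omega⟩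
  have e1 : t ^ (2 * r - 2) = t ^ r * t ^ (r - 2) := by
    rw [← pow_add]
    congr 1
    omega
  have h2 : (β₀ - β₁) • (x0 ^ (j + 1) * x1 ^ j * t ^ (2 * r - 2) -
      x0 ^ j * x1 ^ (j + 1) * t ^ (2 * r - 2)) = 0 := by
    rw [e1]
    simp only [Algebra.smul_def, map_sub] at hrel h1 ⊢
    linear_combination (x0 ^ j * x1 ^ j * t ^ (r - 2)) * (hrel - h1)
  have h3 := congrArg Φ h2
  rw [map_smul, map_sub, R.vt, R.vt, map_zero, lam_pos ⟨rfl, rfl⟩, lam_neg ⟨rfl, rfl⟩,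
    smul_eq_mul] at h3
  have h4 : β₀ = β₁ := by
    have h5 : c * κ * 2 ≠ 0 := mul_ne_zero (mul_ne_zero hc B.ne) two_ne_zero
    refine mul_left_cancel₀ h5 ?_
    linear_combination h3
  refine ⟨-β₀, ?_⟩
  rw [hβ, ← h4, neg_smul, neg_neg, smul_add]

end Pn

open Pn in
/-- D23 -/
theorem plane {k r : ℕ} (hk : 2 ≤ k) (hr : 3 ≤ r) {κ c : ℝ} (hc : c ≠ 0) {x0 x1 t z : H}
    {Φ : H →ₗ[ℝ] ℝ} (B : Base k κ x0 x1 t z Φ) {θ : H →ₐ[ℝ] H} {u cp σ cq : ℕ → H}
    (R : Pl k r κ c x0 x1 t Φ θ u cp σ cq) :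
    ∃ b : ℝ, (Odd r → b = 0) ∧ NewtonRec ℝ u (cP r b (-c) x0 x1) ∧
      ∀ j, 1 ≤ j → θ (u j) = u j := by
  obtain ⟨b, hb, hb'⟩ : ∃ b : ℝ, (Odd r → b = 0) ∧ cp r = -(b • (x0 + x1)) := by
    by_cases ho : Odd r
    · exact ⟨0, fun _ => rfl, by rw [cp_odd hr R ho, zero_smul, neg_zero]⟩
    · obtain ⟨b, hb⟩ := cp_mid hk hr hc B R
      exact ⟨b, fun h => absurd h ho, hb⟩
  have e : cp = cP r b (-c) x0 x1 := by
    funext j
    unfold cP
    split_ifs with h0 h1 h2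
    · rw [h0, R.np.1]
    · rw [h1, hb']
    · rw [h2, cp_top hk hr B R]
    · rcases lt_or_gt_of_ne h2 with h | h
      · exact R.low j (by omega) h h1
      · exact cp_high hr R h
  have hn : NewtonRec ℝ u (cP r b (-c) x0 x1) := e ▸ R.np
  refine ⟨b, hb, hn, fun j hj => ?_⟩
  obtain ⟨i, rfl⟩ := Nat.exists_eq_add_of_le' hj
  have h1 := map_rec θ hn
  simp only [map_cP r b (-c) R.θ0 R.θ1] at h1
  exact sums_eq h1 hn i

end

end Vale.Agent.P231Z.D
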