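import Vale.Agent.P231.S2T.Glob

/-!
# P231 (D6a, part 1): the top class of a bundle with a nowhere vanishing section vanishes
-/

set_option linter.unusedSectionVars false
set_option linter.unusedVariables false

open Matrix Set Filter Topology
open scoped ContDiff

namespace Vale.Agent.P231Z.D.Sec

open Vale.Agent.P231 Vale.Agent.P231.Fm Vale.Agent.P231.W Vale.Agent.P231.ChW
  Vale.Agent.P231.H584 Vale.Agent.P231.X3

variable {X : Type*} {D : Dif X} {ι : Type*} {n : Type*} [Fintype n] [DecidableEq n]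

/-- the squared length of a column -/
def nn (σ : Matrix n Unit ℂ) : ℂ := (σᴴ * σ) () ()

/-- the dual row -/
noncomputable def du (σ : Matrix n Unit ℂ) : Matrix Unit n ℂ := (nn σ)⁻¹ • σᴴ

open scoped ComplexOrder in
theorem nn_ne {σ : Matrix n Unit ℂ} (h : σ ≠ 0) : nn σ ≠ 0 := by
  intro h0
  refine h (conjTranspose_mul_self_eq_zero.1 ?_)
  ext i j
  exact h0

theorem star_nn (σ : Matrix n Unit ℂ) : star (nn σ) = nn σ := by
  have h : (σᴴ * σ)ᴴ = σᴴ * σ := by rw [conjTranspose_mul, conjTranspose_conjTranspose]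
  exact congrFun (congrFun h ()) ()

theorem du_mul {σ : Matrix n Unit ℂ} (h : σ ≠ 0) : du σ * σ = 1 := by
  ext i j
  rw [du, Matrix.smul_mul, Matrix.smul_apply, Matrix.one_apply_eq, smul_eq_mul]
  exact inv_mul_cancel₀ (nn_ne h)

theorem mul_du_mul (σ : Matrix n Unit ℂ) : σ * du σ * σ = σ := by
  by_cases h : σ = 0
  · rw [h, Matrix.mul_zero]
  · rw [Matrix.mul_assoc, du_mul h, Matrix.mul_one]

theorem ln_idem (σ : Matrix n Unit ℂ) : σ * du σ * (σ * du σ) = σ * du σ := by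
  rw [← Matrix.mul_assoc, mul_du_mul]

theorem ln_herm (σ : Matrix n Unit ℂ) : (σ * du σ)ᴴ = σ * du σ := by
  rw [conjTranspose_mul, du, conjTranspose_smul, conjTranspose_conjTranspose, star_inv₀, star_nn,
    Matrix.smul_mul, Matrix.mul_smul]

theorem trace_ln {σ : Matrix n Unit ℂ} (h : σ ≠ 0) : trace (σ * du σ) = 1 := by
  rw [trace_mul_comm, du_mul h, trace_one]
  simp

theorem inv_on {O : Set X} {f : X → ℂ} (hf : SmF (D.on O) f) (h0 : ∀ x ∈ O, f x ≠ 0) :
    SmF (D.on O) (fun x => (f x)⁻¹) := by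
  refine SmF.of ?_
  intro E _ _ _ u x h
  filter_upwards [hf.sm h, h.2] with y h1 h2
  exact ContDiffAt.inv h1 (h0 _ h2)

theorem cM_one : cM (D := D) (fun _ => (1 : Matrix Unit Unit ℂ)) (SmM.const D 1) = 1 := by
  ext1 i j
  exact cf_one

theorem sF_one (k : ℕ) : sF (k + 1) (1 : Matrix Unit Unit (CF D)) = 0 := by
  rw [sF, sC, ch, dd, dM_one, Matrix.mul_zero, zero_pow (Nat.succ_ne_zero k), Matrix.mul_zero,
    trace_zero, smul_zero]
  rfl

/-- the top class vanishes on the set where the section does not vanish -/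
theorem sec_rel {O : Set X} {Ψ : S2T.Fam (D.on O) ι} {H : X → Matrix n n ℂ}
    {σ : X → Matrix n Unit ℂ} (hH : SmM (D.on O) H) (hσ : SmM (D.on O) σ)
    (HH : ∀ x, H x * H x = H x) (Hh : ∀ x, (H x)ᴴ = H x) (Hσ : ∀ x, H x * σ x = σ x)
    (σ0 : ∀ x ∈ O, σ x ≠ 0) (iH : ∀ i x t, H (Ψ.Φ i (x, t)) = H x)
    (iσ : ∀ i x t, σ (Ψ.Φ i (x, t)) = σ x) {s : ℕ} (tr : ∀ x, trace (H x) = s) (hs : 1 ≤ s)
    (bH : S2T.IB Ψ (cM H hH)) {C : ℕ → Ψ.H} (hC : NewtonRec ℝ (fun k => Ψ.qm (bH.cl k)) C) :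
    C s = 0 := by
  classical
  have hn : SmF (D.on O) (fun x => nn (σ x)) := ((smM_conjTranspose hσ).mul hσ) () ()
  have ha : SmM (D.on O) (fun x => du (σ x)) :=
    SmM.smul' (inv_on hn fun x hx => nn_ne (σ0 x hx)) (smM_conjTranspose hσ)
  have hl : SmM (D.on O) (fun x => σ x * du (σ x)) := hσ.mul ha
  have hE : SmM (D.on O) (fun x => H x - σ x * du (σ x)) := hH.sub hl
  have Hl : ∀ x, H x * (σ x * du (σ x)) = σ x * du (σ x) := fun x => by
    rw [← Matrix.mul_assoc, Hσ]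
  have lH : ∀ x, σ x * du (σ x) * H x = σ x * du (σ x) := fun x => by
    have h := congrArg conjTranspose (Hl x)
    rwa [conjTranspose_mul, ln_herm, Hh] at h
  have EE : ∀ x, (H x - σ x * du (σ x)) * (H x - σ x * du (σ x)) = H x - σ x * du (σ x) :=
    fun x => by rw [sub_mul, mul_sub, mul_sub, HH, Hl, lH, ln_idem, sub_self, sub_zero]
  have bl : S2T.IB Ψ (cM _ hl) :=
    ⟨idem_cM hl fun x => ln_idem _, fun i => basicM_cM hl fun x t => by rw [iσ]⟩
  have bE : S2T.IB Ψ (cM _ hE) :=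
    ⟨idem_cM hE EE, fun i => basicM_cM hE fun x t => by rw [iσ, iH]⟩
  have h1c : SmM (D.on O) (fun _ => (1 : Matrix Unit Unit ℂ)) := SmM.const _ 1
  have b1 : S2T.IB Ψ (cM _ h1c) :=
    ⟨idem_cM h1c fun x => Matrix.mul_one _, fun i => basicM_cM h1c fun x t => rfl⟩
  have iso : IsoData (cM _ h1c) (cM _ hl) (cM σ hσ) (cM _ ha) := by
    refine ⟨ev_cM _, ev_cM _, ev_cM _, ev_cM _, ?_, ?_, ?_, ?_, ?_, ?_⟩
    · rw [cM_mul]
    · rw [cM_mul]
      exact S2T.cM_congr_on _ _ fun x hx => du_mul (σ0 x hx)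
    · rw [cM_mul]
      exact cM_congr _ _ fun x => Matrix.mul_one _
    · rw [cM_mul]
      exact cM_congr _ _ fun x => mul_du_mul _
    · rw [cM_mul]
      refine S2T.cM_congr_on _ _ fun x hx => ?_
      rw [← Matrix.mul_assoc, du_mul (σ0 x hx), Matrix.one_mul]
    · rw [cM_mul]
      exact cM_congr _ _ fun x => Matrix.one_mul _
  have h1 : cM _ hE * cM _ hl = 0 := by
    rw [cM_mul]
    exact cM_eq_zero _ fun x => by rw [sub_mul, Hl, ln_idem, sub_self]
  have h2 : cM _ hl * cM _ hE = 0 := by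
    rw [cM_mul]
    exact cM_eq_zero _ fun x => by rw [mul_sub, lH, ln_idem, sub_self]
  have h3 : ∀ k, Ψ.qm (bH.cl (k + 1)) = Ψ.qm (bE.cl (k + 1)) := by
    intro k
    have e1 : bH.cl (k + 1) = (bE.add bl h1 h2).cl (k + 1) := by
      refine S2T.IB.cl_congr _ _ ?_ _
      rw [cM_add]
      exact cM_congr _ _ fun x => (sub_add_cancel _ _).symm
    have e2 : Ψ.qm (bl.cl (k + 1)) = Ψ.qm (b1.cl (k + 1)) :=
      b1.cl_iso bl iso (fun i => basicM_cM hσ (iσ i))
        (fun i => basicM_cM ha fun x t => by rw [iσ]) _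
    have e3 : b1.cl (k + 1) = 0 := by
      refine Subtype.ext ?_
      change sF (k + 1) (cM _ h1c) = 0
      rw [cM_one, sF_one]
    rw [e1, S2T.IB.cl_add bE bl h1 h2, e2, e3, map_zero, add_zero]
  refine bE.newton ?_ (r := s - 1) (p := fun x => if x ∈ O then H x - σ x * du (σ x) else 0)
    ⟨fun x => ?_, fun x => ?_, fun hu i j => ?_, fun hu i j => ?_⟩ (hC.congr h3) (by omega)
  · rw [cM_transpose, cj_cM]
    refine cM_congr _ _ fun x => ?_
    have e1 : (H x - σ x * du (σ x))ᴴ = H x - σ x * du (σ x) := by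
      rw [conjTranspose_sub, Hh, ln_herm]
    have e2 : ((H x - σ x * du (σ x))ᴴ)ᵀ = (H x - σ x * du (σ x)).map (starRingEnd ℂ) := by
      ext i j
      rfl
    rw [← e2, e1]
  · by_cases hx : x ∈ O
    · simp only [if_pos hx]
      exact EE x
    · simp only [if_neg hx]
      exact Matrix.zero_mul _
  · by_cases hx : x ∈ O
    · simp only [if_pos hx]
      refine (rank_eq_of_trace (EE x) ?_).le
      rw [trace_sub, tr, trace_ln (σ0 x hx), Nat.cast_sub hs, Nat.cast_one]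
    · simp only [if_neg hx]
      rw [rank_zero]
      exact Nat.zero_le _
  · simp only [if_pos hu.2.self_of_nhds]
    exact fr_val _ (hE i j).re hu
  · simp only [if_pos hu.2.self_of_nhds]
    exact fr_val _ (hE i j).im hu

end Vale.Agent.P231Z.D.Sec
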