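import Vale.Agent.P231Z.D.Defs
import Vale.Agent.P231Z.D.Sec0

/-!
# P231 (D6a): a section of the normal bundle over the fibre product with the unit tangent bundle
-/

set_option maxSynthPendingDepth 3
set_option linter.unusedSectionVars false
set_option linter.unusedVariables false

open Bundle Manifold Set Filter Module MeasureTheory
open scoped ContDiff Manifold Topology ENNReal Real

namespace Vale.Agent.P231Z.D

noncomputable section

open Vale.Agent.P234 Vale.Agent.P231 Vale.Agent.P231.Fm Vale.Agent.P231.W Vale.Agent.P231.WR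
  Vale.Agent.P231.H766 Vale.Agent.P231.WG Vale.Agent.P231.S2II Vale.Agent.P231.WQ
open Vale.Agent.P231.X3 Vale.Agent.P231.ChW

variable {E : Type*} [NormedAddCommGroup E] [NormedSpace ℝ E]
  {M : Type*} [MetricSpace M] [ChartedSpace E M]
  [RiemannianBundle (fun x : M => TangentSpace 𝓘(ℝ, E) x)]
  {e : ∀ x : M, TangentSpace 𝓘(ℝ, E) x → M}
  [FiniteDimensional ℝ E] [IsManifold 𝓘(ℝ, E) ∞ M]
  [IsContMDiffRiemannianBundle 𝓘(ℝ, E) ∞ E (fun x : M => TangentSpace 𝓘(ℝ, E) x)]
  [CompactSpace M] [ConnectedSpace M] [IsRiemannianManifold 𝓘(ℝ, E) M]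
  {D : ℝ} {K l : ℕ}

namespace Sec

/-- the fibre product -/
abbrev dY (e : ∀ x : M, TangentSpace 𝓘(ℝ, E) x → M) (D : ℝ) : Dif (Pr e D × UT E M) :=
  Co.dPb (dPr e D) (dUT E M) foot (fun q : Pr e D => foot q.v)

variable (G : X3.Geo e D l) (P : PF E M K)

theorem mapR : ((dY e D).prod (Dif.lin ℝ)).Map (dY e D)
    (fun z => (G.R (z.1.1, z.2), z.1.2)) := by
  intro V _ _ _ u x hu
  have h1 : ((dPr e D).prod (Dif.lin ℝ)).At (fun y => ((u y).1.1, (u y).2)) x :=
    ⟨hu.1.1.1, hu.2⟩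
  exact ⟨⟨G.map_R h1, hu.1.1.2⟩, hu.1.2⟩

/-- the rotation as a family of flows -/
def fm : S2T.Fam (dY e D) Unit := ⟨fun _ z => (G.R (z.1.1, z.2), z.1.2), fun _ => mapR G⟩

theorem basic_fst {w : Form (dPr e D)} (hw : Basic G.R G.map_R w) :
    (fm G).B (Form.pull Prod.fst Co.map_pb_fst w) := fun i =>
  S2T.Fam.basic_pull_eqv (hΦ := mapR G) (hΦ' := G.map_R) Co.map_pb_fst (fun _ _ => rfl) hw

theorem mfst : (dY e D).Map (dPr e D) Prod.fst := Co.map_pb_fst

/-- the pull back to the fibre product -/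
def toY : H584.Bas G.R G.map_R →ₐ[ℝ] (fm G).Bas :=
  ((Form.pullA Prod.fst mfst).comp (H584.Bas G.R G.map_R).val).codRestrict (fm G).Bas
    fun w => ⟨by
      change (Form.pull Prod.fst Co.map_pb_fst w.1).sg = Form.pull Prod.fst Co.map_pb_fst w.1
      rw [← Form.pull_sg, w.2.1], by
      change (Form.pull Prod.fst Co.map_pb_fst w.1).d = 0
      rw [← Form.pull_d, w.2.2.1]
      exact map_zero (Form.pullA Prod.fst Co.map_pb_fst), basic_fst G w.2.2.2⟩

theorem coe_toY (w : H584.Bas G.R G.map_R) :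
    (toY G w : Form (dY e D)) = Form.pull Prod.fst Co.map_pb_fst w.1 := rfl

/-- the set where the two other ends are different -/
def OO (e : ∀ x : M, TangentSpace 𝓘(ℝ, E) x → M) (D : ℝ) : Set (Pr e D × UT E M) :=
  {z | foot z.2 = foot z.1.v ∧ bar e D z.2 ≠ bar e D z.1.v}

theorem OO_R (i : Unit) (z : Pr e D × UT E M) (hz : z ∈ OO e D) (t : ℝ) :
    (fm G).Φ i (z, t) ∈ OO e D := by
  change foot z.2 = foot (G.R (z.1, t)).v ∧ bar e D z.2 ≠ bar e D (G.R (z.1, t)).v
  rw [G.foot_R, G.bar_R]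
  exact hz

/-- the pair of the other ends -/
def br (z : Pr e D × UT E M) : M × M := (bar e D z.2, bar e D z.1.v)

include G in
theorem map_br : (dY e D).Map (S2T.dMM E M) br := fun h =>
  ⟨map_bar G.F D (Co.map_pb_snd h), G.map_bar (Co.map_pb_fst h)⟩

theorem br_R (i : Unit) (z : Pr e D × UT E M) (t : ℝ) : br ((fm G).Φ i (z, t)) = br z := by
  change (bar e D z.2, bar e D (G.R (z.1, t)).v) = _
  rw [G.bar_R]
  rfl

theorem supp_br {τ : Form (S2T.dMM E M)} (h : τ.Supp {x | x.1 ≠ x.2}) :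
    (Form.pull br (map_br G) τ).Supp (OO e D) := by
  refine ⟨fun hu => ?_⟩
  rcases (h.pull (map_br G)).out hu with h1 | h1
  · left
    filter_upwards [h1, hu.2] with y h2 h3
    exact ⟨h3, h2⟩
  · exact Or.inr h1

/-- the coordinates of the unit vector, as a column -/
def col (a : UT E M) : Matrix (Fin K) Unit ℝ := fun i _ => P.em (foot a) (vec' a) i

theorem sm_col : SmM (dUT E M) (col P) := by
  intro i j
  refine SmF.of ?_
  intro E' _ _ _ u x h
  exact P.sm_em (at_vec_tb h) i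

/-- the section -/
def sec (z : Pr e D × UT E M) : Matrix (Fin K) Unit ℂ := Wf G P z.1 * cplx (col P z.2)

theorem sec_ne {z : Pr e D × UT E M} (hz : z ∈ OO e D) : sec G P z ≠ 0 := by
  intro h
  have h1 : (Wf G P z.1).map (starRingEnd ℂ) * cplx (col P z.2) = 0 := by
    have h2 : (Wf G P z.1 * cplx (col P z.2)).map (starRingEnd ℂ) =
        (Wf G P z.1).map (starRingEnd ℂ) * (cplx (col P z.2)).map (starRingEnd ℂ) :=
      Matrix.map_mul
    rw [cplx_conj] at h2
    rw [← h2]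
    change (sec G P z).map (starRingEnd ℂ) = 0
    rw [h]
    exact Matrix.map_zero _ (map_zero _)
  have h3 : cplx (nF P z.1 * col P z.2) = 0 := by
    have h4 : Wf G P z.1 + (Wf G P z.1).map (starRingEnd ℂ) = cplx (nF P z.1) :=
      (cor G P z.1).cs1.eig_add
    rw [cplx_mul, ← h4, Matrix.add_mul, h1, add_zero]
    exact h
  have hf : foot z.2 = foot z.1.v := hz.1
  have h5 : P.em (foot z.1.v) (nP e D z.1.v (vec' z.2)) = P.em (foot z.1.v) 0 := by
    have h6 := P.mat_mulVec (foot z.1.v) (foot z.1.v) (nPL e D z.1.v) (vec' z.2)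
    have h7 := P.em_smul (foot z.1.v) 0 0
    rw [zero_smul, zero_smul] at h7
    rw [h7]
    refine h6.symm.trans ?_
    funext i
    have h8 : ((nF P z.1 * col P z.2) i () : ℂ) = 0 := congrFun (congrFun h3 i) ()
    have h9 : (nF P z.1 * col P z.2) i () = 0 := by exact_mod_cast h8
    refine Eq.trans ?_ h9
    change ∑ j, nF P z.1 i j * P.em (foot z.1.v) (vec' z.2) j =
      ∑ j, nF P z.1 i j * P.em (foot z.2) (vec' z.2) j
    rw [hf]
  have h10 : vec' z.2 = prP e D z.1.v (vec' z.2) := sub_eq_zero.1 (P.em_injective _ h5)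
  have h11 : ((vec' z.2 : E) : TangentSpace 𝓘(ℝ, E) (foot z.1.v)) ∈
      H775.Pl e D (bar e D z.1.v) (foot z.1.v) := by
    have h12 := prP_mem (e := e) D z.1.v (vec' z.2)
    rwa [← h10] at h12
  have h13 : nm (foot z.1.v) (vec' z.2) = 1 := by
    rw [← hf]
    exact nm_vec' z.2
  have h14 := ((H775.mem_Lk_iff G.F G.hD G.hB G.hdiam (dist_bar' G.F G.hD G.hB z.1.v)).2
    ⟨h13, h11⟩).2
  refine hz.2 (Eq.trans ?_ h14)
  have h15 : z.2 = W.mk (foot z.1.v) (vec' z.2) h13 :=
    (mk_eta z.2).symm.trans (mk_congr hf rfl)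
  exact congrArg (bar e D) h15

theorem map_fst_on : ((dY e D).on (OO e D)).Map (dPr e D) Prod.fst := fun h =>
  Co.map_pb_fst h.1

theorem map_snd_on : ((dY e D).on (OO e D)).Map (dUT E M) Prod.snd := fun h =>
  Co.map_pb_snd h.1

/-- the top class vanishes where the two other ends are different -/
theorem top_on {s : ℕ} (hE : finrank ℝ E = l + 1 + 2 * s) (hs : 1 ≤ s) :
    ((fm G).on (OO e D) (OO_R G)).qm ((fm G).rs (OO e D) (OO_R G)
      (toY G (newtE ℝ (wcl G P) s))) = 0 := by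
  have hW : SmM ((dY e D).on (OO e D)) (fun z => Wf G P z.1) := (sm_Wf G P).comp map_fst_on
  have hH : SmM ((dY e D).on (OO e D)) (fun z => hp (Wf G P z.1)) :=
    (smM_hp (sm_Wf G P) fun p => (cor G P p).cs1.eig_eig).comp map_fst_on
  have hσ : SmM ((dY e D).on (OO e D)) (sec G P) :=
    hW.mul (sm_cplx ((sm_col P).comp map_snd_on))
  have WW : ∀ p, Wf G P p * Wf G P p = Wf G P p := fun p => (cor G P p).cs1.eig_eig
  have iH : ∀ i z t, hp (Wf G P (((fm G).on (OO e D) (OO_R G)).Φ i (z, t)).1) =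
      hp (Wf G P z.1) := fun i z t => congrArg hp (Wf_R G P z.1 t)
  have bH : S2T.IB ((fm G).on (OO e D) (OO_R G)) (cM _ hH) :=
    ⟨idem_cM hH fun z => hp_idem (WW z.1), fun i => basicM_cM hH (iH i)⟩
  have h1 := (((newtE_spec (K := ℝ) (wcl G P)).map (toY G)).map
    ((fm G).rs (OO e D) (OO_R G))).map ((fm G).on (OO e D) (OO_R G)).qm
  refine sec_rel (C := fun j => ((fm G).on (OO e D) (OO_R G)).qm ((fm G).rs (OO e D) (OO_R G)
    (toY G (newtE ℝ (wcl G P) j)))) hH hσ (fun z => hp_idem (WW z.1)) (fun z => hp_herm (WW z.1))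
    (fun z => ?_) (fun z hz => sec_ne G P hz) iH (fun i z t => ?_) (fun z => ?_) hs bH
    (h1.congr fun k => ?_)
  · rw [sec, ← Matrix.mul_assoc, hp_mul (WW z.1)]
  · change Wf G P (G.R (z.1, t)) * cplx (col P z.2) = _
    rw [Wf_R]
    rfl
  · rw [trace_hp (WW z.1), trace_Wf G P hE]
  · refine congrArg _ (Subtype.ext ?_)
    change Form.pull id Dif.map_on (Form.pull Prod.fst Co.map_pb_fst (sF (k + 1) (Wm G P))) =
      sF (k + 1) (cM _ hH)
    rw [H584.pull_pull (k := Prod.fst) Dif.map_on Co.map_pb_fst map_fst_on (fun _ => rfl),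
      ← S2T.IB.sF_pull, Wm, map_pullC_cM]

variable {Om : Form (dM E M)} (hO : Om.d = 0) (hOe : Om.sg = Om)

include hO hOe in
/-- the difference of the two forms, up to an exact form, is supported in `OO` -/
theorem exists_supp : ∃ τ β : Form (dY e D), τ.Supp (OO e D) ∧ τ.sg = τ ∧ (fm G).B β ∧
    Form.pull Prod.fst Co.map_pb_fst (Form.pull (fun q : Pr e D => foot q.v) G.map_foot Om) -
      Form.pull Prod.fst Co.map_pb_fst (Form.pull (fun q : Pr e D => bar e D q.v) G.map_bar Om) =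
        τ + β.d := by
  obtain ⟨τ, β, h1, h2, h3, h4⟩ := S2T.exists_diag G.F G.hD G.hB hO hOe
  have ms : (dY e D).Map (dUT E M) Prod.snd := Co.map_pb_snd
  have mf : (dY e D).Map (dPr e D) Prod.fst := Co.map_pb_fst
  refine ⟨Form.pull br (map_br G) τ,
    Form.pull br (map_br G) β - Form.pull Prod.snd ms (B0 G.F D Om), supp_br G h1,
    by rw [← Form.pull_sg, h2], fun i => H584.Basic.sub (H584.basic_pull (map_br G) (br_R G i) β)
      (H584.basic_pull ms (fun _ _ => rfl) _), ?_⟩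
  have e1 : Form.pull br (map_br G) (Form.pull Prod.fst Dif.map_fst Om) =
      Form.pull Prod.snd ms (Form.pull (bar e D) (map_bar G.F D) Om) := by
    rw [H584.pull_pull ms (map_bar G.F D) (k := fun z : Pr e D × UT E M => bar e D z.2)
      (fun h => map_bar G.F D (ms h)) (fun _ => rfl) Om]
    exact H584.pull_pull (map_br G) Dif.map_fst _ (fun _ => rfl) Om
  have e2 : Form.pull br (map_br G) (Form.pull Prod.snd Dif.map_snd Om) =
      Form.pull Prod.fst mf (Form.pull (fun q : Pr e D => bar e D q.v) G.map_bar Om) := by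
    rw [H584.pull_pull mf G.map_bar (k := fun z : Pr e D × UT E M => bar e D z.1.v)
      (fun h => G.map_bar (mf h)) (fun _ => rfl) Om]
    exact H584.pull_pull (map_br G) Dif.map_snd _ (fun _ => rfl) Om
  have e3 : Form.pull Prod.snd ms (Form.pull foot map_foot Om) =
      Form.pull Prod.fst mf (Form.pull (fun q : Pr e D => foot q.v) G.map_foot Om) := by
    refine Form.ext_val fun E' _ _ _ u x hu => ?_
    rw [Form.pull_val _ _ hu, Form.pull_val _ _ (ms hu), Form.pull_val _ _ hu,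
      Form.pull_val _ _ (mf hu)]
    exact Om.congr (map_foot (ms hu)) hu.2
  have e4 : (Form.pull Prod.snd ms (B0 G.F D Om)).d =
      Form.pull Prod.snd ms (Form.pull (bar e D) (map_bar G.F D) Om) -
        Form.pull Prod.snd ms (Form.pull foot map_foot Om) := by
    rw [← Form.pull_d, S2II.B0_d G.F hO]
    exact map_sub (Form.pullA Prod.snd ms) _ _
  have e5 : Form.pull br (map_br G) (Form.pull Prod.fst Dif.map_fst Om) -
      Form.pull br (map_br G) (Form.pull Prod.snd Dif.map_snd Om) =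
        Form.pull br (map_br G) τ + (Form.pull br (map_br G) β).d := by
    rw [← Form.pull_d]
    refine (map_sub (Form.pullA br (map_br G)) _ _).symm.trans ?_
    rw [h4]
    exact map_add (Form.pullA br (map_br G)) _ _
  rw [Form.d_sub, e4, e3, ← add_sub_assoc, ← e5, e1, e2]
  abel

end Sec

/-- D6a: on the fibre product with the unit tangent bundle -/
theorem exact_sec {l s : ℕ} (G : X3.Geo e D l) (P : PF E M K)
    (hE : finrank ℝ E = l + 1 + 2 * s) (hs : 1 ≤ s) {Om : Form (dM E M)} (hO : Om.d = 0)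
    (hOe : Om.sg = Om) {w : H584.Bas G.R G.map_R}
    (hw : qm G.R G.map_R w = (S2T.xf G hO hOe - S2T.xb G hO hOe) * cW G P s) :
    ∃ η : Form (Co.dPb (dPr e D) (dUT E M) foot (fun q : Pr e D => foot q.v)),
      Form.pull Prod.fst Co.map_pb_fst (w : Form (dPr e D)) = η.d ∧
      ∃ hR : ((Co.dPb (dPr e D) (dUT E M) foot (fun q : Pr e D => foot q.v)).prod
        (Dif.lin ℝ)).Map (Co.dPb (dPr e D) (dUT E M) foot (fun q : Pr e D => foot q.v))
        (fun z => (G.R (z.1.1, z.2), z.1.2)), Basic _ hR η := by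
  have h1 : cW G P s = qm G.R G.map_R (newtE ℝ (wcl G P) s) :=
    (newtE_spec (K := ℝ) (ww G P)).unique ((newtE_spec (K := ℝ) (wcl G P)).map (qm G.R G.map_R)) s
  rw [h1, S2T.xf, S2T.xb, ← map_sub, ← map_mul] at hw
  obtain ⟨ζ, hζ, h2⟩ := H584.quot_eq G.R G.map_R hw
  obtain ⟨τ, β, k1, k2, k3, k4⟩ := Sec.exists_supp G hO hOe
  have h3 : ((Sec.toY G (S2T.invB G G.map_foot G.foot_R hO hOe -
      S2T.invB G G.map_bar G.bar_R hO hOe) : (Sec.fm G).Bas) : Form (Sec.dY e D)) = τ + β.d := by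
    rw [map_sub]
    exact k4
  have h4 := S2T.Fam.cut k1 k2 k3 h3 (Sec.top_on G P hE hs)
  rw [← map_mul, ← map_mul] at h4
  obtain ⟨η, h5, h6⟩ := (Sec.fm G).exists_of_qm_eq_zero h4
  refine ⟨η + Form.pull Prod.fst Co.map_pb_fst ζ, ?_, Sec.mapR G,
    H584.Basic.add (h5 ()) (Sec.basic_fst G hζ ())⟩
  rw [h2, Form.d_add, ← h6, ← Form.pull_d]
  exact map_add (Form.pullA Prod.fst Co.map_pb_fst) _ _

end

end Vale.Agent.P231Z.D
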