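import Vale.Agent.P231Z.D.Defs

/-!
# P231 (D), block D2: the square of `z` is divisible by the class of the circle bundle
-/

set_option maxSynthPendingDepth 3
set_option linter.unusedSectionVars false
set_option linter.unusedVariables false

open Bundle Manifold Set Filter Module MeasureTheory
open scoped ContDiff Manifold Topology ENNReal Real

namespace Vale.Agent.P231Z.D

noncomputable section

open Vale.Agent.P234 Vale.Agent.P231 Vale.Agent.P231.Fm Vale.Agent.P231.W Vale.Agent.P231.WR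
  Vale.Agent.P231.H766 Vale.Agent.P231.WG Vale.Agent.P231.S2II Vale.Agent.P231.WQ
open Vale.Agent.P231.X3 Vale.Agent.P231.ChW

variable {E : Type*} [NormedAddCommGroup E] [NormedSpace ℝ E]
  {M : Type*} [MetricSpace M] [ChartedSpace E M]
  [RiemannianBundle (fun x : M => TangentSpace 𝓘(ℝ, E) x)]
  {e : ∀ x : M, TangentSpace 𝓘(ℝ, E) x → M}
  [FiniteDimensional ℝ E] [IsManifold 𝓘(ℝ, E) ∞ M]
  [IsContMDiffRiemannianBundle 𝓘(ℝ, E) ∞ E (fun x : M => TangentSpace 𝓘(ℝ, E) x)]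
  [CompactSpace M] [ConnectedSpace M] [IsRiemannianManifold 𝓘(ℝ, E) M]
  {D : ℝ} {m k K : ℕ}

/-- several steps of the Gysin sequence of the circle bundle, on classes -/
theorem Sq.div_tt {l : ℕ} (G : X3.Geo e D l) (P : PF E M K) {i : ℕ} (j : ℕ)
    (H : ∀ a, a < j → ∀ w : Form (dPr e D), Form.IsDeg (2 * i + 2 * a + 2) w → w.d = 0 →
      ∃ η : Form (dPr e D), w = η.d) (z : H584.Bas G.R G.map_R)
    (hz : Form.IsDeg (2 * i + 2 * j) (z : Form (dPr e D))) :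
    ∃ w, qm G.R G.map_R z = tt G P ^ j * w := by
  obtain ⟨ζ, σ, h1, h2, h3, h4, h5⟩ := A3.down G.isFlow_R
    (mul_ne_zero two_ne_zero Real.pi_ne_zero) (nu_R G P) (nu_sg P) j H z.2.2.2 z.2.2.1 hz
  let ζB : H584.Bas G.R G.map_R := ⟨ζ, h3.sg_of_even (even_two_mul i), h2, h1⟩
  have h6 : qm G.R G.map_R z = qm G.R G.map_R ((-yB G P) ^ j * ζB) := by
    refine H584.eq_quot G.R G.map_R h4 (h5.trans ?_)
    change _ = (-(-(1 / (2 * Real.pi)) • (X3.nu e D P).d)) ^ j * ζ + σ.d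
    rw [neg_smul, neg_neg, one_div]
  refine ⟨(-1) ^ j * qm G.R G.map_R ζB, ?_⟩
  rw [h6, map_mul, map_pow, map_neg, neg_pow]
  change (-1) ^ j * tt G P ^ j * _ = _
  ring

section Geo

variable (G : X3.Geo e D (2 * m + 1)) (P : PF E M K) {p : M}
  {Pi : TangentSpace 𝓘(ℝ, E) p → TangentSpace 𝓘(ℝ, E) p →L[ℝ] TangentSpace 𝓘(ℝ, E) p}
  {o : TangentSpace 𝓘(ℝ, E) p → Fm.Lam (TangentSpace 𝓘(ℝ, E) p)}
  {ρ : TangentSpace 𝓘(ℝ, E) p → ℝ} {r₀ : ℝ}
  (hJ : FE.LineP e D p m Pi o) (hρ : WE.Rho e D p ρ r₀)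

include G hJ hρ in
/-- the degrees in which the closed forms on the space of pairs are exact -/
theorem Sq.exact_Pr (hm : 1 ≤ m) (hk : 1 ≤ k) (hE : finrank ℝ E = (2 * m + 2) * k) {j : ℕ}
    (hj : j + 1 < (2 * m + 2) * k) (h1 : ¬ 2 * m + 2 ∣ j) (h2 : j < 2 * m ∨ ¬ 2 * m + 2 ∣ j - 2 * m)
    (w : Form (dPr e D)) (h : Form.IsDeg j w) (hw : w.d = 0) : ∃ η : Form (dPr e D), w = η.d := by
  borelize M
  obtain ⟨n, rfl⟩ : ∃ n, k = n + 1 := ⟨k - 1, by omega⟩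
  obtain ⟨N, hN⟩ : ∃ N, finrank ℝ E = N + 1 := ⟨finrank ℝ E - 1, by omega⟩
  have : NeZero (2 * m + 1) := ⟨by omega⟩
  have hG := CoC.gen_UT (CoZ.gen_FF G.F G.hD G.hB G.hdiam (S2T.Geo.hl G) hJ hρ one_ne_zero
    (show 2 ≤ finrank ℝ E by omega))
  exact CoC.hs_exact hG _ _ (by omega) (L3.inst_ang G.F G.hD G.hB G.hdiam (S2T.Geo.hl G) hN
    (hN.symm.trans hE) hJ hρ one_ne_zero) (by omega) h1 h2 w h hw

/-- D2 -/
theorem zz_sq (hm : 2 ≤ m) (hk : 2 ≤ k) (hE : finrank ℝ E = (2 * m + 2) * k) :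
    (∃ w, zz G hJ hρ ^ 2 = tt G P * w) ∧ (3 ≤ m → ∃ w, zz G hJ hρ ^ 2 = tt G P ^ 2 * w) := by
  have hk2 : (2 * m + 2) * 2 ≤ (2 * m + 2) * k := Nat.mul_le_mul_left _ hk
  have hd : Form.IsDeg (2 * m + 2 * m) (b0 G hJ hρ * b0 G hJ hρ) :=
    (b0_deg G hJ hρ).mul (b0_deg G hJ hρ)
  have hz : zz G hJ hρ ^ 2 = qm G.R G.map_R (zB G hJ hρ * zB G hJ hρ) := by
    rw [map_mul, sq]
    rfl
  have nd : ∀ a b : ℕ, 0 < b → b < 2 * m + 2 → ¬ 2 * m + 2 ∣ (2 * m + 2) * a + b := by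
    intro a b hb hb' h
    exact absurd (Nat.le_of_dvd hb ((Nat.dvd_add_right (dvd_mul_right _ _)).1 h)) (by omega)
  have H4 : ∀ w : Form (dPr e D), Form.IsDeg (4 * m) w → w.d = 0 →
      ∃ η : Form (dPr e D), w = η.d := by
    refine Sq.exact_Pr G hJ hρ (by omega) (by omega) hE (by omega) ?_ (Or.inr ?_)
    · have h1 : 4 * m = (2 * m + 2) * 1 + (2 * m - 2) := by omega
      rw [h1]
      exact nd _ _ (by omega) (by omega)
    · have h1 : 4 * m - 2 * m = (2 * m + 2) * 0 + 2 * m := by omega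
      rw [h1]
      exact nd _ _ (by omega) (by omega)
  refine ⟨?_, fun h3 => ?_⟩
  · have h1 : 2 * m + 2 * m = 2 * (2 * m - 1) + 2 * 1 := by omega
    rw [h1] at hd
    obtain ⟨w, hw⟩ := Sq.div_tt G P (i := 2 * m - 1) 1 (fun a ha w h => H4 w (by
      have h2 : 4 * m = 2 * (2 * m - 1) + 2 * a + 2 := by omega
      rwa [h2])) (zB G hJ hρ * zB G hJ hρ) hd
    exact ⟨w, by rw [hz, hw, pow_one]⟩
  · have H2 : ∀ w : Form (dPr e D), Form.IsDeg (4 * m - 2) w → w.d = 0 →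
        ∃ η : Form (dPr e D), w = η.d := by
      refine Sq.exact_Pr G hJ hρ (by omega) (by omega) hE (by omega) ?_ (Or.inr ?_)
      · have h1 : 4 * m - 2 = (2 * m + 2) * 1 + (2 * m - 4) := by omega
        rw [h1]
        exact nd _ _ (by omega) (by omega)
      · have h1 : 4 * m - 2 - 2 * m = (2 * m + 2) * 0 + (2 * m - 2) := by omega
        rw [h1]
        exact nd _ _ (by omega) (by omega)
    have h1 : 2 * m + 2 * m = 2 * (2 * m - 2) + 2 * 2 := by omega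
    rw [h1] at hd
    obtain ⟨w, hw⟩ := Sq.div_tt G P (i := 2 * m - 2) 2 (fun a ha w h => by
      rcases (by omega : a = 0 ∨ a = 1) with rfl | rfl
      · refine H2 w ?_
        have h2 : 4 * m - 2 = 2 * (2 * m - 2) + 2 * 0 + 2 := by omega
        rwa [h2]
      · refine H4 w ?_
        have h2 : 4 * m = 2 * (2 * m - 2) + 2 * 1 + 2 := by omega
        rwa [h2]) (zB G hJ hρ * zB G hJ hρ) hd
    exact ⟨w, by rw [hz, hw]⟩

end Geo

end

end Vale.Agent.P231Z.D
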