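import Vale.Agent.P231Z.D.Alg
import Mathlib.RingTheory.PowerSeries.Expand

/-!
# P231 (D), block `tangent`: the power sums of the tangent bundle

`Eq j` are the coefficients of `1 / D(w, y)`, `D(w, y) = 1 - b (w + y) + q (w - y)²`, as a power
series in `y`; `Aq j` those of `(w - y) / D(w, y)`, shifted.
-/

set_option linter.unusedSectionVars false

namespace Vale.Agent.P231Z.D

open PowerSeries Finset Vale.Agent.P231 Vale.Agent.P231.ChW
open Vale.Agent.P231.S2T (LD ev th ps ell Pit Tt)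

noncomputable section

namespace Tan

section Ser

variable (b q : ℝ)

/-- `1 - b w + q w²` -/
def Qw : PowerSeries ℝ := 1 - C b * X + C q * X ^ 2

/-- `b + 2 q w` -/
def Bq : PowerSeries ℝ := C b + 2 * (C q * X)

theorem Q_zero : constantCoeff (Qw b q) = 1 := by simp [Qw]

theorem Q_mul_inv : Qw b q * (Qw b q)⁻¹ = 1 :=
  PowerSeries.mul_inv_cancel _ (by rw [Q_zero]; exact one_ne_zero)

/-- the coefficients of `1 / D` -/
def Ee : ℕ → PowerSeries ℝ
  | 0 => (Qw b q)⁻¹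
  | 1 => (Qw b q)⁻¹ * (Bq b q * (Qw b q)⁻¹)
  | (j + 2) => (Qw b q)⁻¹ * (Bq b q * Ee (j + 1) - C q * Ee j)

theorem Q_E_zero : Qw b q * Ee b q 0 = 1 := Q_mul_inv b q

theorem Q_E_one : Qw b q * Ee b q 1 = Bq b q * Ee b q 0 := by
  rw [Ee, Ee, ← mul_assoc, Q_mul_inv, one_mul]

theorem Q_E (j : ℕ) : Qw b q * Ee b q (j + 2) = Bq b q * Ee b q (j + 1) - C q * Ee b q j := by
  rw [Ee, ← mul_assoc, Q_mul_inv, one_mul]

/-- the coefficients of `(w - y) / D` -/
def Aq : ℕ → PowerSeries ℝ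
  | 0 => X * Ee b q 0
  | (j + 1) => X * Ee b q (j + 1) - Ee b q j

theorem Q_A_zero : Qw b q * Aq b q 0 = X := by
  rw [Aq, mul_left_comm, Q_E_zero, mul_one]

theorem Q_A_one : Qw b q * Aq b q 1 = Bq b q * Aq b q 0 - 1 := by
  have h1 := Q_E_one b q
  have h0 := Q_E_zero b q
  rw [Aq, Aq]
  linear_combination X * h1 - h0

theorem Q_A_two : Qw b q * Aq b q 2 = Bq b q * Aq b q 1 - C q * Aq b q 0 := by
  have h2 := Q_E b q 0
  have h1 := Q_E_one b q
  rw [Aq, Aq, Aq]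
  linear_combination X * h2 - h1

theorem Q_A (j : ℕ) : Qw b q * Aq b q (j + 2) = Bq b q * Aq b q (j + 1) - C q * Aq b q j := by
  cases j with
  | zero => exact Q_A_two b q
  | succ j =>
    have h2 := Q_E b q (j + 1)
    have h1 := Q_E b q j
    rw [Aq, Aq, Aq]
    linear_combination X * h2 - h1

/-- the Casorati determinants -/
def KK (j : ℕ) : PowerSeries ℝ := Aq b q (j + 1) ^ 2 - Aq b q (j + 2) * Aq b q j

theorem Q_KK (j : ℕ) : Qw b q * KK b q (j + 1) = C q * KK b q j := by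
  have h1 := Q_A b q j
  have h2 := Q_A b q (j + 1)
  rw [KK, KK]
  linear_combination Aq b q (j + 2) * h1 - Aq b q (j + 1) * h2

theorem Q_KK_zero : Qw b q ^ 3 * KK b q 0 = 1 - C (2 * b) * X := by
  have h0 := Q_A_zero b q
  have h1 := Q_A_one b q
  have h2 := Q_A_two b q
  have h3 : Qw b q ^ 2 * KK b q 0 = Qw b q * (C q * Aq b q 0 ^ 2 - Aq b q 1) := by
    rw [KK]
    linear_combination (Qw b q * Aq b q 1) * h1 - Qw b q * Aq b q 0 * h2
  have h4 : Qw b q ^ 2 * (C q * Aq b q 0 ^ 2 - Aq b q 1) = 1 - C (2 * b) * X := by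
    have h5 : Qw b q ^ 2 * (C q * Aq b q 0 ^ 2 - Aq b q 1) =
        C q * (Qw b q * Aq b q 0) ^ 2 - Qw b q * (Qw b q * Aq b q 1) := by ring
    rw [h5, h0, h1, mul_sub, mul_left_comm, h0, mul_one, Qw, Bq]
    have h6 : (C (2 * b) : PowerSeries ℝ) = 2 * C b := by
      rw [map_mul, map_ofNat]
    rw [h6]
    ring
  calc Qw b q ^ 3 * KK b q 0 = Qw b q * (Qw b q ^ 2 * KK b q 0) := by ring
    _ = Qw b q ^ 2 * (C q * Aq b q 0 ^ 2 - Aq b q 1) := by rw [h3]; ring
    _ = _ := h4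

theorem Q_pow_KK (j : ℕ) : Qw b q ^ (j + 3) * KK b q j = C q ^ j * (1 - C (2 * b) * X) := by
  induction j with
  | zero => rw [pow_zero, one_mul]; exact Q_KK_zero b q
  | succ j ih =>
    have h1 := Q_KK b q j
    linear_combination Qw b q ^ (j + 3) * h1 + C q * ih

/-- `[y^{n-u}] (w - y) / D` -/
def al (n u : ℕ) : PowerSeries ℝ := ∑ j ∈ range (n + 1), Ee b q j * th n (j + u)

theorem al_eq (n u : ℕ) (hu : u ≤ n) : al b q n u = Aq b q (n - u) := by
  have h1 : ∀ j ∈ range (n + 1), j ∉ ({n - u} ∪ {n - u - 1} : Finset ℕ) →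
      Ee b q j * th n (j + u) = 0 := by
    intro j _ hj
    simp only [Finset.mem_union, Finset.mem_singleton, not_or] at hj
    rw [th, if_neg (by omega), if_neg (by omega), mul_zero]
  have hsub : ({n - u} ∪ {n - u - 1} : Finset ℕ) ⊆ range (n + 1) := by
    intro j hj
    simp only [Finset.mem_union, Finset.mem_singleton] at hj
    simp only [Finset.mem_range]
    omega
  rw [al, ← Finset.sum_subset hsub h1]
  rcases Nat.eq_zero_or_pos (n - u) with h0 | h0
  · have h2 : n - u - 1 = n - u := by omega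
    rw [h2, Finset.union_self, Finset.sum_singleton, th, if_pos (by omega), h0, Aq, mul_comm]
  · obtain ⟨m, hm⟩ := Nat.exists_eq_succ_of_ne_zero h0.ne'
    rw [hm, Nat.succ_sub_one]
    have h3 : Disjoint ({m.succ} : Finset ℕ) {m} := by simp
    rw [Finset.sum_union h3, Finset.sum_singleton, Finset.sum_singleton, th, if_pos (by omega), th,
      if_neg (by omega), if_pos (by omega), Nat.succ_eq_add_one, Aq]
    ring

/-- the Casorati determinant of `al` -/
theorem al_det (m : ℕ) :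
    Qw b q ^ (m + 2 + 1) * (al b q (m + 2) 1 ^ 2 - al b q (m + 2) 0 * al b q (m + 2) 2) =
      C q ^ m * (1 - C (2 * b) * X) := by
  rw [al_eq b q _ _ (by omega), al_eq b q _ _ (by omega), al_eq b q _ _ (by omega)]
  have := Q_pow_KK b q m
  rw [KK] at this
  exact this

variable {b q}

theorem Q_mul_p {p : ℕ → ℝ} (hp : PS b q p) :
    Qw b q * PowerSeries.mk (fun k => p (k + 1)) = C b - C (2 * q) * X := by
  ext k
  rw [Qw, add_mul, sub_mul, one_mul, mul_assoc, pow_two, mul_assoc, mul_assoc, map_add, map_sub,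
    coeff_C_mul, coeff_C_mul, map_sub, coeff_C_mul, coeff_C]
  rcases k with _ | _ | k
  · rw [coeff_zero_X_mul, coeff_zero_X_mul, coeff_zero_X, coeff_mk, if_pos rfl, zero_add, hp.p1]
    ring
  · rw [coeff_succ_X_mul, coeff_succ_X_mul, coeff_zero_X_mul, coeff_one_X, coeff_mk, coeff_mk,
      if_neg (by omega), hp.ps 0, hp.p0]
    ring
  · rw [coeff_succ_X_mul, coeff_succ_X_mul, coeff_succ_X_mul, coeff_mk, coeff_mk, coeff_mk,
      if_neg (by omega), coeff_X, if_neg (by omega), hp.ps (k + 1)]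
    ring

theorem LD_Q {p : ℕ → ℝ} (hp : PS b q p) :
    LD (Qw b q) (C 2 * (X * PowerSeries.mk (fun k => p (k + 1)))) := by
  have h1 : d⁄dX ℝ (Qw b q) = -(C b - C (2 * q) * X) := by
    ext k
    rw [coeff_derivative, Qw, map_add, map_sub, coeff_one, if_neg (by omega), coeff_C_mul,
      coeff_C_mul, map_neg, map_sub, coeff_C, coeff_C_mul, coeff_X, coeff_X_pow, coeff_X]
    rcases k with _ | _ | k
    · simp
    · norm_num
      ring
    · simp
  unfold LD
  rw [h1, ← Q_mul_p hp]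
  have h2 : (2 : PowerSeries ℝ) = C 2 := rfl
  rw [h2]
  ring

end Ser

variable {H : Type*} [CommRing H] [Algebra ℝ H]

/-! ### Newton's recursion -/

/-- the series of the power sums, with signs -/
def ss (s : ℕ → H) : PowerSeries H :=
  X * PowerSeries.mk fun j => (2 * (-1) ^ (j + 1) : ℝ) • s (j + 1)

theorem LD_newton {s e : ℕ → H} (h : NewtonRec ℝ s e) : LD (PowerSeries.mk e) (ss s) := by
  refine S2T.LD_mk (g := e) (s := fun j => (2 * (-1) ^ j : ℝ) • s j) fun k => ?_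
  rw [mul_smul, h.2 k, Finset.smul_sum, ← Finset.sum_neg_distrib]
  refine Finset.sum_congr rfl fun i _ => ?_
  rw [smul_mul_assoc, smul_smul, ← neg_smul]
  congr 1
  ring

theorem ss_sub (T u v : ℕ → H) : ss (fun j => T j - u j - v j) + (ss u + ss v) = ss T := by
  rw [ss, ss, ss, ss, ← mul_add, ← mul_add]
  congr 1
  ext j
  simp only [map_add, coeff_mk]
  module

theorem odd_e {s e : ℕ → H} (h : NewtonRec ℝ s e) (hs : ∀ k, Odd k → s k = 0) :
    ∀ k, Odd k → e k = 0 := by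
  intro k
  induction k using Nat.strong_induction_on with
  | _ k ih =>
    intro hk
    obtain ⟨j, rfl⟩ := hk
    have h1 := h.2 (2 * j)
    have h2 : ∑ i ∈ range (2 * j + 1), (-1 : ℝ) ^ i • (s (i + 1) * e (2 * j - i)) = 0 := by
      refine Finset.sum_eq_zero fun i hi => ?_
      have hi' : i < 2 * j + 1 := Finset.mem_range.1 hi
      rcases Nat.even_or_odd i with he | ho
      · rw [hs (i + 1) he.add_one, zero_mul, smul_zero]
      · have h3 : Odd (2 * j - i) := by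
          obtain ⟨a, rfl⟩ := ho
          exact ⟨j - a - 1, by omega⟩
        rw [ih _ (by omega) h3, mul_zero, smul_zero]
    rw [h2] at h1
    have h4 : ((2 * j : ℕ) : ℝ) + 1 ≠ 0 := by positivity
    exact (smul_eq_zero.1 h1).resolve_left h4

theorem odd_s {s e : ℕ → H} (h : NewtonRec ℝ s e) (he : ∀ k, Odd k → e k = 0) :
    ∀ k, Odd k → s k = 0 := by
  intro k
  induction k using Nat.strong_induction_on with
  | _ k ih =>
    intro hk
    obtain ⟨j, rfl⟩ := hk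
    have h1 := h.2 (2 * j)
    have h2 : ∑ i ∈ range (2 * j), (-1 : ℝ) ^ i • (s (i + 1) * e (2 * j - i)) = 0 := by
      refine Finset.sum_eq_zero fun i hi => ?_
      have hi' : i < 2 * j := Finset.mem_range.1 hi
      rcases Nat.even_or_odd i with hev | ho
      · rw [ih (i + 1) (by omega) hev.add_one, zero_mul, smul_zero]
      · have h3 : Odd (2 * j - i) := by
          obtain ⟨a, rfl⟩ := ho
          exact ⟨j - a - 1, by omega⟩
        rw [he _ h3, mul_zero, smul_zero]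
    rw [Finset.sum_range_succ, h2, zero_add, he _ ⟨j, rfl⟩, smul_zero, Nat.sub_self, h.1, mul_one,
      (even_two_mul j).neg_one_pow, one_smul] at h1
    exact h1.symm

/-! ### the substitution `S = s ^ r` -/

theorem coeff_X_d (F : PowerSeries H) (n : ℕ) : coeff n (X * d⁄dX H F) = (n : H) * coeff n F := by
  cases n with
  | zero => rw [coeff_zero_X_mul, Nat.cast_zero, zero_mul]
  | succ n =>
    rw [coeff_succ_X_mul, coeff_derivative, mul_comm]
    push_cast
    rfl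

theorem LD_expand {r : ℕ} (hr : r ≠ 0) {F S : PowerSeries H} (h : LD F S) :
    LD (expand r hr F) (C (r : H) * expand r hr S) := by
  have h1 : X * d⁄dX H (expand r hr F) = C (r : H) * expand r hr (X * d⁄dX H F) := by
    ext n
    rw [coeff_X_d, coeff_C_mul, coeff_expand, coeff_expand]
    split_ifs with hn
    · obtain ⟨a, rfl⟩ := hn
      rw [Nat.mul_div_cancel_left _ (Nat.pos_of_ne_zero hr), coeff_X_d]
      push_cast
      ring
    · rw [mul_zero, mul_zero]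
  have h2 : expand r hr (2 * X * d⁄dX H F) = expand r hr (-(F * S)) := congrArg _ h
  rw [mul_assoc, map_mul, map_ofNat, map_neg, map_mul _ F S] at h2
  unfold LD
  rw [mul_assoc, h1]
  linear_combination C (r : H) * h2

/-- the series `1 - b (x₀ + x) S + q (x₀ - x)² S²` -/
def Ds (b q : ℝ) (x₀ x : H) : PowerSeries H :=
  ev x₀ (Qw b q) - ev x₀ (Bq b q) * (C x * X) + ev x₀ (C q) * (C x * X) ^ 2

theorem Ds_eq (b q : ℝ) (x₀ x : H) :
    Ds b q x₀ x = 1 - C (b • (x₀ + x)) * X + C (q • (x₀ - x) ^ 2) * X ^ 2 := by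
  rw [Ds, Qw, Bq, Algebra.smul_def, Algebra.smul_def]
  simp only [map_add, map_sub, map_mul, map_pow, map_one, map_ofNat, S2T.ev_C, S2T.ev_X]
  ring

theorem mk_cP {r : ℕ} (hr : r ≠ 0) (b q : ℝ) (x₀ x : H) :
    PowerSeries.mk (cP r b q x₀ x) = expand r hr (Ds b q x₀ x) := by
  rw [Ds_eq, map_add, map_sub, map_one, map_mul, map_mul, map_pow, expand_C, expand_C, expand_X,
    ← pow_mul]
  ext j
  rw [coeff_mk, map_add, map_sub, coeff_one, coeff_C_mul, coeff_C_mul, coeff_X_pow, coeff_X_pow, cP]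
  by_cases h0 : j = 0
  · rw [if_pos h0, if_pos h0, if_neg (by omega), if_neg (by omega)]
    ring
  · rw [if_neg h0, if_neg h0]
    by_cases h1 : j = r
    · rw [if_pos h1, if_pos h1, if_neg (by omega)]
      ring
    · rw [if_neg h1, if_neg h1]
      by_cases h2 : j = 2 * r
      · rw [if_pos h2, if_pos (by omega)]
        ring
      · rw [if_neg h2, if_neg (by omega)]
        ring

/-- the truncated inverse -/
def Es (n : ℕ) (b q : ℝ) (x₀ x : H) : PowerSeries H :=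
  ∑ j ∈ range (n + 1), ev x₀ (Ee b q j) * (C x * X) ^ j

theorem Ds_mul_sum (b q : ℝ) (x₀ x : H) (N : ℕ) :
    Ds b q x₀ x * ∑ j ∈ range (N + 2), ev x₀ (Ee b q j) * (C x * X) ^ j =
      1 - (ev x₀ (Bq b q) * ev x₀ (Ee b q (N + 1)) - ev x₀ (C q) * ev x₀ (Ee b q N)) *
        (C x * X) ^ (N + 2) + ev x₀ (C q) * ev x₀ (Ee b q (N + 1)) * (C x * X) ^ (N + 3) := by
  induction N with
  | zero =>
    have h0 : ev x₀ (Qw b q) * ev x₀ (Ee b q 0) = 1 := by rw [← map_mul, Q_E_zero, map_one]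
    have h1 : ev x₀ (Qw b q) * ev x₀ (Ee b q 1) = ev x₀ (Bq b q) * ev x₀ (Ee b q 0) := by
      rw [← map_mul, Q_E_one, map_mul]
    rw [Finset.sum_range_succ, Finset.sum_range_succ, Finset.sum_range_zero, Ds]
    linear_combination h0 + (C x * X) * h1
  | succ N ih =>
    have h1 : ev x₀ (Qw b q) * ev x₀ (Ee b q (N + 2)) =
        ev x₀ (Bq b q) * ev x₀ (Ee b q (N + 1)) - ev x₀ (C q) * ev x₀ (Ee b q N) := by
      rw [← map_mul, Q_E, map_sub, map_mul, map_mul]
    rw [Finset.sum_range_succ, mul_add, ih, Ds]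
    linear_combination ((C x * X) ^ (N + 2)) * h1

theorem Ds_mul_Es {n : ℕ} (hn : 1 ≤ n) (b q : ℝ) (x₀ : H) {x : H} (hx : x ^ (n + 1) = 0) :
    Ds b q x₀ x * Es n b q x₀ x = 1 := by
  obtain ⟨m, rfl⟩ := Nat.exists_eq_add_of_le' hn
  have h1 : (C x * X : PowerSeries H) ^ (m + 2) = 0 := by
    rw [mul_pow, ← map_pow, hx, map_zero, zero_mul]
  have h2 : (C x * X : PowerSeries H) ^ (m + 3) = 0 := by rw [pow_succ, h1, zero_mul]
  rw [Es, Ds_mul_sum, h1, h2, mul_zero, mul_zero, sub_zero, add_zero]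

/-- the normalised power sums -/
def tn (r : ℕ) (t : ℕ → ℝ) (a : ℕ) : ℝ := if Even (r * a) then 2 / r * t a else 0

variable {k r : ℕ} {b q : ℝ} {x0 x1 x2 : H} {t : ℕ → ℝ} {T π₁ π₂ g : ℕ → H}

theorem ss_T (hr : r ≠ 0) (R : Tg k r b q x0 x1 x2 t T π₁ π₂ g) :
    ss T = C (r : H) * expand r hr (ev x0 (Tt (tn r t))) := by
  ext n
  rw [coeff_C_mul, coeff_expand, ss]
  cases n with
  | zero =>
    rw [coeff_zero_X_mul, if_pos (dvd_zero r), Nat.zero_div, S2T.coeff_ev, S2T.coeff_zero_Tt,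
      map_zero, mul_zero, mul_zero]
  | succ n =>
    rw [coeff_succ_X_mul, coeff_mk]
    by_cases hd : r ∣ n + 1
    · rw [if_pos hd]
      obtain ⟨a, ha⟩ := hd
      have h1 : (n + 1) / r = a := by rw [ha, Nat.mul_div_cancel_left _ (Nat.pos_of_ne_zero hr)]
      obtain ⟨a', rfl⟩ : ∃ a', a = a' + 1 := ⟨a - 1, by
        rcases Nat.eq_zero_or_pos a with rfl | h
        · omega
        · omega⟩
      rw [h1, S2T.coeff_ev, S2T.coeff_Tt, tn, ← ha]
      rcases Nat.even_or_odd (n + 1) with he | ho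
      · rw [if_pos he, he.neg_one_pow]
        obtain ⟨j, hj⟩ := he
        have h2 : n + 1 = 2 * j := by omega
        have h3 := R.ev j (by omega)
        rw [← h2, tg, if_pos ⟨_, ha⟩, h1] at h3
        have h4 : (r : ℝ) ≠ 0 := Nat.cast_ne_zero.2 hr
        have h5 : (r : H) = algebraMap ℝ H r := (map_natCast _ r).symm
        rw [h3, smul_smul, h5, mul_left_comm, ← map_mul, Algebra.smul_def, mul_comm]
        congr 2
        field_simp
      · rw [if_neg (Nat.not_even_iff_odd.2 ho), R.odd _ ho, smul_zero, map_zero, mul_zero, mul_zero]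
    · rw [if_neg hd, mul_zero]
      rcases Nat.even_or_odd (n + 1) with he | ho
      · obtain ⟨j, hj⟩ := he
        have h2 : n + 1 = 2 * j := by omega
        have h3 := R.ev j (by omega)
        rw [← h2, tg, if_neg hd] at h3
        rw [h3, smul_zero]
      · rw [R.odd _ ho, smul_zero]

/-- the total class of `T - P₁ - P₂` in the variable `S` -/
def GG (k r : ℕ) (b q : ℝ) (x0 x1 x2 : H) (t : ℕ → ℝ) : PowerSeries H :=
  ev x0 (Pit (tn r t)) * (Es k b q x0 x1 * Es k b q x0 x2)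

theorem mk_g (hk : 1 ≤ k) (hr : r ≠ 0) (R : Tg k r b q x0 x1 x2 t T π₁ π₂ g) :
    PowerSeries.mk g = expand r hr (GG k r b q x0 x1 x2 t) := by
  have h1 := ((LD_newton R.ng).mul ((LD_newton R.p1).mul (LD_newton R.p2))).congr
    (ss_sub T π₁ π₂)
  have h2 := (LD_expand hr (S2T.ev_LD (x₀ := x0) (S2T.LD_Pit (tn r t)))).congr (ss_T hr R).symm
  have h3 := S2T.LD.unique h1 h2 (by rw [ss, coeff_zero_X_mul]) (by
    rw [coeff_zero_eq_constantCoeff_apply, map_mul, map_mul, ← coeff_zero_eq_constantCoeff_apply,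
      ← coeff_zero_eq_constantCoeff_apply, ← coeff_zero_eq_constantCoeff_apply, coeff_mk, coeff_mk,
      coeff_mk, R.ng.1, R.p1.1, R.p2.1, coeff_expand, if_pos (dvd_zero r), Nat.zero_div,
      S2T.coeff_ev, S2T.Pit_zero, pow_zero, map_one, one_mul, one_mul])
  rw [mk_cP hr, mk_cP hr] at h3
  have h4 := congrArg (expand r hr) (Ds_mul_Es hk b q x0 R.n1)
  have h5 := congrArg (expand r hr) (Ds_mul_Es hk b q x0 R.n2)
  rw [map_mul, map_one] at h4 h5
  rw [GG, map_mul, map_mul, ← h3]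
  linear_combination (-PowerSeries.mk g * (expand r hr (Ds b q x0 x2) *
    expand r hr (Es k b q x0 x2))) * h4 - PowerSeries.mk g * h5

theorem rel_GG (hk : 1 ≤ k) (hr : r ≠ 0) (hb : Odd r → b = 0)
    (R : Tg k r b q x0 x1 x2 t T π₁ π₂ g) {j : ℕ} (hj : 2 * k < j + 4) :
    (x1 - x2) * coeff j (GG k r b q x0 x1 x2 t) = 0 := by
  have h1 : coeff j (GG k r b q x0 x1 x2 t) = g (r * j) := by
    rw [← coeff_expand_mul r hr, ← mk_g hk hr R, coeff_mk]
  rw [h1]
  rcases Nat.even_or_odd (r * j) with he | ho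
  · obtain ⟨i, hi⟩ := he
    have h2 : r * j = 2 * i := by omega
    rw [h2]
    refine R.rel i ?_
    have h3 : r * (2 * k) < r * (j + 4) := Nat.mul_lt_mul_of_pos_left hj (Nat.pos_of_ne_zero hr)
    nlinarith
  · have hro : Odd r := (Nat.odd_mul.1 ho).1
    have hc : ∀ x : H, ∀ i, Odd i → cP r b q x0 x i = 0 := by
      intro x i hi
      obtain ⟨a, rfl⟩ := hi
      rw [cP, if_neg (by omega), hb hro, zero_smul, neg_zero, if_neg (show ¬ 2 * a + 1 = 2 * r by
        omega), ite_self]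
    have h2 := odd_e R.ng fun i hi => by
      rw [R.odd i hi, odd_s R.p1 (hc x1) i hi, odd_s R.p2 (hc x2) i hi, sub_zero, sub_zero]
    rw [h2 _ ho, mul_zero]

/-- the integral of the relation -/
theorem det (hk : 2 ≤ k) (hr : r ≠ 0) (hb : Odd r → b = 0)
    (R : Tg k r b q x0 x1 x2 t T π₁ π₂ g) {κ : ℝ} (hκ : κ ≠ 0) {z1 z2 : H} {L : H →ₗ[ℝ] ℝ}
    (V : S2T.Val k κ x0 x1 x2 z1 z2 L) {m : ℕ} (hm0 : 1 ≤ m) (hm : m ≤ k) :
    coeff m (Pit (tn r t) * (al b q k 1 ^ 2 - al b q k 0 * al b q k 2)) = 0 := by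
  obtain ⟨u₁, hu₁⟩ : ∃ u : PowerSeries H, u = C x1 * X := ⟨_, rfl⟩
  obtain ⟨u₂, hu₂⟩ : ∃ u : PowerSeries H, u = C x2 * X := ⟨_, rfl⟩
  obtain ⟨G, hG⟩ : ∃ G, G = GG k r b q x0 x1 x2 t := ⟨_, rfl⟩
  have key : ell k m x0 z1 z2 L (G * (u₁ ^ 1 * u₂ ^ 1) - G * (u₁ ^ 0 * u₂ ^ 2)) = 0 := by
    have h1 : G * (u₁ ^ 1 * u₂ ^ 1) - G * (u₁ ^ 0 * u₂ ^ 2) =
        C (x2 * (x1 - x2)) * (G * X ^ 2) := by
      rw [hu₁, hu₂, map_mul, map_sub]
      ring
    rw [h1, ell, coeff_C_mul]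
    obtain ⟨j, hj⟩ : ∃ j, 2 * k - 2 + m = j + 2 := ⟨2 * k - 4 + m, by omega⟩
    rw [hj, coeff_mul_X_pow]
    have h2 := rel_GG (by omega) hr hb R (j := j) (by omega)
    rw [← hG] at h2
    have h3 : z1 ^ 2 * z2 ^ 2 * x0 ^ (k - m) * (x2 * (x1 - x2) * coeff j G) =
        z1 ^ 2 * z2 ^ 2 * x0 ^ (k - m) * x2 * ((x1 - x2) * coeff j G) := by ring
    rw [h3, h2, mul_zero, map_zero]
  have expd : ∀ p p' : ℕ, ell k m x0 z1 z2 L (G * (u₁ ^ p * u₂ ^ p')) =
      κ * coeff m (Pit (tn r t) * (al b q k p * al b q k p')) := by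
    intro p p'
    have h1 : G * (u₁ ^ p * u₂ ^ p') = ∑ i ∈ range (k + 1), ∑ j ∈ range (k + 1),
        ev x0 (Pit (tn r t) * (Ee b q i * Ee b q j)) * (u₁ ^ (i + p) * u₂ ^ (j + p')) := by
      rw [hG, GG, Es, Es, Finset.sum_mul_sum, Finset.mul_sum, Finset.sum_mul]
      refine Finset.sum_congr rfl fun i _ => ?_
      rw [Finset.mul_sum, Finset.sum_mul]
      refine Finset.sum_congr rfl fun j _ => ?_
      rw [map_mul, map_mul, ← hu₁, ← hu₂]
      ring
    rw [h1, S2T.ell_sum]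
    have h2 : al b q k p * al b q k p' = ∑ i ∈ range (k + 1), ∑ j ∈ range (k + 1),
        (Ee b q i * Ee b q j) * (th k (i + p) * th k (j + p')) := by
      rw [al, al, Finset.sum_mul_sum]
      refine Finset.sum_congr rfl fun i _ => Finset.sum_congr rfl fun j _ => ?_
      ring
    rw [h2, Finset.mul_sum, map_sum, Finset.mul_sum]
    refine Finset.sum_congr rfl fun i _ => ?_
    rw [S2T.ell_sum, Finset.mul_sum, map_sum, Finset.mul_sum]
    refine Finset.sum_congr rfl fun j _ => ?_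
    rw [hu₁, hu₂, S2T.ell_ev hm hk V, mul_assoc]
  rw [S2T.ell_sub, expd, expd] at key
  have h5 : κ * coeff m (Pit (tn r t) * (al b q k 1 ^ 2 - al b q k 0 * al b q k 2)) = 0 := by
    rw [mul_sub, map_sub, mul_sub, sq]
    exact key
  exact (mul_eq_zero.1 h5).resolve_left hκ

end Tan

variable {H : Type*} [CommRing H] [Algebra ℝ H]

/-- **the power sums of the tangent bundle** -/
theorem tangent {k r : ℕ} (hk : 2 ≤ k) (hr : 1 ≤ r) {b q : ℝ} (hq : q ≠ 0) (hb : Odd r → b = 0)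
    {p : ℕ → ℝ} (hp : PS b q p) {x0 x1 x2 : H} {t : ℕ → ℝ} {T π₁ π₂ g : ℕ → H}
    (R : Tg k r b q x0 x1 x2 t T π₁ π₂ g) {κ : ℝ} (hκ : κ ≠ 0) {z1 z2 : H} {L : H →ₗ[ℝ] ℝ}
    (V : S2T.Val k κ x0 x1 x2 z1 z2 L) {a : ℕ} (ha : 1 ≤ a) (hak : a ≤ k) (he : Even (r * a)) :
    t a = tv k r b p a := by
  have hr0 : r ≠ 0 := by omega
  obtain ⟨n, rfl⟩ := Nat.exists_eq_add_of_le' hk
  obtain ⟨K, hK⟩ : ∃ K, K = Tan.al b q (n + 2) 1 ^ 2 - Tan.al b q (n + 2) 0 * Tan.al b q (n + 2) 2 :=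
    ⟨_, rfl⟩
  have h1 : Tan.Qw b q ^ (n + 2 + 1) * K = C q ^ n * (1 - C (2 * b) * X) := by
    rw [hK]
    exact Tan.al_det b q n
  have hQ0 := Tan.Q_zero b q
  have hK0 : constantCoeff K = q ^ n := by
    have := congrArg constantCoeff h1
    rw [map_mul, map_pow, hQ0, one_pow, one_mul] at this
    rw [this]
    simp
  have h2 : X ^ (n + 2 + 1) ∣ Pit (Tan.tn r t) * K - C q ^ n := by
    rw [X_pow_dvd_iff]
    intro m hm
    rcases Nat.eq_zero_or_pos m with h0 | h0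
    · rw [h0, map_sub, coeff_zero_eq_constantCoeff_apply, map_mul, hK0,
        ← coeff_zero_eq_constantCoeff_apply (Pit (Tan.tn r t)), S2T.Pit_zero]
      simp
    · rw [map_sub, hK, Tan.det hk hr0 hb R hκ V h0 (by omega), ← map_pow, coeff_C,
        if_neg (by omega), sub_zero]
  have h3 : X ^ (n + 2 + 1) ∣ Pit (Tan.tn r t) * (1 - C (2 * b) * X) - Tan.Qw b q ^ (n + 2 + 1) := by
    have h4 : (C (q ^ n)⁻¹ : PowerSeries ℝ) * C q ^ n = 1 := by
      rw [← map_pow, ← map_mul, inv_mul_cancel₀ (pow_ne_zero n hq), map_one]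
    have : Pit (Tan.tn r t) * (1 - C (2 * b) * X) - Tan.Qw b q ^ (n + 2 + 1) =
        (Pit (Tan.tn r t) * K - C q ^ n) * (C (q ^ n)⁻¹ * Tan.Qw b q ^ (n + 2 + 1)) := by
      linear_combination (-(C (q ^ n)⁻¹ * Pit (Tan.tn r t))) * h1 -
        (Pit (Tan.tn r t) * (1 - C (2 * b) * X) - Tan.Qw b q ^ (n + 2 + 1)) * h4
    rw [this]
    exact h2.mul_right _
  have h4 := ((S2T.LD_Pit (Tan.tn r t)).mul (S2T.LD_lin (2 * b))).trunc
    ((Tan.LD_Q hp).pow (n + 2 + 1)) h3 (by rw [map_pow, hQ0, one_pow]; exact one_ne_zero)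
  obtain ⟨i, rfl⟩ := Nat.exists_eq_add_of_le' ha
  have h5 := X_pow_dvd_iff.1 h4 (i + 1) (by omega)
  have h6 : (2 : PowerSeries ℝ) = C 2 := rfl
  have h7 : ((n + 2 + 1 : ℕ) : PowerSeries ℝ) = C ((n + 2 + 1 : ℕ) : ℝ) := (map_natCast C _).symm
  rw [map_sub, map_add, S2T.coeff_Tt, ps, h6, coeff_C_mul, mul_assoc, coeff_C_mul, coeff_succ_X_mul,
    coeff_mk, h7, coeff_C_mul, coeff_C_mul, coeff_succ_X_mul, coeff_mk, Tan.tn, if_pos he] at h5
  have h8 : (r : ℝ) ≠ 0 := Nat.cast_ne_zero.2 hr0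
  have h9 : t (i + 1) = (r : ℝ) / 2 * (2 / r * t (i + 1)) := by field_simp
  rw [tv, pow_succ, h9]
  push_cast at h5 ⊢
  linear_combination (r : ℝ) / 2 * h5

end

end Vale.Agent.P231Z.D
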