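import Vale.Agent.P231Z.D.Mod

/-!
# P231 (D): the Euler class relation
-/

set_option linter.unusedSectionVars false

namespace Vale.Agent.P231Z.D

open Finset PowerSeries Vale.Agent.P231 Vale.Agent.P231.ChW

noncomputable section

namespace TE

variable {H : Type*} [CommRing H] [Algebra ℝ H]
variable {k r : ℕ} {κ b q : ℝ} {p c : ℕ → ℝ}

theorem coeff_nat_mul (r : ℕ) (F : PowerSeries ℝ) (a : ℕ) :
    coeff a ((r : PowerSeries ℝ) * F) = r * coeff a F := by
  rw [← map_natCast (C : ℝ →+* PowerSeries ℝ) r, coeff_C_mul]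

/-! ### the top class modulo the annihilator -/

/-- the odd part of a sequence, divided by the exponents -/
def od (w : ℕ → H) : PowerSeries H :=
  PowerSeries.mk fun j => if Odd j then (j : ℝ)⁻¹ • w j else 0

theorem coeff_eu_od (w : ℕ → H) (j : ℕ) : coeff j (eu (od w)) = if Odd j then w j else 0 := by
  rw [coeff_eu, od, coeff_mk]
  split_ifs with h
  · have hj : (j : ℝ) ≠ 0 := Nat.cast_ne_zero.2 h.pos.ne'
    rw [natCast_mul_eq, smul_smul, mul_inv_cancel₀ hj, one_smul]
  · rw [mul_zero]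

theorem top_coef (hr : 2 ≤ r) (hp : PS b q p) (hc : CS k b p c) (hb : Odd r → b = 0) {x z : H}
    (hz : z ^ 2 = 0) {u ww cW : ℕ → H} (np : NewtonRec ℝ u (cP r b q x x))
    (ev : ∀ j, 1 ≤ j → (2 : ℝ) • ww (2 * j) = tg r (tv k r b p) x (2 * j) - u (2 * j))
    (o1 : ∀ j, Odd j → ∃ y, ww j = z * y) (o2 : ∀ j, Odd j → ¬ r ∣ j + 1 → ww j = 0)
    (nw : NewtonRec ℝ ww cW) (K : ℕ) : cW (r * K) = c K • x ^ K := by
  have hr0 : r ≠ 0 := by omega
  -- the power sums of the planes
  have h1 : PowerSeries.mk (cP r b q x x) = ex hr0 x (1 - C (2 * b) * X) := by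
    rw [mk_cP hr0, map_sub, map_one, map_mul, ex_C, ex_X, sub_self, zero_pow two_ne_zero, smul_zero,
      map_zero, zero_mul, add_zero, ← mul_assoc, ← map_mul, ← Algebra.smul_def, ← two_mul,
      mul_comm (2 : ℝ), mul_smul, two_smul ℝ x, two_mul]
  have h2 := newton_LG np
  have h3 := (LG_lin (2 * b)).ex hr0 x
  rw [← h1] at h3
  have h4 := h2.unique_log h3 (by rw [coeff_mk]; exact np.1)
  -- the logarithmic derivative of the Chern series
  have h5 : ns ww = ex hr0 x ((r : PowerSeries ℝ) *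
      Ps fun a => (2 * b) ^ a - ((k : ℝ) + 1) / 2 * p a) + eu (od ww) := by
    ext j
    rw [map_add, coeff_eu_od]
    rcases Nat.even_or_odd j with he | ho
    · rw [if_neg (Nat.not_odd_iff_even.2 he), add_zero]
      rcases Nat.eq_zero_or_pos j with rfl | hj
      · rw [coeff_zero_ns, coeff_zero_ex, coeff_nat_mul, coeff_zero_Ps, mul_zero, map_zero]
      · have h6 := congrArg (coeff j) h4
        rw [coeff_ns_even _ hj.ne' he] at h6 ⊢
        obtain ⟨i, hi⟩ := he
        have h7 := ev i (by omega)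
        rw [show 2 * i = j by omega] at h7
        refine smul_cancel (two_ne_zero (α := ℝ)) ?_
        rw [smul_neg, h7, neg_sub, ← neg_neg (u j), h6]
        by_cases hd : r ∣ j
        · obtain ⟨a, rfl⟩ := hd
          have ha : a ≠ 0 := by
            rintro rfl
            omega
          rw [coeff_ex_mul, coeff_ex_mul, coeff_nat_mul, coeff_nat_mul, map_neg, coeff_Ps _ ha,
            coeff_Ps _ ha, tg, if_pos (dvd_mul_right r a),
            Nat.mul_div_cancel_left _ (Nat.pos_of_ne_zero hr0), tv, smul_smul, ← neg_smul,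
            ← sub_smul]
          congr 1
          ring
        · rw [coeff_ex_of_not _ _ _ hd, coeff_ex_of_not _ _ _ hd, tg, if_neg hd, neg_zero,
            sub_self, smul_zero]
    · rw [if_pos ho, coeff_ns_odd _ ho]
      by_cases hd : r ∣ j
      · obtain ⟨a, rfl⟩ := hd
        obtain ⟨h8, h9⟩ := Nat.odd_mul.1 ho
        rw [coeff_ex_mul, coeff_nat_mul, coeff_Ps _ h9.pos.ne', hp.odd (hb h8) h9, hb h8, mul_zero,
          zero_pow h9.pos.ne', mul_zero, sub_zero, mul_zero, zero_smul, zero_add]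
      · rw [coeff_ex_of_not _ _ _ hd, zero_add]
  have h6 : od ww * eu (od ww) = 0 := by
    ext j
    rw [coeff_mul, map_zero]
    refine Finset.sum_eq_zero fun i _ => ?_
    rw [coeff_eu_od, od, coeff_mk]
    split_ifs with g1 g2
    · obtain ⟨y1, e1⟩ := o1 _ g1
      obtain ⟨y2, e2⟩ := o1 _ g2
      rw [e1, e2, smul_mul_assoc, mul_mul_mul_comm, ← sq, hz, zero_mul, smul_zero]
    · rw [mul_zero]
    · rw [zero_mul]
    · rw [mul_zero]
  have h7 : LG (1 + od ww) (eu (od ww)) := by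
    unfold LG
    rw [eu_add, eu_one, zero_add, add_mul, one_mul, h6, add_zero]
  have h8 := ((LG_cs hc).ex hr0 x).mul h7
  rw [← h5] at h8
  have h0 : coeff 0 (od ww) = 0 := by
    rw [od, coeff_mk, if_neg (by decide)]
  have h9 := (newton_LG nw).unique h8 (coeff_zero_ns _) (by
    rw [coeff_mk, nw.1, coeff_zero_eq_constantCoeff_apply, map_mul, map_add, map_one,
      ← coeff_zero_eq_constantCoeff_apply, ← coeff_zero_eq_constantCoeff_apply, h0, coeff_zero_ex,
      coeff_mk, hc.c0, map_one, add_zero, mul_one])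
  have h10 := congrArg (coeff (r * K)) h9
  rw [coeff_mk, mul_add, mul_one, map_add, coeff_ex_mul, coeff_mk, coeff_mul] at h10
  rw [h10, add_eq_left]
  refine Finset.sum_eq_zero fun i hi => ?_
  rw [HasAntidiagonal.mem_antidiagonal] at hi
  by_cases hd : r ∣ i.1
  · have g1 : r ∣ i.2 := (Nat.dvd_add_right hd).1 (hi ▸ dvd_mul_right r K)
    have g2 : ¬ r ∣ i.2 + 1 := fun g => by
      have := Nat.le_of_dvd one_pos ((Nat.dvd_add_right g1).1 g)
      omega
    rw [od, coeff_mk]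
    split_ifs with g3
    · rw [o2 _ g3 g2, smul_zero, mul_zero]
    · rw [mul_zero]
  · rw [coeff_ex_of_not _ _ _ hd, zero_mul]

variable {x0 x1 t z : H} {Φ : H →ₗ[ℝ] ℝ} {u ww ss cW : ℕ → H}

/-- the top class against a test class killed by `t` -/
theorem test_top (hr : 2 ≤ r) (hp : PS b q p) (hc : CS k b p c) (B : Base k κ x0 x1 t z Φ)
    (R : Rel k r b q p x0 x1 t z u ww ss cW) {y : H} (h1 : z ^ 2 * y * t = 0) (K : ℕ) :
    z ^ 2 * y * cW (r * K) = c K • (z ^ 2 * y * x0 ^ K) := by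
  obtain ⟨w, hw⟩ := R.z1
  have hT : z ^ 2 * y = t * (w * y) := by rw [hw, mul_assoc]
  set T := z ^ 2 * y with hTd
  have h2 : T * t ^ 2 = 0 := by rw [sq, ← mul_assoc, h1, zero_mul]
  have ft : qa T t = 0 := qa_eq_zero.2 h1
  have fz : qa T z ^ 2 = 0 := by rw [← map_pow, hw, map_mul, ft, zero_mul]
  have fx : qa T x1 = qa T x0 := by
    have := congrArg (qa T) B.tz
    rw [map_mul, ft, zero_mul, map_sub] at this
    exact (sub_eq_zero.1 this.symm).symm
  have np : NewtonRec ℝ (fun j => qa T (u j)) (cP r b q (qa T x0) (qa T x0)) := by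
    have := newton_map (qa T) R.np
    simp only [map_cP, fx] at this
    exact this
  have hod : ∀ j, Odd j → qa T (ww j) = qa T z * ((2 * ((j : ℝ) + 1))⁻¹ •
      dg r (tv k r b p) (qa T x0) (qa T x1) (j + 1)) := by
    rintro j ⟨i, rfl⟩
    rw [lemA_q B R hT h2 i, ft, zero_mul, smul_zero, add_zero, mul_smul_comm]
    congr 2
    push_cast
    ring
  have h := top_coef (x := qa T x0) (z := qa T z) (ww := fun j => qa T (ww j))
    (cW := fun j => qa T (cW j)) hr hp hc R.hb fz np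
    (fun j hj => by rw [← map_smul, R.ev0 j hj, map_sub, map_tg'])
    (fun j hj => ⟨_, hod j hj⟩)
    (fun j hj hd => by rw [hod j hj, dg_of_not hd, smul_zero, mul_zero])
    (newton_map (qa T) R.nw) K
  rw [← map_pow, ← map_smul] at h
  rw [qa_eq_iff.1 h, mul_smul_comm]

theorem mul_ks {y : H} (hy : y * (x0 - x1) = 0) (n : ℕ) :
    y * S2X.ks x0 x1 n = (((n + 2).choose 2 : ℕ) : ℝ) • (y * x0 ^ n) := by
  have h1 : y * x1 = y * x0 := by linear_combination -hy
  induction n with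
  | zero => simp [S2X.ks]
  | succ n ih =>
    have c1 : (((n + 1 + 2).choose 2 : ℕ) : ℝ) = (((n + 2).choose 2 : ℕ) : ℝ) + ((n : ℝ) + 2) := by
      rw [show n + 1 + 2 = n + 2 + 1 from rfl, Nat.choose_succ_succ' (n + 2) 1, Nat.choose_one_right]
      push_cast
      ring
    rw [S2X.ks_succ, c1, add_smul, mul_add, mul_left_comm, ih]
    simp only [Algebra.smul_def, map_add, map_natCast, map_ofNat]
    linear_combination ((n + 2).choose 2 : H) * x0 ^ n * h1

theorem phi_ks (B : Base (k + 1) κ x0 x1 t z Φ) :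
    Φ (z ^ 2 * (x0 * S2X.ks x0 x1 k) * x0 ^ k) = κ := by
  have h1 : z ^ 2 * (x0 * S2X.ks x0 x1 k) * x0 ^ k = x0 ^ (k + 1) * x1 ^ k * z ^ 2 := by
    rw [S2X.ks, sum_range_succ']
    have h2 : x0 ^ (k + 1) * ∑ i ∈ range k, (((i + 1 : ℕ) : H) + 1) *
        (x0 ^ (i + 1) * x1 ^ (k - (i + 1))) = 0 := by
      rw [mul_sum]
      refine Finset.sum_eq_zero fun i _ => ?_
      have h3 := B.n0
      linear_combination ((((i + 1 : ℕ) : H) + 1) * (x0 ^ i * x1 ^ (k - (i + 1)))) * h3
    simp only [Nat.cast_zero, zero_add, pow_zero, one_mul, Nat.sub_zero]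
    linear_combination z ^ 2 * h2
  rw [h1, B.val, lam, if_pos ⟨rfl, rfl⟩, if_neg (by omega), sub_zero, mul_one]

/-- the first evaluation -/
theorem side1 (hr : 2 ≤ r) (hp : PS b q p) (hc : CS (k + 1) b p c)
    (B : Base (k + 1) κ x0 x1 t z Φ) (R : Rel (k + 1) r b q p x0 x1 t z u ww ss cW) :
    (((k + 2).choose 2 : ℕ) : ℝ) * Φ (z ^ 2 * x0 * cW (r * k) ^ 2) = c k ^ 2 * κ := by
  have g5 : x0 * (x0 - x1) * cW (r * k) = 0 := R.g5
  have tz := B.tz
  have h2 : z ^ 2 * (x0 * cW (r * k)) * t = 0 := by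
    linear_combination z * g5 + z * x0 * cW (r * k) * tz
  have h3 : z ^ 2 * (x0 * S2X.ks x0 x1 k) * t = 0 := by
    have e1 := S2X.sub_mul_ks x0 x1 k
    have e2 := B.hk
    have e3 := B.n0
    linear_combination z * x0 * e1 - z * x0 * e2 + z * ((k : H) + 2) * e3 +
      z * x0 * S2X.ks x0 x1 k * tz
  have e2 := test_top hr hp hc B R h2 k
  have e3 := test_top hr hp hc B R h3 k
  have e4 := mul_ks (x0 := x0) (x1 := x1) (y := z ^ 2 * (x0 * cW (r * k)))
    (by linear_combination z * h2 - z ^ 2 * (x0 * cW (r * k)) * tz) k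
  have e5 : z ^ 2 * x0 * cW (r * k) ^ 2 = z ^ 2 * (x0 * cW (r * k)) * cW (r * k) := by ring
  have e6 : z ^ 2 * (x0 * cW (r * k)) * S2X.ks x0 x1 k =
      z ^ 2 * (x0 * S2X.ks x0 x1 k) * cW (r * k) := by ring
  have e7 := congrArg Φ (e4.symm.trans (e6.trans e3))
  rw [map_smul, map_smul, phi_ks B, smul_eq_mul, smul_eq_mul] at e7
  rw [e5, e2, map_smul, smul_eq_mul]
  linear_combination c k * e7

/-! ### the expansion of the inverse of the Chern series of the planes -/

section V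

variable {A A' : Type*} [CommRing A] [CommRing A']

/-- the numerators -/
def VV (Q B q : A) : ℕ → A
  | 0 => 1
  | 1 => B
  | (j + 2) => B * VV Q B q (j + 1) - q * Q * VV Q B q j

theorem map_VV (f : A →+* A') (Q B q : A) : ∀ j, f (VV Q B q j) = VV (f Q) (f B) (f q) j
  | 0 => map_one f
  | 1 => rfl
  | (j + 2) => by
    rw [VV, VV, map_sub, map_mul, map_mul, map_mul, map_VV f Q B q (j + 1), map_VV f Q B q j]

theorem tele (Q B q y : A) (n : ℕ) :
    (Q - B * y + q * y ^ 2) * ∑ j ∈ range (n + 1), Q ^ (n - j) * VV Q B q j * y ^ j =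
      Q ^ (n + 1) - VV Q B q (n + 1) * y ^ (n + 1) + q * VV Q B q n * y ^ (n + 2) := by
  induction n with
  | zero =>
    rw [zero_add, sum_range_one, VV, VV]
    ring
  | succ n ih =>
    have h1 : ∑ j ∈ range (n + 1), Q ^ (n + 1 - j) * VV Q B q j * y ^ j =
        Q * ∑ j ∈ range (n + 1), Q ^ (n - j) * VV Q B q j * y ^ j := by
      rw [mul_sum]
      refine sum_congr rfl fun j hj => ?_
      have : j < n + 1 := mem_range.1 hj
      rw [show n + 1 - j = n - j + 1 by omega]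
      ring
    rw [sum_range_succ, h1, Nat.sub_self, show n + 1 + 1 = n + 2 from rfl, VV]
    linear_combination Q * ih

end V

/-- `b + 2 q w` -/
def Bs (b q : ℝ) : PowerSeries ℝ := C b + C (2 * q) * X

/-- the numerators for the real series -/
def Vs (b q : ℝ) (j : ℕ) : PowerSeries ℝ := VV (Qs b q) (Bs b q) (C q) j

theorem Vs_succ (b q : ℝ) (j : ℕ) : Vs b q (j + 2) = C b * Vs b q (j + 1) +
    C (2 * q) * (X * Vs b q (j + 1)) - C q * Vs b q j + C (q * b) * (X * Vs b q j) -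
      C (q * q) * (X * (X * Vs b q j)) := by
  rw [Vs, VV, ← Vs, ← Vs, Qs, Bs, map_mul C q b, map_mul C q q]
  ring

theorem coeff_Vs (b q : ℝ) : ∀ j, (∀ n, j < n → coeff n (Vs b q j) = 0) ∧
    coeff j (Vs b q j) = ((j : ℝ) + 1) * q ^ j
  | 0 => ⟨fun n hn => by rw [Vs, VV, coeff_one, if_neg (by omega)], by simp [Vs, VV]⟩
  | 1 => ⟨fun n hn => by
      rw [Vs, VV, Bs, map_add, coeff_C, coeff_C_mul, coeff_X, if_neg (by omega),
        if_neg (by omega), mul_zero, add_zero], by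
      rw [Vs, VV, Bs, map_add, coeff_C, coeff_C_mul, coeff_X, if_neg (by omega), if_pos rfl]
      norm_num⟩
  | (j + 2) => by
    obtain ⟨a1, a2⟩ := coeff_Vs b q (j + 1)
    obtain ⟨b1, b2⟩ := coeff_Vs b q j
    have key : ∀ n, coeff (n + 2) (Vs b q (j + 2)) = b * coeff (n + 2) (Vs b q (j + 1)) +
        2 * q * coeff (n + 1) (Vs b q (j + 1)) - q * coeff (n + 2) (Vs b q j) +
        q * b * coeff (n + 1) (Vs b q j) - q * q * coeff n (Vs b q j) := by
      intro n
      rw [Vs_succ]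
      simp only [map_add, map_sub, coeff_C_mul, coeff_succ_X_mul]
    refine ⟨fun n hn => ?_, ?_⟩
    · obtain ⟨m, rfl⟩ : ∃ m, n = m + 2 := ⟨n - 2, by omega⟩
      rw [key, a1 _ (by omega), a1 _ (by omega), b1 _ (by omega), b1 _ (by omega), b1 _ (by omega)]
      ring
    · rw [key, a1 _ (by omega), a2, b1 _ (by omega), b1 _ (by omega), b2]
      push_cast
      ring

/-- `Q V_k - w V_(k+1)` -/
def Gk (b q : ℝ) (k : ℕ) : PowerSeries ℝ := Qs b q * Vs b q k - X * Vs b q (k + 1)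

theorem Gk_succ (b q : ℝ) (k : ℕ) :
    Gk b q (k + 1) = C q * (X * Gk b q k) + (1 - C (2 * b) * X) * Vs b q (k + 1) := by
  rw [Gk, Gk, show k + 1 + 1 = k + 2 from rfl, Vs, Vs, VV, ← Vs, ← Vs, Qs, Bs, map_mul C 2 b,
    map_mul C 2 q, map_ofNat]
  ring

theorem coeff_Gk (b q : ℝ) (k : ℕ) :
    coeff k (Gs (2 * b) * Gk b q k) = q ^ k * (((k + 2).choose 2 : ℕ) : ℝ) := by
  induction k with
  | zero =>
    rw [coeff_zero_eq_constantCoeff_apply, map_mul, ← coeff_zero_eq_constantCoeff_apply,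
      coeff_zero_Gs]
    simp [Gk, Qs, Vs, VV]
  | succ k ih =>
    have c1 : (((k + 1 + 2).choose 2 : ℕ) : ℝ) = (((k + 2).choose 2 : ℕ) : ℝ) + ((k : ℝ) + 2) := by
      rw [show k + 1 + 2 = k + 2 + 1 from rfl, Nat.choose_succ_succ' (k + 2) 1, Nat.choose_one_right]
      push_cast
      ring
    have h1 : Gs (2 * b) * Gk b q (k + 1) =
        C q * (X * (Gs (2 * b) * Gk b q k)) + Vs b q (k + 1) := by
      rw [Gk_succ]
      linear_combination Vs b q (k + 1) * one_sub_mul_Gs (2 * b)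
    rw [h1, map_add, coeff_C_mul, coeff_succ_X_mul, ih, (coeff_Vs b q (k + 1)).2, c1]
    push_cast
    ring

/-! ### the second evaluation -/

theorem coeff_prod_neg {e : ℕ → H} {n : ℕ} (top : ∀ j, n < j → e j = 0) :
    coeff (2 * n) (PowerSeries.mk e * rescale (-1) (PowerSeries.mk e)) = (-1) ^ n * e n ^ 2 := by
  rw [coeff_mul, Finset.sum_eq_single (n, n)]
  · rw [coeff_rescale, coeff_mk]
    ring
  · intro i hi hne
    rw [HasAntidiagonal.mem_antidiagonal] at hi
    rw [coeff_rescale, coeff_mk, coeff_mk]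
    by_cases h1 : n < i.1
    · rw [top _ h1, zero_mul]
    · have h2 : n < i.2 := by
        by_contra h3
        exact hne (Prod.ext (by show i.1 = n; omega) (by show i.2 = n; omega))
      rw [top _ h2, mul_zero, mul_zero]
  · intro h
    exact absurd (HasAntidiagonal.mem_antidiagonal.2 (by show n + n = 2 * n; omega)) h

theorem u_odd (hb : Odd r → b = 0) (np : NewtonRec ℝ u (cP r b q x0 x1)) {j : ℕ}
    (hj : Odd j) : u j = 0 := by
  have h1 : rescale (-1) (PowerSeries.mk (cP r b q x0 x1)) = PowerSeries.mk (cP r b q x0 x1) := by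
    ext i
    rw [coeff_rescale, coeff_mk]
    rcases Nat.even_or_odd i with he | ho
    · rw [he.neg_one_pow, one_mul]
    · have : cP r b q x0 x1 i = 0 := by
        have h0 := ho.pos
        rw [cP, if_neg (by omega)]
        split_ifs with g1 g2
        · rw [hb (g1 ▸ ho), zero_smul, neg_zero]
        · exact absurd (g2 ▸ ho) (Nat.not_odd_iff_even.2 (even_two_mul r))
        · rfl
      rw [this, mul_zero]
  have h2 := (newton_LG np).rescale (-1)
  rw [h1] at h2
  have h3 := congrArg (coeff j) ((newton_LG np).unique_log h2 (by rw [coeff_mk]; exact np.1))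
  rw [coeff_rescale, coeff_ns_odd _ hj, hj.neg_one_pow] at h3
  refine smul_cancel (two_ne_zero (α := ℝ)) ?_
  rw [smul_zero, two_smul]
  linear_combination h3

theorem prod_eq (hr : r ≠ 0) (hp : PS b q p) (R : Rel k r b q p x0 x1 t z u ww ss cW) :
    PowerSeries.mk cW * rescale (-1) (PowerSeries.mk cW) * PowerSeries.mk (cP r b q x0 x1) =
      ex hr x0 (Qs b q ^ (k + 1) * Gs (2 * b)) := by
  have h1 := ((newton_LG R.nw).mul ((newton_LG R.nw).rescale (-1))).mul (newton_LG R.np)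
  have h2 := (((LG_Qs hp).pow (k + 1)).mul (LG_Gs (2 * b))).ex hr x0
  have h3 : ns ww + rescale (-1) (ns ww) + ns u = ex hr x0 ((r : PowerSeries ℝ) *
      (((k + 1 : ℕ) : PowerSeries ℝ) * -Ps p + Ps fun n => (2 * b) ^ n)) := by
    ext j
    rw [map_add, map_add, coeff_rescale]
    rcases Nat.eq_zero_or_pos j with rfl | hj
    · rw [coeff_zero_ns, coeff_zero_ns, coeff_zero_ex, coeff_nat_mul, map_add, coeff_nat_mul,
        map_neg, coeff_zero_Ps, coeff_zero_Ps]
      simp
    have h4 : coeff j (ex hr x0 ((r : PowerSeries ℝ) *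
        (((k + 1 : ℕ) : PowerSeries ℝ) * -Ps p + Ps fun n => (2 * b) ^ n))) =
        -tg r (tv k r b p) x0 j := by
      rw [tg]
      split_ifs with hd
      · obtain ⟨a, rfl⟩ := hd
        have ha : a ≠ 0 := by
          rintro rfl
          omega
        rw [coeff_ex_mul, coeff_nat_mul, map_add, coeff_nat_mul, map_neg, coeff_Ps _ ha,
          coeff_Ps _ ha, Nat.mul_div_cancel_left _ (Nat.pos_of_ne_zero hr), tv, ← neg_smul]
        congr 1
        push_cast
        ring
      · rw [coeff_ex_of_not _ _ _ hd, neg_zero]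
    rw [h4]
    rcases Nat.even_or_odd j with he | ho
    · rw [coeff_ns_even _ hj.ne' he, coeff_ns_even _ hj.ne' he, he.neg_one_pow]
      obtain ⟨i, hi⟩ := he
      have h7 := R.ev0 i (by omega)
      rw [show 2 * i = j by omega, two_smul] at h7
      linear_combination -h7
    · rw [coeff_ns_odd _ ho, coeff_ns_odd _ ho, ho.neg_one_pow, u_odd R.hb R.np ho]
      have h5 : tg r (tv k r b p) x0 j = 0 := by
        rw [tg]
        split_ifs with hd
        · obtain ⟨a, rfl⟩ := hd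
          obtain ⟨h8, h9⟩ := Nat.odd_mul.1 ho
          rw [Nat.mul_div_cancel_left _ (Nat.pos_of_ne_zero hr), tv, hp.odd (R.hb h8) h9, R.hb h8,
            mul_zero, mul_zero, zero_pow h9.pos.ne', sub_zero, mul_zero, zero_smul]
        · rfl
      rw [h5]
      ring
  rw [← h3] at h2
  refine h1.unique h2 ?_ ?_
  · rw [map_add, map_add, coeff_rescale, coeff_zero_ns, coeff_zero_ns]
    simp
  · rw [coeff_zero_ex]
    simp only [coeff_zero_eq_constantCoeff_apply, map_mul, map_pow]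
    simp only [← coeff_zero_eq_constantCoeff_apply, coeff_rescale, coeff_mk, R.nw.1, R.np.1,
      coeff_zero_Qs, coeff_zero_Gs]
    simp

theorem series_eq (hr : r ≠ 0) (hp : PS b q p) (B : Base k κ x0 x1 t z Φ)
    (R : Rel k r b q p x0 x1 t z u ww ss cW) :
    PowerSeries.mk cW * rescale (-1) (PowerSeries.mk cW) = ∑ j ∈ range (k + 1),
      ex hr x0 (Gs (2 * b) * (Qs b q ^ (k - j) * Vs b q j)) * (C x1 * X ^ r) ^ j := by
  have h1 := prod_eq hr hp R
  have h2 := tele (ex hr x0 (Qs b q)) (ex hr x0 (Bs b q)) (ex hr x0 (C q)) (C x1 * X ^ r) k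
  have h3 : (C x1 * X ^ r : PowerSeries H) ^ (k + 1) = 0 := by
    rw [mul_pow, ← map_pow, B.n1, map_zero, zero_mul]
  have h4 : ex hr x0 (Qs b q) - ex hr x0 (Bs b q) * (C x1 * X ^ r) +
      ex hr x0 (C q) * (C x1 * X ^ r) ^ 2 = PowerSeries.mk (cP r b q x0 x1) := by
    rw [mk_cP hr, Qs, Bs]
    simp only [map_add, map_sub, map_mul, map_pow, map_one, ex_X, ex_C, Algebra.smul_def,
      map_ofNat]
    ring
  rw [h4, pow_succ _ (k + 1), h3, zero_mul, mul_zero, mul_zero, sub_zero, add_zero] at h2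
  have hU : IsUnit (ex hr x0 (Qs b q) ^ (k + 1)) :=
    ((isUnit_of_coeff_zero (coeff_zero_Qs b q)).map (ex hr x0)).pow _
  refine hU.mul_left_cancel ?_
  have h5 : ∑ j ∈ range (k + 1),
      ex hr x0 (Gs (2 * b) * (Qs b q ^ (k - j) * Vs b q j)) * (C x1 * X ^ r) ^ j =
      ex hr x0 (Gs (2 * b)) * ∑ j ∈ range (k + 1), ex hr x0 (Qs b q) ^ (k - j) *
        VV (ex hr x0 (Qs b q)) (ex hr x0 (Bs b q)) (ex hr x0 (C q)) j * (C x1 * X ^ r) ^ j := by
    rw [mul_sum]
    refine sum_congr rfl fun j _ => ?_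
    rw [map_mul, map_mul, map_pow, Vs, map_VV]
    ring
  rw [map_mul, map_pow] at h1
  rw [h5]
  generalize (∑ j ∈ range (k + 1), ex hr x0 (Qs b q) ^ (k - j) *
    VV (ex hr x0 (Qs b q)) (ex hr x0 (Bs b q)) (ex hr x0 (C q)) j * (C x1 * X ^ r) ^ j) = S at h2 ⊢
  linear_combination S * h1 - PowerSeries.mk cW * rescale (-1) (PowerSeries.mk cW) * h2

/-- the second evaluation -/
theorem side2 (hr : r ≠ 0) (hp : PS b q p) (B : Base (k + 2) κ x0 x1 t z Φ)
    (R : Rel (k + 2) r b q p x0 x1 t z u ww ss cW) :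
    (-1) ^ (r * (k + 1)) * Φ (z ^ 2 * x0 * cW (r * (k + 1)) ^ 2) =
      κ * (q ^ (k + 1) * (((k + 3).choose 2 : ℕ) : ℝ)) := by
  have h1 := congrArg (coeff (2 * (r * (k + 1)))) (series_eq hr hp B R)
  have top : ∀ j, r * (k + 1) < j → cW j = 0 := R.top
  rw [coeff_prod_neg top, map_sum] at h1
  have h2 : ∀ j ∈ range (k + 2 + 1), coeff (2 * (r * (k + 1)))
      (ex hr x0 (Gs (2 * b) * (Qs b q ^ (k + 2 - j) * Vs b q j)) * (C x1 * X ^ r) ^ j) =
      coeff (2 * k + 2 - j) (Gs (2 * b) * (Qs b q ^ (k + 2 - j) * Vs b q j)) •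
        (x0 ^ (2 * k + 2 - j) * x1 ^ j) := by
    intro j hj
    have hj' : j < k + 2 + 1 := mem_range.1 hj
    have e1 : 2 * (r * (k + 1)) = r * (2 * k + 2 - j) + r * j := by
      rw [← mul_add, show 2 * k + 2 - j + j = 2 * (k + 1) by omega]
      ring
    rw [e1, mul_pow, ← map_pow, ← pow_mul, ← mul_assoc, coeff_mul_X_pow, coeff_mul_C, coeff_ex_mul,
      smul_mul_assoc]
  rw [sum_congr rfl h2] at h1
  have h3 : ((-1 : ℝ) ^ (r * (k + 1))) • (z ^ 2 * x0 * cW (r * (k + 1)) ^ 2) =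
      ∑ j ∈ range (k + 2 + 1),
        coeff (2 * k + 2 - j) (Gs (2 * b) * (Qs b q ^ (k + 2 - j) * Vs b q j)) •
          (x0 ^ (2 * k + 2 - j + 1) * x1 ^ j * z ^ 2) := by
    have e1 : ((-1 : ℝ) ^ (r * (k + 1))) • (z ^ 2 * x0 * cW (r * (k + 1)) ^ 2) =
        z ^ 2 * x0 * ((-1) ^ (r * (k + 1)) * cW (r * (k + 1)) ^ 2) := by
      rw [Algebra.smul_def, map_pow, map_neg, map_one]
      ring
    rw [e1, h1, mul_sum]
    refine sum_congr rfl fun j _ => ?_
    rw [mul_smul_comm]
    congr 1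
    ring
  have h4 := congrArg Φ h3
  rw [map_smul, smul_eq_mul, map_sum] at h4
  simp only [map_smul, B.val, smul_eq_mul] at h4
  rw [sum_range_succ, sum_range_succ, Finset.sum_eq_zero (fun j hj => by
    have hj' : j < k + 1 := mem_range.1 hj
    rw [lam, if_neg (by omega), if_neg (by omega), sub_zero, mul_zero, mul_zero]), zero_add,
    lam, lam, if_pos (by omega), if_neg (by omega), if_neg (by omega), if_pos (by omega),
    show 2 * k + 2 - (k + 1) = k + 1 by omega, show 2 * k + 2 - (k + 2) = k by omega,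
    show k + 2 - (k + 1) = 1 by omega, Nat.sub_self, pow_one, pow_zero, one_mul] at h4
  have h5 := coeff_Gk b q (k + 1)
  rw [Gk, mul_sub, map_sub, mul_left_comm _ X, coeff_succ_X_mul] at h5
  rw [h4, ← h5]
  ring

end TE

variable {H : Type*} [CommRing H] [Algebra ℝ H]

/-- the relation given by the square of the top Chern class -/
theorem topE {k r : ℕ} (hk : 2 ≤ k) (hr : 3 ≤ r) {κ b q : ℝ} {p c : ℕ → ℝ} (hp : PS b q p)
    (hc : CS k b p c) {x0 x1 t z : H} {Φ : H →ₗ[ℝ] ℝ} (B : Base k κ x0 x1 t z Φ)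
    {u ww ss cW : ℕ → H} (R : Rel k r b q p x0 x1 t z u ww ss cW) :
    c (k - 1) ^ 2 = |q| ^ (k - 1) * ((k + 1).choose 2 : ℝ) ^ 2 := by
  obtain ⟨n, rfl⟩ : ∃ n, k = n + 2 := ⟨k - 2, by omega⟩
  have h1 := TE.side1 (k := n + 1) (by omega) hp hc B R
  have h2 := TE.side2 (by omega) hp B R
  rw [show n + 1 + 2 = n + 3 from rfl] at h1
  rw [show n + 2 - 1 = n + 1 from rfl, show n + 2 + 1 = n + 3 from rfl]
  have h3 : (-1) ^ (r * (n + 1)) * c (n + 1) ^ 2 = q ^ (n + 1) * ((n + 3).choose 2 : ℝ) ^ 2 := by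
    refine mul_right_cancel₀ B.ne ?_
    linear_combination (((n + 3).choose 2 : ℕ) : ℝ) * h2 - (-1) ^ (r * (n + 1)) * h1
  have h4 := congrArg abs h3
  rw [abs_mul, abs_mul, abs_pow, abs_neg, abs_one, one_pow, one_mul, abs_pow q,
    abs_of_nonneg (sq_nonneg (c (n + 1))), abs_of_nonneg (sq_nonneg ((n + 3).choose 2 : ℝ))] at h4
  exact h4

end

end Vale.Agent.P231Z.D
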