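import Vale.Agent.P231Z.D.TopZ1

/-!
# P231 (D), block `topZ`, part 2: the test class and the linear relation
-/

namespace Vale.Agent.P231Z.D

open PowerSeries Finset Vale.Agent.P231 Vale.Agent.P231.ChW

noncomputable section

namespace TZ

variable {A : Type*} [CommRing A] [Algebra ℝ A] {r k : ℕ} {b q : ℝ} {p : ℕ → ℝ}
  {x0 x1 t z : A} {u ww ss cW : ℕ → A}

namespace Red

/-- the logarithmic derivative of the total Chern class -/
theorem ns_ww (h : Red k r b q p x0 x1 t z u ww ss cW) (hr : r ≠ 0) (he : Even r) :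
    ns ww = xe r hr x0 (C (r : ℝ) * gam k b p) + C t * Eu (X * xe r hr x0 (sB k r b p)) +
      C z * Eu (X ^ (r - 1) * xe r hr x0 (sZ k r b p)) +
      C (x0 - x1) * Eu (X ^ r * xe r hr x0 (sE b)) := by
  obtain ⟨m, hm⟩ := he
  have hpar : ∀ a, r * a = 2 * (m * a) := fun a => by rw [hm]; ring
  ext n
  rw [map_add, map_add, map_add, coeff_C_mul, coeff_C_mul, coeff_C_mul, coeff_Eu, coeff_Eu,
    coeff_Eu]
  cases n with
  | zero =>
    have h1 := coeff_xe_mul hr x0 (C (r : ℝ) * gam k b p) 0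
    rw [mul_zero] at h1
    rw [coeff_zero_ns, h1, coeff_C_mul, coeff_zero_gam]
    simp
  | succ n =>
    rw [coeff_ns, coeff_succ_X_mul]
    obtain ⟨j, rfl | rfl⟩ := Nat.even_or_odd' n
    · have h1 : ¬ r ∣ 2 * j + 1 := by
        rintro ⟨a, ha⟩
        rw [hpar] at ha
        omega
      have h2 : ∀ a, 2 * j + 1 ≠ r * a + r := fun a => by
        rw [hpar]
        omega
      rw [coeff_xe_not hr x0 _ h1, coeff_sh_not hr x0 _ _ h2, smul_zero, mul_zero, zero_add,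
        add_zero, h.ww_odd, h.t_ss hr ⟨m, hm⟩, pow_mul, neg_one_sq, one_pow, one_smul, smul_smul,
        mul_smul_comm, mul_smul_comm]
      congr 1
      · congr 1
        push_cast
        ring
      by_cases h3 : r ∣ 2 * j + 2
      · obtain ⟨a, ha⟩ := h3
        obtain ⟨a, rfl⟩ : ∃ a', a = a' + 1 := ⟨a - 1, by rcases a with _ | a <;> omega⟩
        have h4 : 2 * j + 1 = r * a + (r - 1) := by
          rw [Nat.mul_succ] at ha
          omega
        have h5 : (r : ℝ) * (a + 1) = 2 * j + 2 := by exact_mod_cast ha.symm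
        rw [coeff_sh hr x0 _ _ a h4, mm, if_pos ⟨a + 1, ha⟩, ha,
          Nat.mul_div_cancel_left _ (Nat.pos_of_ne_zero hr), Nat.add_sub_cancel, mul_smul_comm,
          mul_smul_comm, smul_smul, smul_smul, sZ, coeff_mk, h5, tv, uu]
        congr 1
        have h6 : (2 * (j : ℝ) + 1) ≠ 0 := by positivity
        have h7 : ∀ v : ℝ, 1 / (4 * ((j : ℝ) + 1)) * (r * v * ((a + 1 : ℕ) : ℝ)) =
            ((2 * j + 1 : ℕ) : ℝ) * (v / (2 * (2 * (j : ℝ) + 2 - 1))) := by
          intro v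
          have h8 : (r : ℝ) * v * ((a + 1 : ℕ) : ℝ) = (2 * j + 2) * v := by
            rw [← h5]
            push_cast
            ring
          rw [h8, show 2 * (j : ℝ) + 2 - 1 = 2 * j + 1 by ring]
          push_cast
          field_simp
          ring
        exact h7 _
      · have h4 : ∀ a, 2 * j + 1 ≠ r * a + (r - 1) := fun a ha =>
          h3 ⟨a + 1, by rw [Nat.mul_succ]; omega⟩
        rw [coeff_sh_not hr x0 _ _ h4, mm, if_neg h3, mul_zero, smul_zero, smul_zero]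
    · have h1 : ¬ r ∣ 2 * j + 1 := by
        rintro ⟨a, ha⟩
        rw [hpar] at ha
        omega
      have h2 : ∀ a, 2 * j + 1 + 1 ≠ r * a + (r - 1) := fun a => by
        rw [hpar]
        omega
      have h0 : 2 * j + 1 + 1 = 2 * (j + 1) := by ring
      rw [coeff_xe_not hr x0 _ h1, coeff_sh_not hr x0 _ _ h2, smul_zero, mul_zero, mul_zero,
        add_zero, add_zero, pow_succ, pow_mul, neg_one_sq, one_pow, one_mul, h0,
        half (h.R.ev0 (j + 1) (by omega))]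
      by_cases h3 : r ∣ 2 * (j + 1)
      · obtain ⟨a, ha⟩ := h3
        obtain ⟨a, rfl⟩ : ∃ a', a = a' + 1 := ⟨a - 1, by rcases a with _ | a <;> omega⟩
        rw [ha, coeff_xe_mul, coeff_sh hr x0 _ _ a (Nat.mul_succ r a), tg_mul hr,
          h.u_mul hr ⟨m, hm⟩, coeff_C_mul, coeff_gam, sE, coeff_mk, tv, mul_smul_comm,
          mul_smul_comm, mul_comm (x0 - x1)]
        push_cast
        module
      · have h4 : ∀ a, 2 * (j + 1) ≠ r * a + r := fun a ha => h3 ⟨a + 1, by rw [ha, Nat.mul_succ]⟩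
        rw [coeff_xe_not hr x0 _ h3, coeff_sh_not hr x0 _ _ h4, tg, if_neg h3, h.u_not hr h3]
        simp

/-- the top Chern class -/
theorem top (h : Red k r b q p x0 x1 t z u ww ss cW) (hr : 2 ≤ r) (he : Even r) {c : ℕ → ℝ}
    (hc : CS k b p c) (K : ℕ) : cW (r * (K + 1)) = c (K + 1) • x0 ^ (K + 1) +
      coeff K (PowerSeries.mk c * (sB k r b p * sZ k r b p + sE b)) • ((x0 - x1) * x0 ^ K) := by
  have hr0 : r ≠ 0 := by omega
  set F := xe r hr0 x0 (PowerSeries.mk c) with hF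
  set B := X * xe r hr0 x0 (sB k r b p) with hB
  set Z := X ^ (r - 1) * xe r hr0 x0 (sZ k r b p) with hZ
  set E := X ^ r * xe r hr0 x0 (sE b) with hE
  have ht : (C t : PowerSeries A) ^ 2 = 0 := by rw [← map_pow, h.t2, map_zero]
  have hz : (C z : PowerSeries A) ^ 2 = 0 := by rw [← map_pow, h.z2, map_zero]
  have htz : (C (x0 - x1) : PowerSeries A) = C t * C z := by rw [← map_mul, h.tz]
  have h1 : Eu F = xe r hr0 x0 (C (r : ℝ) * gam k b p) * F := by
    rw [hF, Eu_xe, Eu_c hc, ← mul_assoc, map_mul]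
  have h2 : Eu (F * (1 + C t * B) * (1 + C z * Z) * (1 + C (x0 - x1) * E)) =
      ns ww * (F * (1 + C t * B) * (1 + C z * Z) * (1 + C (x0 - x1) * E)) := by
    rw [h.ns_ww hr0 he, Eu_mul, Eu_mul, Eu_mul, Eu_lin, Eu_lin, Eu_lin, h1, ← hB, ← hZ, ← hE, htz]
    linear_combination
      (-(F * B * Eu B * (1 + C z * Z) * (1 + C t * C z * E)) -
        F * (1 + C t * B) * (1 + C z * Z) * C z ^ 2 * E * Eu E) * ht -
      (F * (1 + C t * B) * Z * Eu Z * (1 + C t * C z * E)) * hz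
  have hX : (X : PowerSeries A) ^ r = X * X ^ (r - 1) := by
    rw [← pow_succ', Nat.sub_add_cancel (by omega)]
  have h3 : F * (1 + C t * B) * (1 + C z * Z) * (1 + C (x0 - x1) * E) =
      F + C t * (X ^ 1 * xe r hr0 x0 (PowerSeries.mk c * sB k r b p)) +
        C z * (X ^ (r - 1) * xe r hr0 x0 (PowerSeries.mk c * sZ k r b p)) +
        C (x0 - x1) * (X ^ r * xe r hr0 x0
          (PowerSeries.mk c * (sB k r b p * sZ k r b p + sE b))) := by
    rw [map_mul, map_mul, map_mul, map_add, map_mul, ← hF, htz, hB, hZ, hE, hX]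
    linear_combination
      (F * C z * (X * xe r hr0 x0 (sB k r b p)) * (X * X ^ (r - 1) * xe r hr0 x0 (sE b)) *
        (1 + C z * (X ^ (r - 1) * xe r hr0 x0 (sZ k r b p)))) * ht +
      (F * C t * (X ^ (r - 1) * xe r hr0 x0 (sZ k r b p)) *
        (X * X ^ (r - 1) * xe r hr0 x0 (sE b))) * hz
  have h4 : PowerSeries.mk cW = F * (1 + C t * B) * (1 + C z * Z) * (1 + C (x0 - x1) * E) := by
    refine Eu_unique (Eu_newton h.R.nw) h2 (coeff_zero_ns ww) ?_
    have h5 := coeff_xe_mul hr0 x0 (PowerSeries.mk c) 0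
    rw [mul_zero, coeff_mk, hc.c0, pow_zero, one_smul] at h5
    rw [h3, coeff_mk, h.R.nw.1, map_add, map_add, map_add, coeff_C_mul, coeff_C_mul, coeff_C_mul,
      coeff_sh_not hr0 x0 _ 1 (by omega), coeff_sh_not hr0 x0 _ (r - 1) (by omega),
      coeff_sh_not hr0 x0 _ r (by omega), hF, h5]
    simp
  have h5 := congrArg (coeff (r * (K + 1))) (h4.trans h3)
  obtain ⟨m, hm⟩ := he
  have hpar : ∀ a, r * a = 2 * (m * a) := fun a => by rw [hm]; ring
  rw [coeff_mk, map_add, map_add, map_add, coeff_C_mul, coeff_C_mul, coeff_C_mul, hF,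
    coeff_xe_mul, coeff_mk, coeff_sh_not hr0 x0 _ 1 (fun a => by rw [hpar, hpar]; omega),
    coeff_sh_not hr0 x0 _ (r - 1) (fun a => by rw [hpar, hpar]; omega),
    coeff_sh hr0 x0 _ r K (Nat.mul_succ r K), mul_zero, mul_zero, add_zero, add_zero,
    mul_smul_comm] at h5
  exact h5

end Red

/-! ### passing to a quotient -/

section Map

variable {A' : Type*} [CommRing A'] [Algebra ℝ A'] (f : A →ₐ[ℝ] A')

theorem map_newton {s e : ℕ → A} (h : NewtonRec ℝ s e) :
    NewtonRec ℝ (fun j => f (s j)) (fun j => f (e j)) := by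
  refine ⟨by show f (e 0) = 1; rw [h.1, map_one], fun j => ?_⟩
  have h1 := congrArg f (h.2 j)
  rw [map_smul, map_sum] at h1
  refine h1.trans (Finset.sum_congr rfl fun i _ => ?_)
  rw [map_smul, map_mul]

theorem map_tg (g : ℕ → ℝ) (x : A) (j : ℕ) : f (tg r g x j) = tg r g (f x) j := by
  rw [tg, tg]
  split_ifs
  · rw [map_smul, map_pow]
  · exact map_zero f

theorem map_mm (g : ℕ → ℝ) (x : A) (j : ℕ) : f (mm r g x j) = mm r g (f x) j := by
  rw [mm, mm]
  split_ifs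
  · rw [map_smul, map_pow]
  · exact map_zero f

theorem map_cP (j : ℕ) : f (cP r b q x0 x1 j) = cP r b q (f x0) (f x1) j := by
  rw [cP, cP]
  split_ifs <;> simp

theorem map_rel (R : Rel k r b q p x0 x1 t z u ww ss cW) :
    Rel k r b q p (f x0) (f x1) (f t) (f z) (fun j => f (u j)) (fun j => f (ww j))
      (fun j => f (ss j)) (fun j => f (cW j)) where
  z1 := by
    obtain ⟨w, hw⟩ := R.z1
    exact ⟨f w, by rw [← map_pow, hw, map_mul]⟩
  z2 he := by
    obtain ⟨w, hw⟩ := R.z2 he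
    exact ⟨f w, by rw [← map_pow, hw, map_mul, map_pow]⟩
  hb := R.hb
  np := by
    have h := map_newton f R.np
    rwa [funext (map_cP f)] at h
  wz j := by
    rw [R.wz j, map_sum]
    exact Finset.sum_congr rfl fun i _ => by rw [map_smul, map_mul, map_pow]
  s0 := by rw [R.s0, AlgHom.commutes]
  ev0 j hj := by rw [← map_smul, R.ev0 j hj, map_sub, map_tg]
  ev1 j hj := by rw [← map_smul, R.ev1 j hj, map_sub, map_tg]
  nw := map_newton f R.nw
  top j hj := by rw [R.top j hj, map_zero]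
  g5 := by rw [← map_sub, ← map_mul, ← map_mul, R.g5, map_zero]

end Map

theorem tg_sub (g : ℕ → ℝ) (x0 x1 : A) (n : ℕ) :
    ∃ R, tg r g x0 n - tg r g x1 n = (x0 - x1) * mm r g x0 n + (x0 - x1) ^ 2 * R := by
  rw [tg, tg, mm]
  split_ifs
  · rcases n / r with _ | a
    · exact ⟨0, by simp⟩
    · obtain ⟨R, hR⟩ := taylor x0 (x0 - x1) a
      rw [sub_sub_cancel] at hR
      refine ⟨-(g (a + 1) • R), ?_⟩
      rw [hR, Nat.add_sub_cancel]
      simp only [Algebra.smul_def, map_mul, map_natCast]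
      push_cast
      ring
  · exact ⟨0, by simp⟩

/-- the odd power sums, modulo the annihilator of the test class -/
theorem odd_rel (R : Rel k r b q p x0 x1 t z u ww ss cW) (htz : t * z = x0 - x1) {T' : A}
    (ht : t * T' * t ^ 2 = 0) (hz : t * T' * z ^ 2 = 0) (j : ℕ) :
    t * T' * ((2 * (j : ℝ) + 2) • ss (2 * j + 1) + (((j : ℝ) + 1) * (2 * j + 1)) •
      (t * ss (2 * j)) - (1 / 2 : ℝ) • (z * mm r (tv k r b p) x0 (2 * j + 2))) = 0 := by
  have h1 := R.wz (2 * j + 2)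
  rw [Finset.sum_range_succ', Finset.sum_range_succ', Finset.sum_range_succ'] at h1
  have h2 : ∑ i ∈ range (2 * j), (((2 * j + 2).choose (i + 1 + 1 + 1) : ℕ) : ℝ) •
      (t ^ (i + 1 + 1 + 1) * ss (2 * j + 2 - (i + 1 + 1 + 1))) = t ^ 3 * ∑ i ∈ range (2 * j),
      (((2 * j + 2).choose (i + 1 + 1 + 1) : ℕ) : ℝ) •
        (t ^ i * ss (2 * j + 2 - (i + 1 + 1 + 1))) := by
    rw [Finset.mul_sum]
    refine Finset.sum_congr rfl fun i _ => ?_
    rw [mul_smul_comm]
    congr 1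
    ring
  have h3 : (((2 * j + 2).choose (0 + 1 + 1) : ℕ) : ℝ) = ((j : ℝ) + 1) * (2 * j + 1) := by
    rw [zero_add, Nat.cast_choose_two]
    push_cast
    ring
  have h4 : (((2 * j + 2).choose (0 + 1) : ℕ) : ℝ) = 2 * (j : ℝ) + 2 := by
    rw [zero_add, Nat.choose_one_right]
    push_cast
    ring
  rw [h2, h3, h4, Nat.choose_zero_right, Nat.cast_one, one_smul, pow_zero, one_mul, Nat.sub_zero,
    show 2 * j + 2 - (0 + 1 + 1) = 2 * j by omega, show 2 * j + 2 - (0 + 1) = 2 * j + 1 by omega]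
    at h1
  have h5 := Red.half (R.ev0 (j + 1) (by omega))
  have h6 := Red.half (R.ev1 (j + 1) (by omega))
  obtain ⟨S, hS⟩ := tg_sub (r := r) (tv k r b p) x0 x1 (2 * j + 2)
  rw [show 2 * (j + 1) = 2 * j + 2 by ring] at h5 h6
  rw [← htz] at hS
  generalize ∑ i ∈ range (2 * j), (((2 * j + 2).choose (i + 1 + 1 + 1) : ℕ) : ℝ) •
    (t ^ i * ss (2 * j + 2 - (i + 1 + 1 + 1))) = S' at h1
  simp only [Algebra.smul_def] at h1 h5 h6 ⊢
  linear_combination (-T') * h1 + T' * h5 - T' * h6 + T' * algebraMap ℝ A (1 / 2) * hS -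
    S' * ht + algebraMap ℝ A (1 / 2) * S * t * hz

/-- the top Chern class, modulo the annihilator of the test class -/
theorem top_rel (hr : 2 ≤ r) (he : Even r) {c : ℕ → ℝ} (hc : CS k b p c)
    (R : Rel k r b q p x0 x1 t z u ww ss cW) (htz : t * z = x0 - x1) {T' : A}
    (ht : t * T' * t ^ 2 = 0) (hz : t * T' * z ^ 2 = 0) (K : ℕ) :
    t * T' * cW (r * (K + 1)) = c (K + 1) • (t * T' * x0 ^ (K + 1)) +
      coeff K (PowerSeries.mk c * (sB k r b p * sZ k r b p + sE b)) •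
        (t * T' * ((x0 - x1) * x0 ^ K)) := by
  let I : Ideal A := LinearMap.ker (LinearMap.mulLeft A (t * T'))
  let f : A →ₐ[ℝ] A ⧸ I := Ideal.Quotient.mkₐ ℝ I
  have hf : ∀ y, f y = 0 ↔ t * T' * y = 0 := fun y => Ideal.Quotient.eq_zero_iff_mem
  have hR : Red k r b q p (f x0) (f x1) (f t) (f z) (fun j => f (u j)) (fun j => f (ww j))
      (fun j => f (ss j)) (fun j => f (cW j)) := by
    refine ⟨map_rel f R, by rw [← map_mul, htz, map_sub], by rw [← map_pow]; exact (hf _).2 ht,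
      by rw [← map_pow]; exact (hf _).2 hz, fun j => ?_⟩
    have h1 := (hf _).2 (odd_rel R htz ht hz j)
    rwa [map_sub, map_add, map_smul, map_smul, map_smul, map_mul, map_mul, map_mm,
      sub_eq_zero] at h1
  have h1 := hR.top hr he hc K
  have h2 : f (cW (r * (K + 1)) - (c (K + 1) • x0 ^ (K + 1) +
      coeff K (PowerSeries.mk c * (sB k r b p * sZ k r b p + sE b)) •
        ((x0 - x1) * x0 ^ K))) = 0 := by
    rw [map_sub, map_add, map_smul, map_smul, map_pow, map_mul f, map_sub, map_pow, sub_eq_zero]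
    exact h1
  have h3 := (hf _).1 h2
  rwa [mul_sub, mul_add (t * T'), mul_smul_comm, mul_smul_comm, sub_eq_zero] at h3

/-! ### the test class -/

/-- `6 ∑ C(i + 3, 3) x ^ i y ^ (n - 1 - i)` -/
def GG (x y : A) : ℕ → A
  | 0 => 0
  | (n + 1) => y * GG x y n + ((n : A) + 1) * (n + 2) * (n + 3) * x ^ n

omit [Algebra ℝ A] in
theorem cube_GG (x y : A) (n : ℕ) : (x - y) ^ 3 * GG x y n =
    ((n : A) + 1) * (n + 2) * (n + 3) * (x - y) ^ 2 * x ^ n -
      3 * ((n : A) + 2) * (n + 3) * (x - y) * x ^ (n + 1) + 6 * ((n : A) + 3) * x ^ (n + 2) -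
      6 * S2X.hs x y (n + 2) := by
  induction n with
  | zero =>
    have h0 : S2X.hs x y 0 = 1 := by simp [S2X.hs]
    rw [GG, S2X.hs_succ, S2X.hs_succ, h0]
    push_cast
    ring
  | succ n ih =>
    rw [GG, S2X.hs_succ x y (n + 2)]
    push_cast
    linear_combination y * ih

omit [Algebra ℝ A] in
theorem GG_two (x y : A) (n : ℕ) :
    ∃ R, GG x y (n + 2) = 6 * y ^ (n + 1) + 24 * x * y ^ n + x ^ 2 * R := by
  induction n with
  | zero =>
    refine ⟨0, ?_⟩
    simp only [GG]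
    push_cast
    ring
  | succ n ih =>
    obtain ⟨R, hR⟩ := ih
    refine ⟨y * R + (((n + 2 : ℕ) : A) + 1) * ((n + 2 : ℕ) + 2) * ((n + 2 : ℕ) + 3) * x ^ n, ?_⟩
    rw [show n + 1 + 2 = (n + 2) + 1 by ring, GG, hR]
    ring

omit [Algebra ℝ A] in
theorem GG_one (x y : A) (n : ℕ) : ∃ R, GG x y (n + 1) = 6 * y ^ n + x * R := by
  cases n with
  | zero =>
    refine ⟨0, ?_⟩
    simp only [GG]
    push_cast
    ring
  | succ n =>
    obtain ⟨R, hR⟩ := GG_two x y n
    exact ⟨24 * y ^ n + x * R, by rw [hR]; ring⟩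

/-- the cofactor of the test class -/
def gg (x y : A) (m : ℕ) : A := ((m : A) + 1) * GG x y (m + 1) - ((m : A) + 4) * x * GG x y m

omit [Algebra ℝ A] in
theorem cube_gg {x y : A} {m : ℕ} (h0 : x ^ (m + 2 + 1) = 0) (h1 : S2X.hs x y (m + 2) = 0) :
    x * (x - y) ^ 3 * gg x y m = 0 := by
  have h2 := cube_GG x y m
  have h3 := cube_GG x y (m + 1)
  rw [S2X.hs_succ x y (m + 2), h1] at h3
  rw [h1] at h2
  push_cast at h3
  rw [gg]
  linear_combination ((m : A) + 1) * x * h3 - ((m : A) + 4) * x ^ 2 * h2 +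
    (((m : A) + 1) * (-(3 * ((m : A) + 3) * (m + 4) * (x - y)) + 6 * ((m : A) + 4) * x - 6 * x) +
      ((m : A) + 4) * (3 * ((m : A) + 2) * (m + 3) * (x - y) - 6 * ((m : A) + 3) * x)) * h0

omit [Algebra ℝ A] in
theorem val0 {x y : A} {m : ℕ} (h0 : x ^ (m + 2 + 1) = 0) :
    (x - y) * x * gg x y m * x ^ (m + 1) = -(6 * ((m : A) + 1)) * (x ^ (m + 2) * y ^ (m + 1)) := by
  obtain ⟨R, hR⟩ := GG_one x y m
  rw [gg, hR]
  linear_combination (((m : A) + 1) * (6 * y ^ m + (x - y) * R) -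
    ((m : A) + 4) * (x - y) * GG x y m) * h0

omit [Algebra ℝ A] in
theorem val1 {x y : A} {m : ℕ} (h0 : x ^ (m + 2 + 1) = 0) :
    (x - y) * x * gg x y m * ((x - y) * x ^ m) =
      (6 * (m : A) - 12) * (x ^ (m + 2) * y ^ (m + 1)) +
        6 * ((m : A) + 1) * (x ^ (m + 1) * y ^ (m + 2)) := by
  cases m with
  | zero =>
    simp only [gg, GG]
    push_cast at h0 ⊢
    linear_combination 6 * h0
  | succ m =>
    obtain ⟨R, hR⟩ := GG_one x y m
    obtain ⟨S, hS⟩ := GG_two x y m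
    rw [gg, hR, hS]
    push_cast
    linear_combination (((m : A) + 2) * (6 * y ^ (m + 1) + 24 * (x - 2 * y) * y ^ m +
      (x - y) ^ 2 * S) - ((m : A) + 5) * (6 * (x - 2 * y) * y ^ m + (x - y) ^ 2 * R)) * h0

/-! ### the real identity -/

theorem coeff_lam (hr : 2 ≤ r) {c : ℕ → ℝ} {m : ℕ} (hc : CS (m + 2) b p c) :
    coeff m (PowerSeries.mk c * (sB (m + 2) r b p * sZ (m + 2) r b p + sE b)) =
      1 / 4 * ∑ a ∈ range (m + 1), uu (m + 2) b p (a + 1) * c (m - a) / ((r : ℝ) * (a + 1) - 1) -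
        1 / 2 * (((m : ℝ) + 1) * c (m + 1)) := by
  have h1 : PowerSeries.mk c * sB (m + 2) r b p =
      PowerSeries.mk fun j => 1 / 2 * ((r : ℝ) * ((m + 1 : ℝ) - j)) * c j := by
    have h2 : PowerSeries.mk c * sB (m + 2) r b p = C (1 / 2 : ℝ) *
        (C ((r * (m + 2 - 1) : ℕ) : ℝ) * PowerSeries.mk c - C (r : ℝ) * Eu (PowerSeries.mk c)) := by
      rw [Eu_c hc, sB]
      ring
    ext j
    rw [h2, coeff_C_mul, map_sub, coeff_C_mul, coeff_C_mul, coeff_Eu, coeff_mk, coeff_mk,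
      smul_eq_mul, show m + 2 - 1 = m + 1 by omega]
    push_cast
    ring
  rw [mul_add, ← mul_assoc, h1, map_add, mul_comm _ (sZ _ _ _ _), mul_comm _ (sE _), coeff_mul,
    coeff_mul, Finset.Nat.sum_antidiagonal_eq_sum_range_succ_mk,
    Finset.Nat.sum_antidiagonal_eq_sum_range_succ_mk, hc.cs m, Finset.mul_sum, Finset.mul_sum,
    ← Finset.sum_add_distrib, ← Finset.sum_sub_distrib]
  refine Finset.sum_congr rfl fun a ha => ?_
  have ha' : a ≤ m := Nat.lt_succ_iff.1 (Finset.mem_range.1 ha)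
  have h3 : (r : ℝ) * (a + 1) - 1 ≠ 0 := by
    have h4 : (2 : ℝ) ≤ r := by exact_mod_cast hr
    have h5 : (0 : ℝ) ≤ a := Nat.cast_nonneg a
    nlinarith
  rw [sZ, sE, coeff_mk, coeff_mk, coeff_mk, coeff_mk, Nat.cast_sub ha', uu]
  push_cast
  field_simp
  ring

end TZ

variable {H : Type*} [CommRing H] [Algebra ℝ H]

open TZ in
/-- D7Z -/
theorem topZ {k r : ℕ} (hk : 2 ≤ k) (hr : 3 ≤ r) (he : Even r) {κ b q : ℝ} {p c : ℕ → ℝ}
    (_hp : PS b q p) (hc : CS k b p c) {x0 x1 t z : H} {Φ : H →ₗ[ℝ] ℝ}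
    (B : Base k κ x0 x1 t z Φ) {u ww ss cW : ℕ → H} (R : Rel k r b q p x0 x1 t z u ww ss cW) :
    3 / 2 * ∑ a ∈ Finset.range (k - 1),
      (((k : ℝ) + 1) * p (a + 1) - (2 * b) ^ (a + 1)) * c (k - 1 - (a + 1)) /
        ((r : ℝ) * (a + 1) - 1) = ((k : ℝ) - 1) * c (k - 1) := by
  obtain ⟨m, rfl⟩ : ∃ m, k = m + 2 := ⟨k - 2, by omega⟩
  obtain ⟨w, hw⟩ := R.z2 he
  have h0 := cube_gg B.n0 B.hk
  have hT : t * (z ^ 3 * x0 * gg x0 x1 m) = z ^ 2 * ((x0 - x1) * x0 * gg x0 x1 m) := by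
    rw [← B.tz]
    ring
  have ht : t * (z ^ 3 * x0 * gg x0 x1 m) * t ^ 2 = 0 := by
    rw [← B.tz] at h0
    linear_combination h0
  have hz : t * (z ^ 3 * x0 * gg x0 x1 m) * z ^ 2 = 0 := by
    rw [hw, ← mul_assoc, ht, zero_mul]
  have h1 := top_rel (by omega) he hc R B.tz ht hz m
  have h2 : t * (z ^ 3 * x0 * gg x0 x1 m) * cW (r * (m + 1)) = 0 := by
    have h3 : x0 * (x0 - x1) * cW (r * (m + 1)) = 0 := R.g5
    rw [hT]
    linear_combination z ^ 2 * gg x0 x1 m * h3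
  have v1 : Φ (x0 ^ (m + 2) * x1 ^ (m + 1) * z ^ 2) = κ := by
    rw [B.val, lam, if_pos ⟨rfl, rfl⟩, if_neg (by omega), sub_zero, mul_one]
  have v2 : Φ (x0 ^ (m + 1) * x1 ^ (m + 2) * z ^ 2) = -κ := by
    rw [B.val, lam, if_neg (by omega), if_pos ⟨rfl, rfl⟩, zero_sub, mul_neg, mul_one]
  have e1 : t * (z ^ 3 * x0 * gg x0 x1 m) * x0 ^ (m + 1) =
      (-(6 * ((m : ℝ) + 1))) • (x0 ^ (m + 2) * x1 ^ (m + 1) * z ^ 2) := by
    rw [hT, mul_assoc, val0 B.n0, Algebra.smul_def, map_neg, map_mul, map_add, map_natCast,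
      map_one, map_ofNat]
    ring
  have e2 : t * (z ^ 3 * x0 * gg x0 x1 m) * ((x0 - x1) * x0 ^ m) =
      (6 * (m : ℝ) - 12) • (x0 ^ (m + 2) * x1 ^ (m + 1) * z ^ 2) +
        (6 * ((m : ℝ) + 1)) • (x0 ^ (m + 1) * x1 ^ (m + 2) * z ^ 2) := by
    rw [hT, mul_assoc, val1 B.n0, Algebra.smul_def, Algebra.smul_def, map_sub, map_mul, map_mul,
      map_add, map_natCast, map_one, map_ofNat, map_ofNat]
    ring
  rw [h2, e1, e2, coeff_lam (by omega) hc] at h1
  have h3 := congrArg Φ h1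
  simp only [map_zero, map_add, map_smul, v1, v2, smul_eq_mul] at h3
  have h4 : ∑ a ∈ Finset.range (m + 2 - 1),
      ((((m + 2 : ℕ) : ℝ) + 1) * p (a + 1) - (2 * b) ^ (a + 1)) * c (m + 2 - 1 - (a + 1)) /
        ((r : ℝ) * (a + 1) - 1) =
      ∑ a ∈ range (m + 1), uu (m + 2) b p (a + 1) * c (m - a) / ((r : ℝ) * (a + 1) - 1) :=
    Finset.sum_congr rfl fun a _ => by
      rw [uu, show m + 2 - 1 - (a + 1) = m - a by omega]
  rw [h4, show m + 2 - 1 = m + 1 by omega]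
  push_cast
  apply mul_left_cancel₀ B.ne
  linear_combination (1 / 3) * h3

end

end Vale.Agent.P231Z.D
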