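import Vale.Agent.P231.Fm.Ext

/-!
# P231 (D): the square of the average of a rotating product of one-forms
-/

set_option linter.unusedSectionVars false
set_option linter.unusedVariables false

open Set Module Filter Topology

namespace Vale.Agent.P231Z.D.ValF

open Vale.Agent.P231 Vale.Agent.P231.Fm

noncomputable section

section Ring

variable {A : Type*} [Ring A] [Algebra ℝ A]

theorem prod_smul {n : ℕ} (c : ℝ) (z : Fin n → A) :
    (List.ofFn fun i => c • z i).prod = c ^ n • (List.ofFn z).prod := by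
  induction n with
  | zero => simp
  | succ n ih =>
    rw [List.ofFn_succ, List.ofFn_succ, List.prod_cons, List.prod_cons, ih, smul_mul_smul_comm,
      pow_succ']

theorem add_pow_sq {z s : A} (hc : Commute z s) (hz : z * z = 0) (k : ℕ) :
    (z + s) ^ (k + 1) = s ^ (k + 1) + ((k : ℝ) + 1) • (z * s ^ k) := by
  induction k with
  | zero => simp [add_comm]
  | succ k ih =>
    have h1 : z * s ^ k * z = 0 := by
      rw [mul_assoc, ← (hc.pow_right k).eq, ← mul_assoc, hz, zero_mul]
    rw [pow_succ, ih, add_mul, mul_add, mul_add, smul_mul_assoc, smul_mul_assoc, h1, smul_zero,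
      zero_add, ← (hc.pow_right (k + 1)).eq, mul_assoc z, ← pow_succ, ← pow_succ]
    push_cast
    module

theorem sum_pow {n : ℕ} (z : Fin n → A) (hc : ∀ i j, Commute (z i) (z j))
    (hz : ∀ i, z i * z i = 0) :
    (∑ i, z i) ^ n = (n.factorial : ℝ) • (List.ofFn z).prod ∧ (∑ i, z i) ^ (n + 1) = 0 := by
  induction n with
  | zero => simp
  | succ n ih =>
    obtain ⟨h1, h2⟩ := ih (fun i => z i.succ) (fun i j => hc _ _) fun i => hz _
    have h3 : Commute (z 0) (∑ i : Fin n, z i.succ) := Commute.sum_right _ _ _ fun i _ => hc _ _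
    rw [Fin.sum_univ_succ, add_pow_sq h3 (hz 0), add_pow_sq h3 (hz 0), pow_succ _ (n + 1), h2, h1,
      List.ofFn_succ, List.prod_cons]
    refine ⟨?_, by simp⟩
    rw [zero_add, mul_smul_comm, smul_smul, Nat.factorial_succ]
    push_cast
    rfl

end Ring

variable {X : Type*} [NormedAddCommGroup X] [NormedSpace ℝ X] [FiniteDimensional ℝ X]

/-- the product of a family of one-forms -/
def pd {n : ℕ} (a : Fin n → (X →L[ℝ] ℝ)) : Lam X := (List.ofFn fun i => dx (a i)).prod

theorem pd_zero (a : Fin 0 → (X →L[ℝ] ℝ)) : pd a = 1 := by simp [pd]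

theorem pd_succ {n : ℕ} (a : Fin (n + 1) → (X →L[ℝ] ℝ)) :
    pd a = dx (a 0) * pd fun i => a i.succ := by
  rw [pd, List.ofFn_succ, List.prod_cons]
  rfl

theorem pd_mul_dx {n : ℕ} (a : Fin n → (X →L[ℝ] ℝ)) (y : X →L[ℝ] ℝ) :
    pd a * dx y = (-1 : ℝ) ^ n • (dx y * pd a) := by
  induction n with
  | zero => rw [pd_zero, one_mul, mul_one, pow_zero, one_smul]
  | succ n ih =>
    rw [pd_succ, mul_assoc, ih, mul_smul_comm, ← mul_assoc, dx_anticomm, ← mul_assoc, pow_succ,
      neg_mul, smul_neg, mul_neg_one, neg_smul]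

theorem pd_mul_pd {n : ℕ} (a b : Fin n → (X →L[ℝ] ℝ)) :
    pd a * pd b = (-1 : ℝ) ^ (n.choose 2) • (List.ofFn fun i => dx (a i) * dx (b i)).prod := by
  induction n with
  | zero => simp [pd_zero]
  | succ n ih =>
    have h1 : (n + 1).choose 2 = n + n.choose 2 := by
      rw [Nat.choose_succ_succ' n 1, Nat.choose_one_right]
    rw [pd_succ, pd_succ b, List.ofFn_succ, List.prod_cons, mul_assoc, ← mul_assoc (pd _),
      pd_mul_dx, smul_mul_assoc, mul_assoc, ih, mul_smul_comm, mul_smul_comm, mul_smul_comm,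
      smul_smul, h1, pow_add, mul_assoc]

theorem dx_rot (a b : X →L[ℝ] ℝ) (s t : ℝ) :
    dx (Real.cos s • a + Real.sin s • b) * dx (Real.cos t • a + Real.sin t • b) =
      Real.sin (t - s) • (dx a * dx b) := by
  rw [map_add, map_add, map_smul, map_smul, map_smul, map_smul, add_mul, mul_add, mul_add,
    smul_mul_smul_comm, smul_mul_smul_comm, smul_mul_smul_comm, smul_mul_smul_comm,
    dx_mul_self, dx_mul_self, dx_anticomm b a, Real.sin_sub]
  module

theorem dx2_comm (a b c d : X →L[ℝ] ℝ) : Commute (dx a * dx b) (dx c * dx d) := by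
  have h : ∀ y : X →L[ℝ] ℝ, Commute (dx a * dx b) (dx y) := fun y => by
    change dx a * dx b * dx y = dx y * (dx a * dx b)
    rw [mul_assoc, dx_anticomm b y, mul_neg, ← mul_assoc, dx_anticomm a y, neg_mul, neg_neg,
      mul_assoc]
  exact (h c).mul_right (h d)

theorem dx2_sq (a b : X →L[ℝ] ℝ) : dx a * dx b * (dx a * dx b) = 0 := by
  rw [mul_assoc, ← mul_assoc (dx b), dx_anticomm b a, neg_mul, mul_neg, mul_assoc, dx_mul_self,
    mul_zero, mul_zero, neg_zero]

theorem cont_pd {n : ℕ} (a b : Fin n → (X →L[ℝ] ℝ)) :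
    Continuous fun t : ℝ => pd fun i => Real.cos t • a i + Real.sin t • b i := by
  induction n with
  | zero =>
    simp only [pd_zero]
    exact continuous_const
  | succ n ih =>
    simp only [pd_succ]
    refine Continuous.mul ?_ (ih (fun i => a i.succ) fun i => b i.succ)
    fun_prop

/-- the integral of an even power of the sine over a period -/
def cs (m : ℕ) : ℝ := ∫ t in (0 : ℝ)..(2 * Real.pi), Real.sin t ^ (2 * m)

theorem cs_pos (m : ℕ) : 0 < cs m := by
  have hc : Continuous fun t : ℝ => Real.sin t ^ (2 * m) := by fun_prop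
  have h1 := intervalIntegral.integral_add_adjacent_intervals (μ := MeasureTheory.volume)
    (hc.intervalIntegrable 0 Real.pi) (hc.intervalIntegrable Real.pi (2 * Real.pi))
  have h2 : 0 ≤ ∫ t in Real.pi..(2 * Real.pi), Real.sin t ^ (2 * m) :=
    intervalIntegral.integral_nonneg (by linarith [Real.pi_pos])
      fun t _ => (even_two_mul m).pow_nonneg _
  have h3 := integral_sin_pow_pos (2 * m)
  rw [cs, ← h1]
  linarith

theorem int_shift (m : ℕ) (s : ℝ) :
    ∫ t in (0 : ℝ)..(2 * Real.pi), Real.sin (t - s) ^ (2 * m) = cs m := by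
  have hp : Function.Periodic (fun t : ℝ => Real.sin t ^ (2 * m)) (2 * Real.pi) := fun t => by
    simp only [Real.sin_add_two_pi]
  have h1 := hp.intervalIntegral_add_eq (0 - s) 0
  rw [intervalIntegral.integral_comp_sub_right (fun t : ℝ => Real.sin t ^ (2 * m)) s, cs]
  rw [zero_add] at h1
  rw [← h1]
  congr 1
  ring

/-- the constant -/
def cc (m : ℕ) : ℝ := (-1) ^ ((2 * m).choose 2) * (2 * Real.pi * cs m) / (2 * m).factorial

theorem cc_sign (m : ℕ) : 0 < (-1) ^ m * cc m := by
  have h1 : (2 * m).choose 2 = m * (2 * m - 1) := by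
    rw [Nat.choose_two_right, mul_assoc, Nat.mul_div_cancel_left _ (by norm_num)]
  have h2 : (-1 : ℝ) ^ m * (-1) ^ ((2 * m).choose 2) = 1 := by
    rw [← pow_add, h1]
    refine Even.neg_one_pow ?_
    rcases Nat.eq_zero_or_pos m with rfl | hm
    · simp
    · have h3 : m + m * (2 * m - 1) = 2 * (m * m) := by
        obtain ⟨k, rfl⟩ : ∃ k, m = k + 1 := ⟨m - 1, by omega⟩
        have h4 : 2 * (k + 1) - 1 = 2 * k + 1 := by omega
        rw [h4]
        ring
      rw [h3]
      exact even_two_mul _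
  rw [cc, ← mul_div_assoc, ← mul_assoc, h2, one_mul]
  have := cs_pos m
  positivity

/-- **the square of the average of the rotating product** -/
theorem sq_int {m : ℕ} (a b : Fin (2 * m) → (X →L[ℝ] ℝ)) :
    (∫ t in (0 : ℝ)..(2 * Real.pi), pd fun i => Real.cos t • a i + Real.sin t • b i) ^ 2 =
      cc m • (∑ i, dx (b i) * dx (a i)) ^ (2 * m) := by
  set f : ℝ → Lam X := fun t => pd fun i => Real.cos t • a i + Real.sin t • b i with hf
  have hc : Continuous f := cont_pd a b
  set Z : Lam X := (List.ofFn fun i => dx (a i) * dx (b i)).prod with hZ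
  have h1 : ∀ s t, f s * f t = Real.sin (t - s) ^ (2 * m) • ((-1 : ℝ) ^ ((2 * m).choose 2) • Z) := by
    intro s t
    simp only [hf]
    rw [pd_mul_pd, smul_comm, hZ, ← prod_smul]
    simp only [dx_rot]
  have h2 : ∀ s, f s * ∫ t in (0 : ℝ)..(2 * Real.pi), f t =
      cs m • ((-1 : ℝ) ^ ((2 * m).choose 2) • Z) := by
    intro s
    have h3 := (ContinuousLinearMap.mul ℝ (Lam X) (f s)).intervalIntegral_comp_comm
      (μ := MeasureTheory.volume) (hc.intervalIntegrable 0 (2 * Real.pi))
    simp only [ContinuousLinearMap.mul_apply'] at h3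
    rw [← h3]
    simp only [h1]
    rw [intervalIntegral.integral_smul_const, int_shift]
  have h4 := ((ContinuousLinearMap.mul ℝ (Lam X)).flip
    (∫ t in (0 : ℝ)..(2 * Real.pi), f t)).intervalIntegral_comp_comm
      (μ := MeasureTheory.volume) (hc.intervalIntegrable 0 (2 * Real.pi))
  simp only [ContinuousLinearMap.flip_apply, ContinuousLinearMap.mul_apply', h2] at h4
  have h5 : ∑ i, dx (b i) * dx (a i) = -∑ i, dx (a i) * dx (b i) := by
    rw [← Finset.sum_neg_distrib]
    exact Finset.sum_congr rfl fun i _ => dx_anticomm _ _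
  have h6 := (sum_pow (fun i => dx (a i) * dx (b i)) (fun i j => dx2_comm _ _ _ _)
    fun i => dx2_sq _ _).1
  have h7 : ((2 * m).factorial : ℝ) ≠ 0 := by positivity
  rw [sq, ← h4, intervalIntegral.integral_const, h5, Even.neg_pow (even_two_mul m), h6, ← hZ,
    smul_smul, smul_smul, smul_smul, cc, div_mul_cancel₀ _ h7, sub_zero, mul_comm]

end

end Vale.Agent.P231Z.D.ValF
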