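import Vale.Agent.P231Z.D.Defs

/-!
# P231 (D): the square of `z` in the ring of basic classes
-/

set_option maxSynthPendingDepth 3
set_option linter.unusedSectionVars false
set_option linter.unusedVariables false

open Bundle Manifold Set Filter Module MeasureTheory
open scoped ContDiff Manifold Topology ENNReal Real

namespace Vale.Agent.P231Z.D

noncomputable section

open Vale.Agent.P234 Vale.Agent.P231 Vale.Agent.P231.Fm Vale.Agent.P231.W Vale.Agent.P231.WR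
  Vale.Agent.P231.H766 Vale.Agent.P231.WG Vale.Agent.P231.S2II Vale.Agent.P231.WQ
open Vale.Agent.P231.X3 Vale.Agent.P231.ChW

namespace ValC

theorem map_rel {A B : Type*} [Semiring A] [Semiring B] [Algebra ℝ A] [Algebra ℝ B]
    (f : A →ₐ[ℝ] B) (x y z : A) (i j : ℕ) (c₁ c₂ c₃ : ℝ) :
    f (y ^ i * (c₁ • x + c₂ • (y * z)) + c₃ • y ^ j) =
      f y ^ i * (c₁ • f x + c₂ • (f y * f z)) + c₃ • f y ^ j := by
  rw [map_add, map_mul, map_pow, map_add, map_smul, map_smul, map_smul, map_mul, map_pow]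

theorem cls {X : Type*} {D : Dif X} {T : ℝ} {Φ : X × ℝ → X} {h : IsFlow D T Φ}
    {ν F1 F2 B : Form D} (g : S2X.Geo h 1 ν F1 F2 B) {i j : ℕ} {c₁ c₂ c₃ : ℝ} {η : Form D}
    (hη : Basic Φ h.map η) (h0 : J Φ h.map T B ^ 2 = (T⁻¹ • ν.d) ^ i *
      (c₁ • F2 + c₂ • ((T⁻¹ • ν.d) * J Φ h.map T B)) + c₃ • (T⁻¹ • ν.d) ^ j + η.d) :
    g.z ^ 2 = g.y ^ i * (c₁ • g.x2 + c₂ • (g.y * g.z)) + c₃ • g.y ^ j := by
  have h2 : qm Φ h.map (g.bz ^ 2) = qm Φ h.map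
      (g.by_ ^ i * (c₁ • g.bx2 + c₂ • (g.by_ * g.bz)) + c₃ • g.by_ ^ j) := by
    refine H584.eq_quot Φ h.map hη ?_
    change ((1 : ℝ)⁻¹ • J Φ h.map T B) ^ 2 = (T⁻¹ • ν.d) ^ i *
      (c₁ • ((1 : ℝ)⁻¹ • F2) + c₂ • ((T⁻¹ • ν.d) * ((1 : ℝ)⁻¹ • J Φ h.map T B))) +
        c₃ • (T⁻¹ • ν.d) ^ j + η.d
    rw [inv_one, one_smul, one_smul]
    exact h0
  rw [map_pow, map_rel] at h2
  exact h2

theorem alg {H : Type*} [CommRing H] [Algebra ℝ H] {z t x y : H} {i j : ℕ} {c₁ c₂ c₃ : ℝ}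
    (h : z ^ 2 = (-t) ^ i * (c₁ • x + c₂ • (y - x)) + c₃ • (-t) ^ (2 * j)) :
    z ^ 2 = c₃ • t ^ (2 * j) +
      (((-1) ^ i * (c₁ - c₂)) • x + ((-1) ^ i * c₂) • y) * t ^ i := by
  have h3 : (-t) ^ i = ((-1 : ℝ) ^ i) • t ^ i := by rw [← smul_pow, neg_one_smul]
  rw [h, Even.neg_pow (even_two_mul j), h3, smul_mul_assoc, mul_comm (t ^ i), ← smul_mul_assoc,
    add_comm]
  congr 2
  module

end ValC

variable {E : Type*} [NormedAddCommGroup E] [NormedSpace ℝ E]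
  {M : Type*} [MetricSpace M] [ChartedSpace E M]
  [RiemannianBundle (fun x : M => TangentSpace 𝓘(ℝ, E) x)]
  {e : ∀ x : M, TangentSpace 𝓘(ℝ, E) x → M}
  [FiniteDimensional ℝ E] [IsManifold 𝓘(ℝ, E) ∞ M]
  [IsContMDiffRiemannianBundle 𝓘(ℝ, E) ∞ E (fun x : M => TangentSpace 𝓘(ℝ, E) x)]
  [CompactSpace M] [ConnectedSpace M] [IsRiemannianManifold 𝓘(ℝ, E) M]
  {D : ℝ} {m k K : ℕ}

variable (G : X3.Geo e D (2 * m + 1)) (P : PF E M K) {p : M}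
  {Pi : TangentSpace 𝓘(ℝ, E) p → TangentSpace 𝓘(ℝ, E) p →L[ℝ] TangentSpace 𝓘(ℝ, E) p}
  {o : TangentSpace 𝓘(ℝ, E) p → Fm.Lam (TangentSpace 𝓘(ℝ, E) p)}
  {ρ : TangentSpace 𝓘(ℝ, E) p → ℝ} {r₀ : ℝ}
  (hJ : FE.LineP e D p m Pi o) (hρ : WE.Rho e D p ρ r₀)

namespace ValC

theorem not_dvd {a j : ℕ} (h0 : 0 < j) (h1 : j < a) : ¬ a ∣ j :=
  fun h => absurd (Nat.le_of_dvd h0 h) (by omega)

theorem not_dvd' {a j : ℕ} (h0 : a < j) (h1 : j < 2 * a) : ¬ a ∣ j := by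
  intro h
  have h2 : a ∣ j - a := Nat.dvd_sub h (dvd_refl a)
  exact not_dvd (by omega) (by omega) h2

/-- the square of `b₀`, with a basic primitive -/
theorem quad_form (hm : 1 ≤ m) (hk : 2 ≤ k) (hE : finrank ℝ E = (2 * m + 2) * k) :
    ∃ (c₁ c₂ c₃ : ℝ) (η : Form (dPr e D)), Basic G.R G.map_R η ∧
      b0 G hJ hρ ^ 2 = ((2 * π)⁻¹ • (X3.nu e D P).d) ^ (m - 1) *
        (c₁ • F0 G hJ hρ + c₂ • (((2 * π)⁻¹ • (X3.nu e D P).d) * b0 G hJ hρ)) +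
        c₃ • ((2 * π)⁻¹ • (X3.nu e D P).d) ^ (2 * m) + η.d := by
  borelize M
  obtain ⟨s, rfl⟩ : ∃ s, m = s + 1 := ⟨m - 1, by omega⟩
  obtain ⟨n, rfl⟩ : ∃ n, k = n + 1 := ⟨k - 1, by omega⟩
  have hlow : (2 * (s + 1) + 2) * 2 ≤ (2 * (s + 1) + 2) * (n + 1) := Nat.mul_le_mul_left _ hk
  obtain ⟨N, hN⟩ : ∃ N, finrank ℝ E = N + 1 := ⟨finrank ℝ E - 1, by omega⟩
  have hE' : N + 1 = (2 * (s + 1) + 2) * (n + 1) := hN.symm.trans hE
  have hn0 : finrank ℝ E - 1 = N := by omega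
  have hG := CoC.gen_UT (CoZ.gen_FF G.F G.hD G.hB G.hdiam (S2T.Geo.hl G) hJ hρ one_ne_zero
    (show 2 ≤ finrank ℝ E by omega))
  rw [hn0] at hG
  have hA := L3.inst_ang G.F G.hD G.hB G.hdiam (S2T.Geo.hl G) hN hE' hJ hρ one_ne_zero
  have g := geo G P hJ hρ
  have g2 : Form.IsDeg (2 * (s + 2)) (F0 G hJ hρ) :=
    ((Om_deg G hJ hρ).pull _ map_foot).pull _ map_v
  refine A3.quad G.isFlow_R g.hT g.ν1 g.νo (s := s) (H584.J_basic G.isFlow_R _) g.Jc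
    (b0_deg G hJ hρ) g.b2 g.d2 g2 ?_ (fun i hi => ?_) ?_ ?_ (fun i hi => ?_)
  · exact CoC.hs_zero hG _ _ (by omega) hA (by omega)
  · exact CoC.hs_exact hG _ _ (by omega) hA (by omega) (not_dvd (by omega) (by omega))
      (Or.inl (by omega))
  · refine CoC.hs_mid hG _ _ (by omega) hA (by omega) (not_dvd (by omega) (by omega))
      (k := (2 * FE.kap (s + 1) 1)⁻¹) (ℓ := 0) ?_
    rw [Form.d_zero, add_zero]
  · intro w h3 h4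
    rw [F0_eq]
    exact CoC.hs_top map_foot hG _ _ (by omega) hA (by omega) (by omega)
      (Or.inr (not_dvd (by omega) (by omega))) w h3 h4 _
  · exact CoC.hs_exact hG _ _ (by omega) hA (by omega) (not_dvd' (by omega) (by omega))
      (Or.inr (not_dvd (by omega) (by omega)))

end ValC

/-- **the square of `z`** -/
theorem zz_rel (hm : 1 ≤ m) (hk : 2 ≤ k) (hE : finrank ℝ E = (2 * m + 2) * k) :
    ∃ α β₀ β₁ : ℝ, zz G hJ hρ ^ 2 = α • tt G P ^ (2 * m) +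
      (β₀ • x0 G hJ hρ + β₁ • x1 G hJ hρ) * tt G P ^ (m - 1) := by
  obtain ⟨c₁, c₂, c₃, η, hη, h⟩ := ValC.quad_form G P hJ hρ hm hk hE
  have g := geo G P hJ hρ
  have h1 : g.z ^ 2 = g.y ^ (m - 1) * (c₁ • g.x2 + c₂ • (g.y * g.z)) + c₃ • g.y ^ (2 * m) :=
    ValC.cls g hη h
  rw [g.yz, geo_z, geo_y, geo_x1, geo_x2] at h1
  exact ⟨_, _, _, ValC.alg h1⟩

end

end Vale.Agent.P231Z.D
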