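import Vale.Agent.P231Z.D.ValI
import Vale.Agent.P231Z.D.ValC

/-!
# P231 (D): the integral over the space of oriented planes, from the sign of the coefficient
-/

set_option maxSynthPendingDepth 3
set_option linter.unusedSectionVars false
set_option linter.unusedVariables false

open Bundle Manifold Set Filter Module MeasureTheory
open scoped ContDiff Manifold Topology ENNReal Real

namespace Vale.Agent.P231Z.D

noncomputable section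

open Vale.Agent.P234 Vale.Agent.P231 Vale.Agent.P231.Fm Vale.Agent.P231.W Vale.Agent.P231.WR
  Vale.Agent.P231.H766 Vale.Agent.P231.WG Vale.Agent.P231.S2II Vale.Agent.P231.WQ
open Vale.Agent.P231.X3 Vale.Agent.P231.ChW

namespace ValB

theorem alg {H : Type*} [CommRing H] [Algebra ℝ H] {z t x y : H} {i j : ℕ} {α β₀ β₁ : ℝ}
    (h : z ^ 2 = α • t ^ j + (β₀ • x + β₁ • y) * t ^ i) (hα : α ≠ 0) {Φ : H →ₗ[ℝ] ℝ}
    (h0 : ∀ a b, Φ (x ^ a * y ^ b * t ^ i) = 0) (a b : ℕ) :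
    Φ (x ^ a * y ^ b * t ^ j) = α⁻¹ * Φ (x ^ a * y ^ b * z ^ 2) := by
  have h1 : x ^ a * y ^ b * z ^ 2 = α • (x ^ a * y ^ b * t ^ j) +
      (β₀ • (x ^ (a + 1) * y ^ b * t ^ i) + β₁ • (x ^ a * y ^ (b + 1) * t ^ i)) := by
    rw [h]
    simp only [Algebra.smul_def]
    ring
  rw [h1, map_add, map_add, map_smul, map_smul, map_smul, h0, h0, smul_zero, smul_zero, add_zero,
    add_zero, smul_eq_mul, ← mul_assoc, inv_mul_cancel₀ hα, one_mul]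

theorem alg_neg {H : Type*} [CommRing H] [Algebra ℝ H] {t w : H} {i : ℕ} {Φ : H →ₗ[ℝ] ℝ}
    (h : Φ (w * (-t) ^ i) = 0) : Φ (w * t ^ i) = 0 := by
  have h3 : t ^ i = ((-1 : ℝ) ^ i) • (-t) ^ i := by rw [← smul_pow, neg_one_smul, neg_neg]
  rw [h3, mul_smul_comm, map_smul, h, smul_zero]

end ValB

variable {E : Type*} [NormedAddCommGroup E] [NormedSpace ℝ E]
  {M : Type*} [MetricSpace M] [ChartedSpace E M]
  [RiemannianBundle (fun x : M => TangentSpace 𝓘(ℝ, E) x)]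
  {e : ∀ x : M, TangentSpace 𝓘(ℝ, E) x → M}
  [FiniteDimensional ℝ E] [IsManifold 𝓘(ℝ, E) ∞ M]
  [IsContMDiffRiemannianBundle 𝓘(ℝ, E) ∞ E (fun x : M => TangentSpace 𝓘(ℝ, E) x)]
  [CompactSpace M] [ConnectedSpace M] [IsRiemannianManifold 𝓘(ℝ, E) M]
  {D : ℝ} {m k K : ℕ}

variable (G : X3.Geo e D (2 * m + 1)) (P : PF E M K) {p : M}
  {Pi : TangentSpace 𝓘(ℝ, E) p → TangentSpace 𝓘(ℝ, E) p →L[ℝ] TangentSpace 𝓘(ℝ, E) p}
  {o : TangentSpace 𝓘(ℝ, E) p → Fm.Lam (TangentSpace 𝓘(ℝ, E) p)}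
  {ρ : TangentSpace 𝓘(ℝ, E) p → ℝ} {r₀ : ℝ}
  (hJ : FE.LineP e D p m Pi o) (hρ : WE.Rho e D p ρ r₀)

/-- the functional, with its values on `z ^ 2` and on `t ^ (m - 1)` -/
theorem exists_phi0 (hm : 1 ≤ m) (hk : 1 ≤ k) (hE : finrank ℝ E = (2 * m + 2) * k) :
    ∃ (Φ : HH G →ₗ[ℝ] ℝ) (κ : ℝ), κ ≠ 0 ∧
      (∀ a b, Φ (x0 G hJ hρ ^ a * x1 G hJ hρ ^ b * zz G hJ hρ ^ 2) = κ * lam k a b) ∧
      ∀ a b, Φ (x0 G hJ hρ ^ a * x1 G hJ hρ ^ b * tt G P ^ (m - 1)) = 0 := by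
  obtain ⟨n, rfl⟩ : ∃ n, k = n + 1 := ⟨k - 1, by omega⟩
  have hlow : (2 * m + 2) * 1 ≤ (2 * m + 2) * (n + 1) := Nat.mul_le_mul_left _ hk
  obtain ⟨N, hN⟩ : ∃ N, finrank ℝ E = N + 1 := ⟨finrank ℝ E - 1, by omega⟩
  obtain ⟨I, -, hI, -, -⟩ := ValI.exists_gi G.F G.hD G.hB G.hdiam (S2T.Geo.hl G) hN
    (hN.symm.trans hE) hJ hρ one_ne_zero hm (S2T.isDeg_nu (e := e) (D := D) P) rfl rfl rfl
  have g := geo G P hJ hρ
  obtain ⟨κ, hκ, hz⟩ := ValA.val_z g hI hk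
  refine ⟨ValA.PP g hI, κ, hκ, fun a b => ?_, fun a b => ?_⟩
  · have h1 := hz a b
    rw [geo_x1, geo_x2, geo_z] at h1
    exact h1
  · have h1 := ValA.val_y g hI hm a b
    rw [geo_x1, geo_x2, geo_y] at h1
    exact ValB.alg_neg h1

/-- the values of the functional, from the sign of the coefficient of `t ^ (2 m)` in `z ^ 2` -/
theorem exists_phi_of_sign (hm : 1 ≤ m) (hk : 2 ≤ k) (hE : finrank ℝ E = (2 * m + 2) * k)
    (hs : ∀ α β₀ β₁ : ℝ, zz G hJ hρ ^ 2 = α • tt G P ^ (2 * m) +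
      (β₀ • x0 G hJ hρ + β₁ • x1 G hJ hρ) * tt G P ^ (m - 1) → 0 < (-1) ^ m * α) :
    ∃ (Φ : HH G →ₗ[ℝ] ℝ) (κ c : ℝ), κ ≠ 0 ∧ 0 < (-1) ^ m * c ∧
      (∀ a b, Φ (x0 G hJ hρ ^ a * x1 G hJ hρ ^ b * zz G hJ hρ ^ 2) = κ * lam k a b) ∧
      (∀ a b, Φ (x0 G hJ hρ ^ a * x1 G hJ hρ ^ b * tt G P ^ (2 * (m + 1) - 2)) =
        c * κ * lam k a b) ∧
      ∀ a b, Φ (x0 G hJ hρ ^ a * x1 G hJ hρ ^ b * tt G P ^ (m + 1 - 2)) = 0 := by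
  obtain ⟨Φ, κ, hκ, hz, ht⟩ := exists_phi0 G P hJ hρ hm (by omega) hE
  obtain ⟨α, β₀, β₁, h⟩ := zz_rel G P hJ hρ hm hk hE
  have h1 := hs α β₀ β₁ h
  have hα : α ≠ 0 := by
    rintro rfl
    rw [mul_zero] at h1
    exact lt_irrefl _ h1
  have e1 : 2 * (m + 1) - 2 = 2 * m := by omega
  have e2 : m + 1 - 2 = m - 1 := by omega
  rw [e1, e2]
  refine ⟨Φ, κ, α⁻¹, hκ, ?_, hz, fun a b => ?_, ht⟩
  · have h2 : (-1) ^ m * α⁻¹ = ((-1) ^ m * α) * (α⁻¹ * α⁻¹) := by field_simp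
    rw [h2]
    exact mul_pos h1 (mul_self_pos.2 (inv_ne_zero hα))
  · rw [ValB.alg h hα ht, hz, mul_assoc]

end

end Vale.Agent.P231Z.D
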