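import Vale.Agent.P231Z.D.ValL1
import Vale.Agent.P231Z.D.ValB

/-!
# P231 (D): the integral over the fibre of the space of pairs over a cut pair
-/

set_option maxSynthPendingDepth 3
set_option linter.unusedSectionVars false
set_option linter.unusedVariables false

open Bundle Manifold Set Filter Module MeasureTheory
open scoped ContDiff Manifold Topology ENNReal Real

namespace Vale.Agent.P231Z.D

noncomputable section

open Vale.Agent.P234 Vale.Agent.P231 Vale.Agent.P231.Fm Vale.Agent.P231.W Vale.Agent.P231.WR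
  Vale.Agent.P231.H766 Vale.Agent.P231.WG Vale.Agent.P231.S2II Vale.Agent.P231.WQ
open Vale.Agent.P231.X3 Vale.Agent.P231.ChW

namespace ValL

theorem ptv_part {X : Type*} {D : Dif X} (a : Form D) (x : X) :
    WF.ptv (Form.part 0 a) x = WF.ptv a x := by
  rw [WF.ptv, WF.ptv, Form.part_val, WA.prt_zero, AlgHom.commutes]
  rfl

/-- the coefficient from a functional which is supported on a fibre -/
theorem coef {X : Type*} {D : Dif X} {T : ℝ} {Φ : X × ℝ → X} {h : IsFlow D T Φ}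
    {ν F1 F2 B : Form D} (g : S2X.Geo h 1 ν F1 F2 B) {L : Form D →ₗ[ℝ] ℝ}
    (Id : ∀ w : Form D, L w.d = 0) (Ib : ∀ w, Basic Φ h.map w → L w = 0)
    (h1 : ∀ v w, L (v * (F1 * w)) = 0) (h2 : ∀ v w, L (v * (F2 * w)) = 0)
    (hne : L (B * J Φ h.map T B) ≠ 0) {j : ℕ} {a α β₀ β₁ : ℝ}
    (hpt : L (ν * J Φ h.map T B ^ 2) = a * L (ν * ν.d ^ j)) {u : S2X.HH' Φ h.map}
    (hq : g.z ^ 2 = α • g.y ^ j + (β₀ • g.x2 + β₁ • g.x1) * u) : α = a * T ^ j := by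
  obtain ⟨u, rfl⟩ := Ideal.Quotient.mk_surjective u
  set P := S2X.Ph h g.νb g.νo Id Ib with hP
  have e1 : P (g.z ^ 2) = L (ν * J Φ h.map T B ^ 2) := by
    rw [S2X.Geo.z, ← map_pow, hP, S2X.Ph_mk]
    change L (ν * ((1 : ℝ)⁻¹ • J Φ h.map T B) ^ 2) = _
    rw [inv_one, one_smul]
  have e2 : P (g.y ^ j) = (T⁻¹) ^ j * L (ν * ν.d ^ j) := by
    rw [S2X.Geo.y, ← map_pow, hP, S2X.Ph_mk]
    change L (ν * (T⁻¹ • ν.d) ^ j) = _
    rw [smul_pow, mul_smul_comm, map_smul, smul_eq_mul]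
  have e3 : P (g.x2 * Ideal.Quotient.mk (H584.Exa Φ h.map) u) = 0 := by
    rw [S2X.Geo.x2, ← map_mul, hP, S2X.Ph_mk]
    change L (ν * (((1 : ℝ)⁻¹ • F2) * u.1)) = _
    rw [inv_one, one_smul, h2]
  have e4 : P (g.x1 * Ideal.Quotient.mk (H584.Exa Φ h.map) u) = 0 := by
    rw [S2X.Geo.x1, ← map_mul, hP, S2X.Ph_mk]
    change L (ν * (((1 : ℝ)⁻¹ • F1) * u.1)) = _
    rw [inv_one, one_smul, h1]
  have e5 : L (ν * J Φ h.map T B ^ 2) = T * L (B * J Φ h.map T B) := by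
    have hτ : Basic Φ h.map (B * J Φ h.map T B).d := by
      rw [H584.d_mul_closed _ g.Jc, g.Bd]
      exact H584.Basic.mul (H584.Basic.sub g.b1 g.b2) (H584.J_basic h _)
    rw [H584.avg h g.ν1 g.νo Id Ib hτ, H584.J_mul_basic _ _ (H584.J_basic h _), sq]
  have e6 := congrArg P hq
  rw [add_mul, smul_mul_assoc, smul_mul_assoc, P.map_add, P.map_add, P.map_smul, P.map_smul,
    P.map_smul, e1, e2, e3, e4, smul_zero, smul_zero, add_zero, add_zero, smul_eq_mul] at e6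
  have e7 : L (ν * ν.d ^ j) ≠ 0 := by
    intro h0
    rw [h0, mul_zero, e5] at hpt
    exact mul_ne_zero g.hT hne hpt
  rw [hpt, ← mul_assoc] at e6
  rw [mul_right_cancel₀ e7 e6, mul_assoc, ← mul_pow, inv_mul_cancel₀ g.hT, one_pow, mul_one]

end ValL

variable {E : Type*} [NormedAddCommGroup E] [NormedSpace ℝ E]
  {M : Type*} [MetricSpace M] [ChartedSpace E M]
  [RiemannianBundle (fun x : M => TangentSpace 𝓘(ℝ, E) x)]
  {e : ∀ x : M, TangentSpace 𝓘(ℝ, E) x → M}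
  [FiniteDimensional ℝ E] [IsManifold 𝓘(ℝ, E) ∞ M]
  [IsContMDiffRiemannianBundle 𝓘(ℝ, E) ∞ E (fun x : M => TangentSpace 𝓘(ℝ, E) x)]
  [CompactSpace M] [ConnectedSpace M] [IsRiemannianManifold 𝓘(ℝ, E) M]
  {D : ℝ} {m k K : ℕ}

namespace ValL

/-- the integral over the unit sphere of the plane of a frame -/
def kL {l : ℕ} (f : S2II.Fr e D l) : Form (dUT E M) →ₗ[ℝ] ℝ where
  toFun b := CoZ.kfP b f
  map_add' a b := by
    rw [CoZ.kfP, CoZ.kfP, CoZ.kfP, CoZ.frP, CoZ.frP, CoZ.frP, Co.pull_add, Co.si_add, WF.ptv,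
      WF.ptv, WF.ptv, Form.add_val, map_add]
  map_smul' c a := by
    rw [CoZ.kfP, CoZ.kfP, CoZ.frP, CoZ.frP, Co.pull_smul, Co.si_smul, WF.ptv,
      WF.ptv, Form.smul_val, map_smul]
    rfl

theorem kL_part {l : ℕ} (f : S2II.Fr e D l) (b : Form (dUT E M)) :
    kL f b = kL f (Form.part l b) := by
  change WF.ptv (CoZ.frP b) f = WF.ptv (CoZ.frP (Form.part l b)) f
  rw [← ptv_part, CoZ.frP, CoZ.frP, Co.part_si (j := l) _ (by omega), Form.part_pull]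

theorem kL_d {l : ℕ} (f : S2II.Fr e D l) (b : Form (dUT E M)) : kL f b.d = 0 := by
  change WF.ptv (CoZ.frP b.d) f = 0
  rw [← ptv_part, CoZ.frP, Form.pull_d, Co.si_d, Form.part_smul, Form.part_zero_d, smul_zero,
    WF.ptv, Form.zero_val, map_zero]

theorem kL_loc (F : Facts e) (hD : 0 < D) (hB : InjGE e D) (hdiam : ∀ p q : M, dist p q ≤ D)
    {l : ℕ} (f : S2II.Fr e D l) {b : Form (dUT E M)}
    (hb : Form.pull id (Dif.map_on (O := sph f)) b = 0) : kL f b = 0 := by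
  have hc : (Dif.lin ℝ).Map (dFr e D l) (fun _ => f) := fun {V} _ _ _ {u x} h => S2X.at_constFr f x
  have h1 := Co.si_nat (bas (l + 1)) hc
    (Form.pull CoZ.evP (CoZ.map_evP (e := e) (D := D) (l := l)) b)
  have h2 : Form.pull (fun p : ℝ × Eul (l + 1) => (f, p.2)) (Co.map_SB hc)
      (Form.pull CoZ.evP (CoZ.map_evP (e := e) (D := D) (l := l)) b) = 0 := by
    refine Form.ext_val fun V _ _ _ u x hu => ?_
    have h3 : ((dUT E M).on (sph f)).At (fun y => CoZ.evP (f, (u y).2)) x :=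
      ⟨CoZ.map_evP (Co.map_SB hc hu), Eventually.of_forall fun y =>
        ⟨CoZ.foot_evP _, CoZ.bar_evP F hD hB hdiam _⟩⟩
    have h4 := congrArg
      (fun a : Form ((dUT E M).on (sph f)) => a.val (fun y => CoZ.evP (f, (u y).2)) x) hb
    beta_reduce at h4
    rw [Form.pull_val _ _ h3] at h4
    rw [Form.pull_val _ _ hu, Form.pull_val _ _ (Co.map_SB hc hu)]
    exact h4
  rw [h2, Co.si_zero] at h1
  have h3 : (Dif.lin ℝ).At (fun _ : ℝ => (0 : ℝ)) 0 := Sm.of_contDiff contDiff_const _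
  have h4 := congrArg (fun a : Form (Dif.lin ℝ) => aug (a.val (fun _ : ℝ => (0 : ℝ)) 0)) h1
  beta_reduce at h4
  rw [Form.pull_val _ _ h3, Form.zero_val, map_zero] at h4
  exact h4.symm

end ValL

variable (G : X3.Geo e D (2 * m + 1)) (P : PF E M K) {p : M}
  {Pi : TangentSpace 𝓘(ℝ, E) p → TangentSpace 𝓘(ℝ, E) p →L[ℝ] TangentSpace 𝓘(ℝ, E) p}
  {o : TangentSpace 𝓘(ℝ, E) p → Fm.Lam (TangentSpace 𝓘(ℝ, E) p)}
  {ρ : TangentSpace 𝓘(ℝ, E) p → ℝ} {r₀ : ℝ}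
  (hJ : FE.LineP e D p m Pi o) (hρ : WE.Rho e D p ρ r₀)

/-- **the integral over one fibre** -/
theorem exists_fibI (h2 : 2 ≤ finrank ℝ E) : ∃ L : Form (dPr e D) →ₗ[ℝ] ℝ,
    (∀ w : Form (dPr e D), L w.d = 0) ∧ (∀ w, Basic G.R G.map_R w → L w = 0) ∧
    (∀ w, S2X.FibZ p w → L w = 0) ∧ L (BB G hJ hρ * b0 G hJ hρ) ≠ 0 := by
  have hnt : Nontrivial E := nontrivial_of_finrank_pos (R := ℝ) (by omega)
  obtain ⟨v, hv⟩ := S2II.exists_foot (E := E) p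
  obtain ⟨W, hW⟩ := exists_isLF G.F G.hD G.hB G.hdiam G.hP v
  let f : S2II.Fr e D (2 * m + 1) := ⟨(v, W), hW⟩
  have hf : foot f.v = p := hv
  have hb := S2II.orn_b0P G.F G.hD G.hB G.hdiam h2 (S2T.Geo.hl G) hJ hρ one_ne_zero
  let S := SL G.F G.hD G.hB G.hdiam (l := 2 * m + 1) G.hP hb ⟨m, rfl⟩
  have hloc : ∀ w : Form (dPr e D),
      Form.pull id (Dif.map_on (O := Pr.v ⁻¹' ValL.sph f)) w = 0 → ValL.kL f (S w) = 0 :=
    fun w hw => ValL.kL_loc G.F G.hD G.hB G.hdiam f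
      (ValL.SI_loc (bun_SL G.F G.hD G.hB G.hdiam G.hP hb ⟨m, rfl⟩) _ _ hw)
  refine ⟨ValL.kL f ∘ₗ S, fun w => ?_, fun w hw => ?_, fun w hw => hloc w ?_, ?_⟩
  · change ValL.kL f (S w.d) = 0
    have h1 : S w.d = (S w).d := SL_d G.F G.hD G.hB G.hdiam G.hP hb ⟨m, rfl⟩ w
    rw [h1, ValL.kL_d]
  · change ValL.kL f (S w) = 0
    rw [ValL.kL_part, part_SL G.F G.hD G.hB G.hdiam G.hP hb ⟨m, rfl⟩ (j := 4 * m + 1) (by omega)]
    refine hloc _ (ValL.basic_fib G.F G.hD G.hB G.hdiam G.hP f (j := 4 * m + 1) (by omega)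
      (Form.isDeg_part _ w) ?_)
    change Form.pull G.R G.map_R (Form.part (4 * m + 1) w) = pr (Form.part (4 * m + 1) w)
    rw [← Form.part_pull, hw]
    exact Form.part_pull _ _ (Dif.map_fst (D := dPr e D) (D' := Dif.lin ℝ)) w
  · refine Form.ext_val fun V _ _ _ u x hu => ?_
    rw [Form.pull_val _ _ hu, Form.zero_val]
    exact hw (bar e D f.v) _ _ hu.1 (hu.2.mono fun s hs => ⟨hs.1.trans hf, hs.2⟩)
  · have c2 : (b0 G hJ hρ).sg = b0 G hJ hρ := (b0_deg G hJ hρ).sg_of_even (even_two_mul m)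
    have c3 : S (b0 G hJ hρ) = (2 * kappa m 1) • 1 :=
      SL_b0P G.F G.hD G.hB G.hdiam h2 (S2T.Geo.hl G) hJ hρ one_ne_zero
    change ValL.kL f (S (BB G hJ hρ * b0 G hJ hρ)) ≠ 0
    have c4 : S (b0 G hJ hρ * BB G hJ hρ) = S (b0 G hJ hρ) * B0 G.F D (Om G hJ hρ) :=
      SL_mul G.F G.hD G.hB G.hdiam G.hP hb ⟨m, rfl⟩ _ _
    rw [← (H584.even_comm c2 _).eq, c4, c3, smul_mul_assoc, one_mul, map_smul]
    refine smul_ne_zero (mul_ne_zero two_ne_zero (kappa_pos one_ne_zero).ne') fun h0 => ?_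
    have h1 := CoZ.abs_kfP_all G.F G.hD G.hB G.hdiam (S2T.Geo.hl G) hJ hρ 1 h2 f
    have h3 : CoZ.kfP (B0 G.F D (Om G hJ hρ)) f = 0 := h0
    rw [h3, abs_zero] at h1
    exact (FE.kap_pos m one_ne_zero).ne h1

theorem ValL.fibZ_mul {v w : Form (dPr e D)} (h : S2X.FibZ p v) (u : Form (dPr e D)) :
    S2X.FibZ p (u * (v * w)) := by
  intro q X _ _ _ Q x h1 h2
  rw [Form.mul_val, Form.mul_val, h q Q x h1 h2, zero_mul, mul_zero]

theorem ValL.fibZ_F0 : S2X.FibZ p (F0 G hJ hρ) := by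
  intro q X _ _ _ Q x h1 h2
  have h3 : (dM E M).At (fun _ : X => p) x := Eventually.of_forall fun y => contMDiffAt_const
  rw [F0_eq, Form.pull_val _ _ h1, (Om G hJ hρ).congr (G.map_foot h1) (v := fun _ => p)
    (h2.mono fun s hs => hs.1)]
  exact CoZ.val_const (Om_deg G hJ hρ) h3

theorem ValL.fibZ_F1 : S2X.FibZ p (F1 G hJ hρ) := by
  intro q X _ _ _ Q x h1 h2
  have h3 : (dM E M).At (fun _ : X => q) x := Eventually.of_forall fun y => contMDiffAt_const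
  rw [F1_eq, Form.pull_val _ _ h1, (Om G hJ hρ).congr (G.map_bar h1) (v := fun _ => q)
    (h2.mono fun s hs => hs.2)]
  exact CoZ.val_const (Om_deg G hJ hρ) h3

/-- the values of the functional, from the identity on the fibres over the base point -/
theorem exists_phi_of_fib (hm : 1 ≤ m) (hk : 2 ≤ k) (hE : finrank ℝ E = (2 * m + 2) * k)
    {a : ℝ} (ha : 0 < (-1) ^ m * a)
    (hpt : S2X.FibZ p (b0 G hJ hρ ^ 2 - a • (X3.nu e D P).d ^ (2 * m))) :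
    ∃ (Φ : HH G →ₗ[ℝ] ℝ) (κ c : ℝ), κ ≠ 0 ∧ 0 < (-1) ^ m * c ∧
      (∀ a b, Φ (x0 G hJ hρ ^ a * x1 G hJ hρ ^ b * zz G hJ hρ ^ 2) = κ * lam k a b) ∧
      (∀ a b, Φ (x0 G hJ hρ ^ a * x1 G hJ hρ ^ b * tt G P ^ (2 * (m + 1) - 2)) =
        c * κ * lam k a b) ∧
      ∀ a b, Φ (x0 G hJ hρ ^ a * x1 G hJ hρ ^ b * tt G P ^ (m + 1 - 2)) = 0 := by
  refine exists_phi_of_sign G P hJ hρ hm hk hE fun α β₀ β₁ h => ?_
  have hlow : (2 * m + 2) * 2 ≤ (2 * m + 2) * k := Nat.mul_le_mul_left _ hk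
  obtain ⟨L, Id, Ib, If, hne⟩ := exists_fibI G hJ hρ (by omega)
  have g := geo G P hJ hρ
  have h1 : g.z ^ 2 = α • g.y ^ (2 * m) + (β₀ • g.x2 + β₁ • g.x1) * tt G P ^ (m - 1) := by
    rw [geo_z, geo_y, geo_x1, geo_x2, Even.neg_pow (even_two_mul m)]
    exact h
  have h2 : L (X3.nu e D P * b0 G hJ hρ ^ 2) =
      a * L (X3.nu e D P * (X3.nu e D P).d ^ (2 * m)) := by
    have h3 := If _ (ValL.fibZ_mul (w := 1) hpt (X3.nu e D P))
    rw [mul_one, mul_sub, mul_smul_comm, L.map_sub, L.map_smul, smul_eq_mul] at h3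
    exact sub_eq_zero.1 h3
  have h4 : α = a * (2 * π) ^ (2 * m) := ValL.coef g Id Ib
    (fun v w => If _ (ValL.fibZ_mul (ValL.fibZ_F1 G hJ hρ) v))
    (fun v w => If _ (ValL.fibZ_mul (ValL.fibZ_F0 G hJ hρ) v)) hne h2 h1
  rw [h4, ← mul_assoc]
  exact mul_pos ha (by positivity)

end

end Vale.Agent.P231Z.D
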