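import Vale.Agent.P231Z.D.ValFibB
import Vale.Agent.P231Z.D.ValF1
import Vale.Agent.P231Z.D.ValL

/-!
# P231 (D), block D3: the integral over the space of oriented planes and its values
-/

set_option maxSynthPendingDepth 3
set_option linter.unusedSectionVars false
set_option linter.unusedVariables false

open Bundle Manifold Set Filter Module
open scoped ContDiff Manifold Topology

namespace Vale.Agent.P231Z.D

noncomputable section

open Vale.Agent.P234 Vale.Agent.P231 Vale.Agent.P231.Fm Vale.Agent.P231.W Vale.Agent.P231.WR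
open Vale.Agent.P231.S2X Vale.Agent.P231.X3

variable {E : Type*} [NormedAddCommGroup E] [NormedSpace ℝ E]
  {M : Type*} [MetricSpace M] [ChartedSpace E M]
  [RiemannianBundle (fun x : M => TangentSpace 𝓘(ℝ, E) x)]
  {e : ∀ x : M, TangentSpace 𝓘(ℝ, E) x → M}
  [FiniteDimensional ℝ E] [IsManifold 𝓘(ℝ, E) ∞ M]
  [IsContMDiffRiemannianBundle 𝓘(ℝ, E) ∞ E (fun x : M => TangentSpace 𝓘(ℝ, E) x)]
  [CompactSpace M] [ConnectedSpace M] [IsRiemannianManifold 𝓘(ℝ, E) M]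
  {D : ℝ} {m k K : ℕ} (G : X3.Geo e D (2 * m + 1)) (P : PF E M K) {p : M}
  {Pi : TangentSpace 𝓘(ℝ, E) p → TangentSpace 𝓘(ℝ, E) p →L[ℝ] TangentSpace 𝓘(ℝ, E) p}
  {o : TangentSpace 𝓘(ℝ, E) p → Fm.Lam (TangentSpace 𝓘(ℝ, E) p)}
  {ρ : TangentSpace 𝓘(ℝ, E) p → ℝ} {r₀ : ℝ}
  (hJ : FE.LineP e D p m Pi o) (hρ : WE.Rho e D p ρ r₀)

open VF in
/-- the square of `b₀` on the fibres over the base point -/
theorem fib_pt : FibZ p (b0 G hJ hρ ^ 2 -
    (((2 * m + 1).factorial : ℝ) ^ 2 * ValF.cc m) • (X3.nu e D P).d ^ (2 * m)) := by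
  intro q X _ _ _ Q x hQ hpq
  have hp : ∀ᶠ s in 𝓝 x, foot (Q s).v = p := hpq.mono fun s hs => hs.1
  have hp' : ∀ᶠ s in 𝓝 x, foot (Q s).w = p := hp.mono fun s hs => (Q s).isL.foot_eq.trans hs
  set u : X → TangentSpace 𝓘(ℝ, E) p := fun s => tvp p (Q s).v with hu
  set w : X → TangentSpace 𝓘(ℝ, E) p := fun s => tvp p (Q s).w with hw
  have su : Sm u x := sm_fibre (E := E) (map_v hQ) hp
  have sw : Sm w x := sm_fibre (E := E) (map_w hQ) hp'
  have h : FPl e D p q Q u w x := ⟨su, sw, hpq.mono fun s hs => ⟨hs.1, rfl, rfl, hs.2⟩⟩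
  have hun : ∀ᶠ s in 𝓝 x, ‖u s‖ = 1 := hp.mono fun s hs => norm_tvp hs
  have hwn : ∀ᶠ s in 𝓝 x, ‖w s‖ = 1 := hp'.mono fun s hs => norm_tvp hs
  have hue : ∀ᶠ s in 𝓝 x, e p (D • u s) = q := hpq.mono fun s hs => (exp_tvp hs.1).trans hs.2
  have hwe : ∀ᶠ s in 𝓝 x, e p (D • w s) = q := by
    filter_upwards [hp', hpq] with s h1 h2
    exact (exp_tvp h1).trans ((Q s).isL.bar_eq.trans h2.2)
  have hux := hun.self_of_nhds
  have hu0 : u x ≠ 0 := FE.ne_zero_of_unit hux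
  have hPu : ∀ᶠ s in 𝓝 x, Pi (u x) (u s) = u s := by
    filter_upwards [hun, hue] with s h1 h2
    exact (hJ.cut _ _ hux h1).1 (hue.self_of_nhds.trans h2.symm)
  have hPw : ∀ᶠ s in 𝓝 x, Pi (u x) (w s) = w s := by
    filter_upwards [hwn, hwe] with s h1 h2
    exact (hJ.cut _ _ hux h1).1 (hue.self_of_nhds.trans h2.symm)
  have huw : inner ℝ (u x) (w x) = (0 : ℝ) := by
    have key : ∀ y : M, y = p → ip y (vec' (Q x).v) (vec' (Q x).w) = inner ℝ (u x) (w x) := by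
      rintro y rfl
      rfl
    exact (key _ hp.self_of_nhds).symm.trans (Q x).isL.orth
  have hrk := hJ.os.sp.rank _ hu0
  obtain ⟨g, hg, hgP, hg0, hg1⟩ := exists_two (n := 2 * m) hrk hux hwn.self_of_nhds huw
    ((hJ.os.mem_range_iff hu0).2 hPu.self_of_nhds) ((hJ.os.mem_range_iff hu0).2 hPw.self_of_nhds)
  obtain ⟨ε, hε, ho⟩ : ∃ ε : ℝ, ε * ε = 1 ∧ o (u x) = ε • FE.wdg g := by
    rcases hJ.os.o_pm hu0 hg (fun a => (hJ.os.mem_range_iff hu0).1 (hgP a)) with h1 | h1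
    · exact ⟨1, one_mul 1, by rw [one_smul]; exact h1⟩
    · exact ⟨-1, by norm_num, by rw [neg_one_smul]; exact h1⟩
  have hus : ∀ᶠ s in 𝓝 x, u s = ∑ j, (inner ℝ (g j) (u s) : ℝ) • g j := hPu.mono fun s hs =>
    (FE.sum_of_P hrk hg hgP ((hJ.os.mem_range_iff hu0).2 hs)).symm
  have hws : ∀ᶠ s in 𝓝 x, w s = ∑ j, (inner ℝ (g j) (w s) : ℝ) • g j := hPw.mono fun s hs =>
    (FE.sum_of_P hrk hg hgP ((hJ.os.mem_range_iff hu0).2 hs)).symm
  set a : Fin (2 * m) → X →L[ℝ] ℝ := fun i => al (g i.succ.succ) u x with ha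
  set b : Fin (2 * m) → X →L[ℝ] ℝ := fun i => al (g i.succ.succ) w x with hb
  -- the four values
  have v1 : (b0 G hJ hρ).val Q x = (1 * ((2 * m + 1).factorial : ℝ) * ε) •
      ∫ t in (0 : ℝ)..(2 * Real.pi), wp fun i => Real.cos t • a i + Real.sin t • b i :=
    b0_fib G.F G.hD G.hB G.hdiam (S2T.Geo.hl G) hJ hρ 1 h hg hg0.symm hg1.symm ho
  have v4 : (X3.nu e D P).d.val Q x = -∑ i, dx (a i) * dx (b i) := by
    rw [X3.nu, conn_d_val _ _ hQ, ← curv2 (fun ξ => P.parseval p ξ) hg su.differentiableAt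
      sw.differentiableAt hg0.symm hg1.symm hun hwn hus hws]
    refine Finset.sum_congr rfl fun i _ => ?_
    congr 2
    · exact fderiv_em P i hp sw
    · exact fderiv_em P i hp su
  have v5 : -∑ i, dx (a i) * dx (b i) = ∑ i, dx (b i) * dx (a i) := by
    rw [← Finset.sum_neg_distrib]
    exact Finset.sum_congr rfl fun i _ => (dx_anticomm _ _).symm
  have v6 : (∫ t in (0 : ℝ)..(2 * Real.pi), wp fun i => Real.cos t • a i + Real.sin t • b i) ^ 2 =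
      ValF.cc m • (∑ i, dx (b i) * dx (a i)) ^ (2 * m) := ValF.sq_int a b
  have h4 : (1 * ((2 * m + 1).factorial : ℝ) * ε) ^ 2 = ((2 * m + 1).factorial : ℝ) ^ 2 := by
    linear_combination ((2 * m + 1).factorial : ℝ) ^ 2 * hε
  rw [Form.sub_val, Form.smul_val, WQ.pow_val _ hQ, WQ.pow_val _ hQ, v1, v4, v5, _root_.smul_pow,
    v6, smul_smul, h4, sub_self]

/-- **D3**: the integral over the space of oriented planes and its values -/
theorem exists_phi (hm : 2 ≤ m) (hk : 2 ≤ k) (hE : finrank ℝ E = (2 * m + 2) * k) :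
    ∃ (Φ : HH G →ₗ[ℝ] ℝ) (κ c : ℝ), κ ≠ 0 ∧ 0 < (-1) ^ m * c ∧
      (∀ a b, Φ (x0 G hJ hρ ^ a * x1 G hJ hρ ^ b * zz G hJ hρ ^ 2) = κ * lam k a b) ∧
      (∀ a b, Φ (x0 G hJ hρ ^ a * x1 G hJ hρ ^ b * tt G P ^ (2 * (m + 1) - 2)) =
        c * κ * lam k a b) ∧
      ∀ a b, Φ (x0 G hJ hρ ^ a * x1 G hJ hρ ^ b * tt G P ^ (m + 1 - 2)) = 0 := by
  refine exists_phi_of_fib G P hJ hρ (by omega) hk hE ?_ (fib_pt G P hJ hρ)
  have h1 := ValF.cc_sign m
  have h2 : (0 : ℝ) < ((2 * m + 1).factorial : ℝ) ^ 2 := by positivity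
  rw [mul_left_comm]
  exact mul_pos h2 h1

end

end Vale.Agent.P231Z.D
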