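import Vale.Agent.P231.S2T.T3

/-!
# P231 (D), block D4b, part 1: the values of the functional on `V ×_M V` for the class `z`
-/

set_option maxSynthPendingDepth 3
set_option linter.unusedSectionVars false
set_option linter.unusedVariables false

open Bundle Manifold Set Filter Module Topology MeasureTheory
open scoped ContDiff Manifold Topology

namespace Vale.Agent.P231.S2T

noncomputable section

section Abs

open Fm W H584

variable {X : Type*} {D : Dif X} {T : ℝ} {Φ₁ Φ₂ : X × ℝ → X} {h₁ : IsFlow D T Φ₁}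
  {h₂ : IsFlow D T Φ₂} {I : Form D →ₗ[ℝ] ℝ} {N : ℕ} {ν₁ ν₂ : Form D}

/-- the values of the functional on the multiples of `z₁ ^ 2 z₂ ^ 2` -/
theorem Two.valz (S : Two h₁ h₂ I N ν₁ ν₂) {n : ℕ} {κ A : ℝ} {F₀ F₁ F₂ B₁ B₂ : Form D}
    {X₀ X₁ X₂ Z₁ Z₂ : Bas2 Φ₁ Φ₂ h₁.map h₂.map}
    (e₀ : (X₀ : Form D) = κ⁻¹ • F₀) (e₁ : (X₁ : Form D) = κ⁻¹ • F₁)
    (e₂ : (X₂ : Form D) = κ⁻¹ • F₂) (hF₀ : F₀.sg = F₀) (hF₁ : F₁.sg = F₁) (hF₂ : F₂.sg = F₂)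
    (bF₀ : Basic Φ₁ h₁.map F₀ ∧ Basic Φ₂ h₂.map F₀) (bF₁ : Basic Φ₁ h₁.map F₁ ∧ Basic Φ₂ h₂.map F₁)
    (bF₂ : Basic Φ₁ h₁.map F₂ ∧ Basic Φ₂ h₂.map F₂)
    (hB₁ : B₁.sg = -B₁) (hB₂ : B₂.sg = -B₂)
    (b₁ : Basic Φ₂ h₂.map B₁) (b₂ : Basic Φ₁ h₁.map B₂)
    (z₁ : (Z₁ : Form D) = κ⁻¹ • J Φ₁ h₁.map T B₁) (z₂ : (Z₂ : Form D) = κ⁻¹ • J Φ₂ h₂.map T B₂)
    (j₁ : Basic Φ₂ h₂.map (J Φ₁ h₁.map T B₁)) (j₂ : Basic Φ₁ h₁.map (J Φ₂ h₂.map T B₂))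
    (v₃ : ∀ a b d, I (B₁ * (B₂ * (J Φ₁ h₁.map T B₁ * (J Φ₂ h₂.map T B₂ *
      (F₀ ^ a * F₁ ^ b * F₂ ^ d))))) = A * NN n a b d) :
    Val n ((κ⁻¹) ^ (3 * n - 2) * ((κ⁻¹) ^ 4 * (T * (T * A)))) (Ideal.Quotient.mk _ X₀)
      (Ideal.Quotient.mk _ X₁) (Ideal.Quotient.mk _ X₂) (Ideal.Quotient.mk _ Z₁)
      (Ideal.Quotient.mk _ Z₂) S.L := by
  refine ⟨fun a b d => ?_⟩
  have h := S.L_mono e₀ e₁ e₂ (V := Z₁ ^ 2 * Z₂ ^ 2)
    (w := (κ⁻¹ • J Φ₁ h₁.map T B₁) ^ 2 * (κ⁻¹ • J Φ₂ h₂.map T B₂) ^ 2)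
    (by rw [← z₁, ← z₂]; rfl) a b d
  have hW : (F₀ ^ a * F₁ ^ b * F₂ ^ d).sg = F₀ ^ a * F₁ ^ b * F₂ ^ d :=
    mul_even (mul_even (pow_even hF₀ a) (pow_even hF₁ b)) (pow_even hF₂ d)
  rw [smul_pow, smul_pow, smul_mul_smul_comm, mul_smul_comm,
    mul_smul_comm, mul_smul_comm, map_smul, S.avg hB₁ hB₂ b₁ b₂ j₁ j₂ hW
      (Basic.mul (Basic.mul (Basic.pow bF₀.1 a) (Basic.pow bF₁.1 b)) (Basic.pow bF₂.1 d))
      (Basic.mul (Basic.mul (Basic.pow bF₀.2 a) (Basic.pow bF₁.2 b)) (Basic.pow bF₂.2 d)),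
    v₃, smul_eq_mul] at h
  refine Eq.trans ?_ (h.trans ?_)
  · rfl
  · linear_combination (κ⁻¹ ^ 4 * (T * (T * A))) * NN_pow n a b d κ⁻¹

end Abs

open Vale.Agent.P234 Vale.Agent.P231 Vale.Agent.P231.Fm Vale.Agent.P231.W Vale.Agent.P231.H775
  Vale.Agent.P231.WG Vale.Agent.P231.WR Vale.Agent.P231.X3 Vale.Agent.P231.ChW
  Vale.Agent.P231.WQ
open Vale.Agent.P231.Fm (Sm Dif Form Lam)

variable {E : Type*} [NormedAddCommGroup E] [NormedSpace ℝ E] [FiniteDimensional ℝ E]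
  {M : Type*} [MetricSpace M] [ChartedSpace E M] [IsManifold 𝓘(ℝ, E) ∞ M]
  [RiemannianBundle (fun x : M => TangentSpace 𝓘(ℝ, E) x)]
  [IsContMDiffRiemannianBundle 𝓘(ℝ, E) ∞ E (fun x : M => TangentSpace 𝓘(ℝ, E) x)]
  [CompactSpace M] [ConnectedSpace M] [IsRiemannianManifold 𝓘(ℝ, E) M]
  {e : ∀ x : M, TangentSpace 𝓘(ℝ, E) x → M} {D : ℝ}

section Values

variable {l : ℕ} [NeZero l] (G : Geo e D l)
  {b0 : Form (dPr e D)} (hb : S2II.Orn G.F G.hD G.hB G.hdiam (l := l) b0) (hl : Odd l)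
  {p : M} {R : ℝ} (X : WG.Fr e p R) (v0 : UT E M) {k : ℕ} (b : Basis (Fin k) ℝ (Eu E))
  {r : Eu E → ℝ} {K : Set (Eu E)} (hr : Q.Cut r K) (hDR : D < R)
  {Om : Form (dM E M)} {d n : ℕ} (hd : Om.d = 0) (hev : Even d) (htwo : 2 ≤ d)
  (hE : finrank ℝ E = d * n)
  (hrad : ∀ y z : Eu E, (inner ℝ y z : ℝ) = 0 → fderiv ℝ r y z = 0)
  (hOd : Form.IsDeg d Om) (hOn : Om ^ (n + 1) = 0)

include hev htwo hE hrad hd hOd hOn in
/-- **the values of the functional** -/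
theorem exists_valz (hn : 2 ≤ n) (h3 : 3 ≤ l) {s : ℝ} (hs0 : s ≠ 0)
    (hs : S2II.SL G.F G.hD G.hB G.hdiam G.hP hb hl (bb G Om) = s • 1)
    (hAA : AA X v0 b hr hDR G.F Om n (n - 1) (n - 1) ≠ 0) {ν : Form (dPr e D)}
    (hν : Form.pull G.R G.map_R ν = pr ν + dt) (hν1 : Form.IsDeg 1 ν) {κ : ℝ} (hκ : κ ≠ 0)
    {Xf Xb Zb : H584.Bas G.R G.map_R}
    (eXf : (Xf : Form (dPr e D)) = κ⁻¹ • Form.pull (fun p => foot p.v) G.map_foot Om)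
    (eXb : (Xb : Form (dPr e D)) = κ⁻¹ • Form.pull (fun p => bar e D p.v) G.map_bar Om)
    (eZ : (Zb : Form (dPr e D)) = κ⁻¹ • bb G Om) :
    ∃ (κ' : ℝ) (L : HV2 G →ₗ[ℝ] ℝ), κ' ≠ 0 ∧ Val n κ' (Q1 G (qm G.R G.map_R Xf))
      (Q1 G (qm G.R G.map_R Xb)) (Q2 G (qm G.R G.map_R Xb)) (Q1 G (qm G.R G.map_R Zb))
      (Q2 G (qm G.R G.map_R Zb)) L := by
  have hk : finrank ℝ E = k := by
    have h1 := finrank_eq_card_basis b
    rw [finrank_euclideanSpace, Fintype.card_fin, Fintype.card_fin] at h1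
    exact h1
  have hk1 : 1 ≤ k := by
    rw [← hk, hE]
    exact Nat.mul_pos (by omega) (by omega)
  have hP : ∀ x y : M, dist x y = D → 2 ≤ finrank ℝ (H775.Pl e D x y) := fun x y h => by
    rw [G.hP x y h]
    omega
  have hp := pth G.F hd hev hOd hOn (D := D)
  set S := two G hb hl X v0 b hr hDR hν hν1 hk hk1 (N := 3 * k + 2 * l - 5) (by omega) with hS
  have efo : Form.pull (fun p : Pr e D => foot p.v) G.map_foot Om =
      Form.pull Pr.v map_v (fo Om) :=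
    (H584.pull_pull (k := fun p : Pr e D => foot p.v) map_v map_foot G.map_foot (fun _ => rfl) Om).symm
  have efb : Form.pull (fun p : Pr e D => bar e D p.v) G.map_bar Om =
      Form.pull Pr.v map_v (fb G.F D Om) :=
    (H584.pull_pull (k := fun p : Pr e D => bar e D p.v) map_v (map_bar G.F D) G.map_bar
      (fun _ => rfl) Om).symm
  rw [efo] at eXf
  rw [efb] at eXb
  have e₀ : (m1 G Xf : Form (dVV e D)) = κ⁻¹ • p₀ e D (P1 (fo Om)) := by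
    rw [p₀_P1, ← map_smul]
    exact congrArg (p₁ e D) eXf
  have e₁ : (m1 G Xb : Form (dVV e D)) = κ⁻¹ • p₀ e D (P1 (fb G.F D Om)) := by
    rw [p₀_P1, ← map_smul]
    exact congrArg (p₁ e D) eXb
  have e₂ : (m2 G Xb : Form (dVV e D)) = κ⁻¹ • p₀ e D (P2 (fb G.F D Om)) := by
    rw [p₀_P2, ← map_smul]
    exact congrArg (p₂ e D) eXb
  have inv : ∀ {x : Bas2 (R1 G.R) (R2 G.R) (mapR1 G) (mapR2 G)} {y : Form (dVV e D)},
      (x : Form (dVV e D)) = κ⁻¹ • y → y.sg = y ∧ Basic (R1 G.R) (mapR1 G) y ∧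
        Basic (R2 G.R) (mapR2 G) y := by
    intro x y h
    have h1 : y = κ • (x : Form (dVV e D)) := by
      rw [h, smul_smul, mul_inv_cancel₀ hκ, one_smul]
    rw [h1]
    exact ⟨by rw [Form.sg_smul, x.2.1], H584.Basic.smul κ x.2.2.2.1, H584.Basic.smul κ x.2.2.2.2⟩
  have j1 := J1_bz (Om := Om) G
  have j2 := J2_bz (Om := Om) G
  have oB : ∀ {f : Form (dUT E M) →ₐ[ℝ] Form (dU2 E M)},
      (∀ a, (f a).sg = f a.sg) → (p₀ e D (f (bz G.F D Om))).sg = -p₀ e D (f (bz G.F D Om)) := by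
    intro f hf
    have h1 : (p₀ e D (f (bz G.F D Om))).sg = p₀ e D (f (bz G.F D Om)).sg :=
      (Form.pull_sg (pp Pr.v) map_ppv _).symm
    rw [h1, hf, hp.o, map_neg, map_neg]
  have hbe : (bb G Om).sg = bb G Om := by
    have h1 : (Form.pull Pr.v map_v (bz G.F D Om) : Form (dPr e D)).sg =
        -Form.pull Pr.v map_v (bz G.F D Om) := by
      rw [← Form.pull_sg, hp.o]
      exact map_neg (Form.pullA Pr.v map_v) _
    change (J G.R G.map_R (2 * Real.pi) (Form.pull Pr.v map_v (bz G.F D Om))).sg =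
      J G.R G.map_R (2 * Real.pi) (Form.pull Pr.v map_v (bz G.F D Om))
    rw [H584.J_def, H584.KT_sg, ← Form.pull_sg, h1]
    have h2 := map_neg (Form.pullA G.R G.map_R) (Form.pull Pr.v map_v (bz G.F D Om))
    change Form.pull G.R G.map_R _ = -Form.pull G.R G.map_R _ at h2
    rw [h2, H584.KT_neg, neg_neg]
  have hW : ∀ i j q : ℕ, p₀ e D (P1 (fo Om)) ^ i * p₀ e D (P1 (fb G.F D Om)) ^ j *
      p₀ e D (P2 (fb G.F D Om)) ^ q = p₀ e D (W0 G.F D Om i j q) := fun i j q => by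
    rw [W0, map_mul, map_mul, map_pow, map_pow, map_pow]
  have hz₁ : (m1 G Zb : Form (dVV e D)) = κ⁻¹ • J (R1 G.R) (fl1 G).map (2 * Real.pi)
      (p₀ e D (P1 (bz G.F D Om))) := by
    rw [j1, ← map_smul]
    exact congrArg (p₁ e D) eZ
  have hz₂ : (m2 G Zb : Form (dVV e D)) = κ⁻¹ • J (R2 G.R) (fl2 G).map (2 * Real.pi)
      (p₀ e D (P2 (bz G.F D Om))) := by
    rw [j2, ← map_smul]
    exact congrArg (p₂ e D) eZ
  have hv := S.valz (n := n) (κ := κ)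
    (A := s * s * AA X v0 b hr hDR G.F Om n (n - 1) (n - 1))
    (X₀ := m1 G Xf) (X₁ := m1 G Xb) (X₂ := m2 G Xb)
    (Z₁ := m1 G Zb) (Z₂ := m2 G Zb) (B₁ := p₀ e D (P1 (bz G.F D Om)))
    (B₂ := p₀ e D (P2 (bz G.F D Om))) e₀ e₁ e₂ (inv e₀).1 (inv e₁).1 (inv e₂).1 (inv e₀).2
    (inv e₁).2 (inv e₂).2 (oB P1_sg) (oB fun a =>
      (Form.pull_sg Prod.snd (map_p2 (dB := dUT E M) (f := foot)) a).symm)
    (by
      rw [p₀_P1]
      exact H584.basic_pull (D := dVV e D) (D' := dPr e D) (f := Prod.fst) map_p1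
        (fun _ _ => rfl) _)
    (by
      rw [p₀_P2]
      exact H584.basic_pull (D := dVV e D) (D' := dPr e D) (f := Prod.snd) map_p2
        (fun _ _ => rfl) _) hz₁ hz₂
    (by
      rw [j1]
      exact H584.basic_pull (D := dVV e D) (D' := dPr e D) (f := Prod.fst) map_p1
        (fun _ _ => rfl) _)
    (by
      rw [j2]
      exact H584.basic_pull (D := dVV e D) (D' := dPr e D) (f := Prod.snd) map_p2
        (fun _ _ => rfl) _)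
    (fun i j q => by
      rw [hW, j1, j2, ← mul_assoc, ← map_mul, IV_v3 G hb hl X v0 b hr hDR hbe hs,
        II2_AA G X v0 b hr hDR hd hev hOd hOn, AA_eq X v0 b hr hDR G.F G.hD G.hB G.hdiam hP hd hev htwo
          hE hrad hOd hOn hn i j q]
      ring)
  refine ⟨_, S.L, ?_, hv⟩
  have hpi : (2 * Real.pi) ≠ 0 := Real.two_pi_pos.ne'
  exact mul_ne_zero (pow_ne_zero _ (inv_ne_zero hκ)) (mul_ne_zero (pow_ne_zero _ (inv_ne_zero hκ))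
    (mul_ne_zero hpi (mul_ne_zero hpi (mul_ne_zero (mul_ne_zero hs0 hs0) hAA))))

end Values

variable {K' m n : ℕ} (G : Geo e D (2 * m + 1)) (hE : finrank ℝ E = (2 * m + 2) * n) {p : M}
  {Pi : TangentSpace 𝓘(ℝ, E) p → TangentSpace 𝓘(ℝ, E) p →L[ℝ] TangentSpace 𝓘(ℝ, E) p}
  {o : TangentSpace 𝓘(ℝ, E) p → Fm.Lam (TangentSpace 𝓘(ℝ, E) p)}
  {ρ : TangentSpace 𝓘(ℝ, E) p → ℝ} {r₀ : ℝ}
  (hJ : FE.LineP e D p m Pi o) (hρ : WE.Rho e D p ρ r₀) {a : ℝ} (ha : a ≠ 0)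

include hE ha in
/-- **the values of the functional for the closed form `F`** -/
theorem valz_FF (hm : 1 ≤ m) (hn : 2 ≤ n) (P : PF E M K') {κ : ℝ} (hκ : κ ≠ 0)
    {Xf Xb Zb : H584.Bas G.R G.map_R}
    (eXf : (Xf : Form (dPr e D)) =
      κ⁻¹ • Form.pull (fun p => foot p.v) G.map_foot (FG G hJ hρ a))
    (eXb : (Xb : Form (dPr e D)) =
      κ⁻¹ • Form.pull (fun p => bar e D p.v) G.map_bar (FG G hJ hρ a))
    (eZ : (Zb : Form (dPr e D)) = κ⁻¹ • L3.b0P G.F G.hD G.hB G.hdiam (FG G hJ hρ a)) :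
    ∃ (κ' : ℝ) (Φ : HV2 G →ₗ[ℝ] ℝ), κ' ≠ 0 ∧ Val n κ' (Q1 G (qm G.R G.map_R Xf))
      (Q1 G (qm G.R G.map_R Xb)) (Q2 G (qm G.R G.map_R Xb)) (Q1 G (qm G.R G.map_R Zb))
      (Q2 G (qm G.R G.map_R Zb)) Φ := by
  have hE2 : 2 ≤ finrank ℝ E := by
    rw [hE]
    nlinarith
  have hnt : Nontrivial E := nontrivial_of_finrank_pos (R := ℝ) (by omega)
  have hNZ : NeZero (2 * m + 1) := ⟨by omega⟩
  obtain ⟨v0, -⟩ := S2II.exists_foot (E := E) p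
  obtain ⟨X⟩ := nonempty_fr G.F G.hD G.hB p (D + 1)
  obtain ⟨r, K, hr, hrad⟩ := exists_radCut (V := Eu E)
  have hDR : D < D + 1 := lt_add_one D
  let b : OrthonormalBasis (Fin (finrank ℝ E)) ℝ (Eu E) :=
    (stdOrthonormalBasis ℝ (Eu E)).reindex (finCongr (by
      rw [finrank_euclideanSpace, Fintype.card_fin]))
  have hd := FE.FF_d G.F G.hD G.hB G.hdiam (Geo.hl G) hJ hρ a
  have hOd : Form.IsDeg (2 * m + 2) (FG G hJ hρ a) :=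
    S2II.isDeg_FF G.F G.hD G.hB G.hdiam (Geo.hl G) hJ hρ a
  have hOn : FG G hJ hρ a ^ (n + 1) = 0 := by
    have h1 : WA.DimLE (dM E M) (finrank ℝ E) := L.dimLE_bridge (WF.dimLE_M E M rfl)
    refine h1.pow_eq_zero (j := 2 * m + 2) ?_ hOd
    rw [hE]
    nlinarith
  have hP : ∀ x y : M, dist x y = D → 2 ≤ finrank ℝ (H775.Pl e D x y) := fun x y h => by
    rw [G.hP x y h]
    omega
  have hev : Even (2 * m + 2) := ⟨m + 1, by ring⟩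
  have hAA : AA X v0 b.toBasis hr hDR G.F (FG G hJ hρ a) n (n - 1) (n - 1) ≠ 0 := by
    rw [AA_val X v0 b.toBasis hr hDR G.F G.hD G.hB G.hdiam hP hd hev (by omega) hE hrad hOd hOn
      (by omega) (FE.FF_deg G.F G.hD G.hB G.hdiam (Geo.hl G) hJ hρ a) (FE.ang_PsiE hJ.os a)
      (WQ.cut_rho hρ) (WQ.closedBall_sub hρ)
      (fun x hx => FE.FF_ef G.F G.hD G.hB G.hdiam (Geo.hl G) hJ hρ a hx)
      (fun y hy => FE.B0_cc G.F G.hD G.hB G.hdiam (Geo.hl G) hJ hρ a (G.hD.trans hDR) X v0 hy)]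
    exact neg_ne_zero.2 (pow_ne_zero _ (FE.q_le hJ.os ha hm (by omega) hE b hr).2)
  exact exists_valz G (S2II.orn_b0P G.F G.hD G.hB G.hdiam hE2 (Geo.hl G) hJ hρ ha) ⟨m, rfl⟩ X v0
    b.toBasis hr hDR hd hev (by omega) hE hrad hOd hOn hn (by omega)
    (s := 2 * S2II.kappa m a) (mul_ne_zero two_ne_zero (S2II.kappa_pos (n := m) ha).ne')
    (S2II.SL_b0P G.F G.hD G.hB G.hdiam hE2 (Geo.hl G) hJ hρ ha) hAA (nu_R G P) (isDeg_nu P)
    hκ eXf eXb eZ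

end

end Vale.Agent.P231.S2T
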