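import Vale.Agent.P231Z.D.Defs
import Vale.Agent.P231Z.D.Val2a

/-!
# P231 (D), block D4b: the fibre product `V ×_M V` for general `l`
-/

set_option maxSynthPendingDepth 3
set_option linter.unusedSectionVars false
set_option linter.unusedVariables false

open Bundle Manifold Set Filter Module MeasureTheory
open scoped ContDiff Manifold Topology ENNReal Real

namespace Vale.Agent.P231Z.D

noncomputable section

open Vale.Agent.P234 Vale.Agent.P231 Vale.Agent.P231.Fm Vale.Agent.P231.W Vale.Agent.P231.WR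
  Vale.Agent.P231.H766 Vale.Agent.P231.WG Vale.Agent.P231.S2II Vale.Agent.P231.WQ
open Vale.Agent.P231.X3 Vale.Agent.P231.ChW

namespace V2

section Alg

variable {H H' : Type*} [CommRing H] [Algebra ℝ H] [CommRing H'] [Algebra ℝ H']

theorem hom_tg (f : H →ₐ[ℝ] H') (r : ℕ) (t : ℕ → ℝ) (x : H) (j : ℕ) :
    f (tg r t x j) = tg r t (f x) j := by
  rw [tg, tg]
  split_ifs with h
  · rw [map_smul, map_pow]
  · exact map_zero f

theorem hom_cP (f : H →ₐ[ℝ] H') (r : ℕ) (b q : ℝ) (x y : H) (j : ℕ) :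
    f (cP r b q x y j) = cP r b q (f x) (f y) j := by
  rw [cP, cP]
  split_ifs with h1 h2 h3
  · exact map_one f
  · rw [map_neg, map_smul, map_add]
  · rw [map_smul, map_pow, map_sub]
  · exact map_zero f

theorem newton_cP (f : H →ₐ[ℝ] H') {r : ℕ} {b q : ℝ} {x y : H} {s : ℕ → H}
    (h : NewtonRec ℝ s (cP r b q x y)) :
    NewtonRec ℝ (fun j => f (s j)) (cP r b q (f x) (f y)) := by
  have h1 := h.map f
  have h2 : (fun i => f (cP r b q x y i)) = cP r b q (f x) (f y) :=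
    funext fun j => hom_cP f r b q x y j
  rwa [h2] at h1

end Alg

variable {E : Type*} [NormedAddCommGroup E] [NormedSpace ℝ E]
  {M : Type*} [MetricSpace M] [ChartedSpace E M]
  [RiemannianBundle (fun x : M => TangentSpace 𝓘(ℝ, E) x)]
  {e : ∀ x : M, TangentSpace 𝓘(ℝ, E) x → M}
  [FiniteDimensional ℝ E] [IsManifold 𝓘(ℝ, E) ∞ M]
  [IsContMDiffRiemannianBundle 𝓘(ℝ, E) ∞ E (fun x : M => TangentSpace 𝓘(ℝ, E) x)]
  [CompactSpace M] [ConnectedSpace M] [IsRiemannianManifold 𝓘(ℝ, E) M]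
  {D : ℝ} {m k K : ℕ}

/-- cohomologous forms have the same class at the foot -/
theorem xf_eq {l : ℕ} (G : X3.Geo e D l) {Om w η : Form (dM E M)} (hO : Om.d = 0)
    (hOe : Om.sg = Om) (hw : w.d = 0) (hwe : w.sg = w) {c : ℝ} {j : ℕ}
    (h : w = c • Om ^ j + η.d) : S2T.xf G hw hwe = c • S2T.xf G hO hOe ^ j := by
  rw [S2T.xf, S2T.xf, ← map_pow]
  refine Eq.trans ?_ (AlgHom.map_smul_of_tower _ _ _)
  refine ChW.qm_eq_of (η := Form.pull (fun p : Pr e D => foot p.v) G.map_foot η)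
    (H584.basic_pull G.map_foot G.foot_R η) ?_
  change Form.pull (fun p : Pr e D => foot p.v) G.map_foot w -
    c • (Form.pull (fun p : Pr e D => foot p.v) G.map_foot Om) ^ j = _
  have h3 := map_add (Form.pullA (fun p : Pr e D => foot p.v) G.map_foot) (c • Om ^ j) η.d
  rw [map_smul, map_pow, ← h] at h3
  refine (congrArg (fun u => u - c • (Form.pull (fun p : Pr e D => foot p.v) G.map_foot Om) ^ j)
    h3).trans ?_
  change c • (Form.pull (fun p : Pr e D => foot p.v) G.map_foot Om) ^ j +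
    Form.pull (fun p : Pr e D => foot p.v) G.map_foot η.d - _ = _
  rw [add_sub_cancel_left, Form.pull_d]

theorem T2_bT {l : ℕ} (G : X3.Geo e D l) (P : PF E M K) (j : ℕ) :
    S2T.T2 G ((S2T.fm G).qm ((S2T.bT G P).cl j)) = S2T.Q1 G (T0 G P j) := by
  refine S2T.T2_Q1 G ?_
  rw [S2T.bT_cl]
  exact (H584.pull_pull S2T.map_p1 G.map_foot _ (fun _ => rfl) (S2T.tcl P j)).symm

variable (G : X3.Geo e D (2 * m + 1)) (P : PF E M K) {p : M}
  {Pi : TangentSpace 𝓘(ℝ, E) p → TangentSpace 𝓘(ℝ, E) p →L[ℝ] TangentSpace 𝓘(ℝ, E) p}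
  {o : TangentSpace 𝓘(ℝ, E) p → Fm.Lam (TangentSpace 𝓘(ℝ, E) p)}
  {ρ : TangentSpace 𝓘(ℝ, E) p → ℝ} {r₀ : ℝ}
  (hJ : FE.LineP e D p m Pi o) (hρ : WE.Rho e D p ρ r₀)

/-- the classes of the tangent bundle at the foot -/
theorem exists_t (hm : 1 ≤ m) (hk : 1 ≤ k) (hE : finrank ℝ E = (2 * m + 2) * k) :
    ∃ t : ℕ → ℝ, ∀ j, 1 ≤ j → T0 G P j = tg (m + 1) t (x0 G hJ hρ) j := by
  have hE1 : 1 < finrank ℝ E := by
    rw [hE]
    nlinarith
  have hgen : CoC.Gen (dM E M) (Om G hJ hρ) (2 * m + 2) (finrank ℝ E - 1) :=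
    CoC.gen_FF G.F G.hD G.hB G.hdiam (S2T.Geo.hl G) hJ hρ 1 hE1 one_ne_zero
  have hne : ∀ Γ : Form (dM E M), Om G hJ hρ ^ k ≠ Γ.d :=
    S2T.FG_pow_ne G hJ hρ 1 one_ne_zero hm hk hE
  have hdim : WA.DimLE (dM E M) ((2 * m + 2) * k) := S2T.dimLE_M' (E := E) (M := M) hE
  have key : ∀ a : ℕ, ∃ c : ℝ, 1 ≤ a → ∃ η : Form (dM E M),
      S2T.tcl P ((m + 1) * a) = c • Om G hJ hρ ^ a + η.d := by
    intro a
    have h3 := S2T.isDeg_tcl P ((m + 1) * a)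
    have h4 : 2 * ((m + 1) * a) = (2 * m + 2) * a := by ring
    rw [h4] at h3
    by_cases h1 : 1 ≤ a
    · by_cases h2 : a ≤ k
      · obtain ⟨c, Γ, hc⟩ := CoC.gen_all G.F G.hD G.hB G.hdiam G.hP (m := 2 * m + 2) (n := k)
          (by omega) hE (Om_d G hJ hρ) (Om_deg G hJ hρ) hgen hne h1 h2
          (w := S2T.tcl P ((m + 1) * a)) (S2T.tcl_d P _) h3
        exact ⟨c, fun _ => ⟨Γ, hc⟩⟩
      · refine ⟨0, fun _ => ⟨0, ?_⟩⟩
        rw [zero_smul, Form.d_zero, add_zero]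
        exact WA.DimLE.isDeg_eq_zero hdim (k := (2 * m + 2) * a)
          (Nat.mul_lt_mul_of_pos_left (by omega) (by omega)) h3
    · exact ⟨0, fun h2 => absurd h2 h1⟩
  choose t ht using key
  refine ⟨t, fun j hj => ?_⟩
  rw [tg]
  split_ifs with h
  · obtain ⟨a, rfl⟩ := h
    have ha : 1 ≤ a := by
      rcases Nat.eq_zero_or_pos a with rfl | h
      · omega
      · exact h
    obtain ⟨η, hη⟩ := ht a ha
    rw [Nat.mul_div_cancel_left _ (by omega : 0 < m + 1)]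
    exact xf_eq G _ _ _ _ hη
  · have h5 : ∃ η : Form (dM E M), S2T.tcl P j = (0 : ℝ) • Om G hJ hρ ^ 0 + η.d := by
      by_cases h1 : 2 * j < finrank ℝ E - 1
      · obtain ⟨c, Γ, hc, hc0⟩ := hgen (2 * j) (S2T.tcl P j) h1 (S2T.tcl_d P j)
          (S2T.isDeg_tcl P j)
        have h2 : c = 0 := by
          refine hc0 fun h3 => h ?_
          obtain ⟨a, ha⟩ := h3
          refine ⟨a, ?_⟩
          have h4 : 2 * j = 2 * ((m + 1) * a) := by rw [ha]; ring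
          omega
        refine ⟨Γ, ?_⟩
        rw [hc, h2, zero_smul, zero_smul]
      · refine ⟨0, ?_⟩
        rw [zero_smul, Form.d_zero, add_zero]
        refine WA.DimLE.isDeg_eq_zero hdim (k := 2 * j) ?_ (S2T.isDeg_tcl P j)
        have h4 : (2 * m + 2) * k = 2 * ((m + 1) * k) := by ring
        have h6 : j ≠ (m + 1) * k := fun h7 => h ⟨k, h7⟩
        omega
    obtain ⟨η, hη⟩ := h5
    rw [T0, xf_eq G (Om_d G hJ hρ) (Om_sg G hJ hρ) _ _ hη, zero_smul]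

end V2

variable {E : Type*} [NormedAddCommGroup E] [NormedSpace ℝ E]
  {M : Type*} [MetricSpace M] [ChartedSpace E M]
  [RiemannianBundle (fun x : M => TangentSpace 𝓘(ℝ, E) x)]
  {e : ∀ x : M, TangentSpace 𝓘(ℝ, E) x → M}
  [FiniteDimensional ℝ E] [IsManifold 𝓘(ℝ, E) ∞ M]
  [IsContMDiffRiemannianBundle 𝓘(ℝ, E) ∞ E (fun x : M => TangentSpace 𝓘(ℝ, E) x)]
  [CompactSpace M] [ConnectedSpace M] [IsRiemannianManifold 𝓘(ℝ, E) M]
  {D : ℝ} {m k K : ℕ}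

variable (G : X3.Geo e D (2 * m + 1)) (P : PF E M K) {p : M}
  {Pi : TangentSpace 𝓘(ℝ, E) p → TangentSpace 𝓘(ℝ, E) p →L[ℝ] TangentSpace 𝓘(ℝ, E) p}
  {o : TangentSpace 𝓘(ℝ, E) p → Fm.Lam (TangentSpace 𝓘(ℝ, E) p)}
  {ρ : TangentSpace 𝓘(ℝ, E) p → ℝ} {r₀ : ℝ}
  (hJ : FE.LineP e D p m Pi o) (hρ : WE.Rho e D p ρ r₀)

/-- D4b: the relations in the ring of the fibre product -/
theorem exists_tg (hm : 1 ≤ m) (hk : 2 ≤ k) (hE : finrank ℝ E = (2 * m + 2) * k) {b q : ℝ}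
    (hπ : NewtonRec ℝ (pi G P) (cP (m + 1) b q (x0 G hJ hρ) (x1 G hJ hρ))) :
    ∃ (t : ℕ → ℝ) (g : ℕ → S2T.HV2 G) (κ : ℝ) (L : S2T.HV2 G →ₗ[ℝ] ℝ),
      (∀ j, 1 ≤ j → T0 G P (2 * j) = tg (m + 1) t (x0 G hJ hρ) (2 * j)) ∧
      Tg k (m + 1) b q (S2T.Q1 G (x0 G hJ hρ)) (S2T.Q1 G (x1 G hJ hρ)) (S2T.Q2 G (x1 G hJ hρ)) t
        (fun j => S2T.Q1 G (T0 G P j)) (fun j => S2T.Q1 G (pi G P j))
        (fun j => S2T.Q2 G (pi G P j)) g ∧ κ ≠ 0 ∧
      S2T.Val k κ (S2T.Q1 G (x0 G hJ hρ)) (S2T.Q1 G (x1 G hJ hρ)) (S2T.Q2 G (x1 G hJ hρ))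
        (S2T.Q1 G (zz G hJ hρ)) (S2T.Q2 G (zz G hJ hρ)) L := by
  obtain ⟨t, ht⟩ := V2.exists_t G P hJ hρ hm (by omega) hE
  obtain ⟨κ, L, hκ, hV⟩ := S2T.valz_FF G hE hJ hρ one_ne_zero hm hk P (κ := 1) one_ne_zero
    (Xf := S2T.invB G G.map_foot G.foot_R (Om_d G hJ hρ) (Om_sg G hJ hρ))
    (Xb := S2T.invB G G.map_bar G.bar_R (Om_d G hJ hρ) (Om_sg G hJ hρ)) (Zb := zB G hJ hρ)
    (by rw [inv_one, one_smul]; rfl) (by rw [inv_one, one_smul]; rfl)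
    (by rw [inv_one, one_smul]; rfl)
  refine ⟨t, fun j => S2T.T2 G ((S2T.fm G).qm (S2T.CC G P j)), κ, L,
    fun j hj => ht _ (by omega), ⟨S2T.map_nil _ (x1_pow G hJ hρ hE),
      S2T.map_nil _ (x1_pow G hJ hρ hE), V2.newton_cP (S2T.Q1 G) hπ, ?_, fun j hj => ?_,
      fun j hj => ?_, ?_, fun j hj => ?_⟩, hκ, hV⟩
  · have h1 := V2.newton_cP (S2T.Q2 G) hπ
    have h2 : S2T.Q2 G (x0 G hJ hρ) = S2T.Q1 G (x0 G hJ hρ) :=
      (S2T.Q1_xf G (Om_d G hJ hρ) (Om_sg G hJ hρ)).symm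
    rwa [h2] at h1
  · change S2T.Q1 G (T0 G P (2 * j)) = _
    rw [ht _ (by omega), V2.hom_tg]
  · change S2T.Q1 G (T0 G P j) = 0
    rw [← V2.T2_bT, S2T.cl_odd_cR (S2T.bT G P) hj, map_zero, map_zero]
  · have h0 := newtE_spec (K := ℝ) fun i =>
      (S2T.bT G P).cl i - (S2T.bP G P).cl i - (S2T.bQ G P).cl i
    have h1 := (h0.map (S2T.fm G).qm).map (S2T.T2 G)
    have h2 : (fun i => S2T.T2 G ((S2T.fm G).qm
        ((S2T.bT G P).cl i - (S2T.bP G P).cl i - (S2T.bQ G P).cl i))) =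
        fun j => S2T.Q1 G (T0 G P j) - S2T.Q1 G (pi G P j) - S2T.Q2 G (pi G P j) := by
      funext i
      rw [map_sub, map_sub, map_sub, map_sub, S2T.T2_bP, S2T.T2_bQ, V2.T2_bT]
      rfl
    rw [h2] at h1
    exact h1
  · obtain ⟨k', rfl⟩ : ∃ k', k = k' + 2 := ⟨k - 2, by omega⟩
    refine S2T.gg_rel G P (Om_d G hJ hρ) (Om_sg G hJ hρ) (r := (2 * m + 2) * k') (k := j) ?_ ?_
    · rw [hE]
      ring
    · have h1 : 2 * (m + 1) * (k' + 2) = (2 * m + 2) * k' + 4 * (m + 1) := by ring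
      omega

end

end Vale.Agent.P231Z.D
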