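import Vale.Agent.P231Z.D.Num
import Vale.Agent.P231Z.D.Plane
import Vale.Agent.P231Z.D.Tangent
import Vale.Agent.P231Z.D.TopE
import Vale.Agent.P231Z.D.TopZ
import Vale.Agent.P231Z.D.Odd
import Vale.Agent.P231Z.D.CohZ
import Vale.Agent.P231Z.D.Sq
import Vale.Agent.P231Z.D.Bun
import Vale.Agent.P231Z.D.Val
import Vale.Agent.P231Z.D.Val2
import Vale.Agent.P231Z.D.Sec
import Vale.Agent.P231Z.D.Gys
import Vale.Agent.P231Z.Fin.MainOf

/-!
# P231: the possible multiplicities of the cut points of a Blaschke manifold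
-/

set_option maxSynthPendingDepth 3
set_option linter.unusedSectionVars false
set_option linter.unusedVariables false

open Bundle Manifold Set Filter Module MeasureTheory
open scoped ContDiff Manifold Topology ENNReal Real

namespace Vale.Agent.P231Z.D

noncomputable section

open Vale.Agent.P234 Vale.Agent.P231 Vale.Agent.P231.Fm Vale.Agent.P231.W Vale.Agent.P231.WR
  Vale.Agent.P231.H766 Vale.Agent.P231.WG Vale.Agent.P231.S2II Vale.Agent.P231.WQ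
open Vale.Agent.P231.X3 Vale.Agent.P231.ChW

section Alg

variable {H : Type*} [CommRing H] [Algebra ℝ H]

theorem map_tg {H' : Type*} [CommRing H'] [Algebra ℝ H'] (f : H →ₐ[ℝ] H') (r : ℕ) (t : ℕ → ℝ)
    (x : H) (j : ℕ) : f (tg r t x j) = tg r t (f x) j := by
  rw [tg, tg]
  split_ifs with h
  · rw [map_smul, map_pow]
  · exact map_zero f

end Alg

variable {E : Type*} [NormedAddCommGroup E] [NormedSpace ℝ E]
  {M : Type*} [MetricSpace M] [ChartedSpace E M]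
  [RiemannianBundle (fun x : M => TangentSpace 𝓘(ℝ, E) x)]
  {e : ∀ x : M, TangentSpace 𝓘(ℝ, E) x → M}
  [FiniteDimensional ℝ E] [IsManifold 𝓘(ℝ, E) ∞ M]
  [IsContMDiffRiemannianBundle 𝓘(ℝ, E) ∞ E (fun x : M => TangentSpace 𝓘(ℝ, E) x)]
  [CompactSpace M] [ConnectedSpace M] [IsRiemannianManifold 𝓘(ℝ, E) M]
  {D : ℝ} {m k K : ℕ}

section Geo

variable {p : M}
  {Pi : TangentSpace 𝓘(ℝ, E) p → TangentSpace 𝓘(ℝ, E) p →L[ℝ] TangentSpace 𝓘(ℝ, E) p}
  {o : TangentSpace 𝓘(ℝ, E) p → Fm.Lam (TangentSpace 𝓘(ℝ, E) p)}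
  {ρ : TangentSpace 𝓘(ℝ, E) p → ℝ} {r₀ : ℝ}

/-- **odd multiplicities at least five**: the Cayley plane -/
theorem classify (hm : 2 ≤ m) (hk : 2 ≤ k) (hE : finrank ℝ E = (2 * m + 2) * k)
    (G : X3.Geo e D (2 * m + 1)) (hJ : FE.LineP e D p m Pi o) (hρ : WE.Rho e D p ρ r₀) :
    k = 2 ∧ m = 3 := by
  obtain ⟨K, ⟨P⟩⟩ := X3.exists_pf (E := E) (M := M)
  obtain ⟨Φ, κ, c, hκ, hc, v1, v2, v3⟩ := exists_phi G P hJ hρ hm hk hE
  have hc0 : c ≠ 0 := by
    rintro rfl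
    rw [mul_zero] at hc
    exact lt_irrefl _ hc
  have B : Base k κ (x0 G hJ hρ) (x1 G hJ hρ) (tt G P) (zz G hJ hρ) Φ :=
    ⟨tt_zz G P hJ hρ, x0_pow G hJ hρ hE, x1_pow G hJ hρ hE, hs_zero G hJ hρ (by omega) (by omega) hE,
      hκ, v1⟩
  have hE' : finrank ℝ E = 2 * m + 1 + 1 + 2 * ((m + 1) * (k - 1)) := by
    obtain ⟨k', rfl⟩ : ∃ k', k = k' + 1 := ⟨k - 1, by omega⟩
    rw [hE, Nat.add_sub_cancel]
    ring
  obtain ⟨b1, b2, b3, b4, b5, b6, b7, b8⟩ := bun_rel G P (by omega) hE'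
  obtain ⟨c1, c2, c3⟩ := cp_span G P hJ hρ (by omega) hk hE
  have PL : Pl k (m + 1) κ c (x0 G hJ hρ) (x1 G hJ hρ) (tt G P) Φ (th G) (pi G P) (cp G P)
      (sg G P) (cq G P) :=
    ⟨v2, v3, th_tt G P, th_x0 G hJ hρ, th_x1 G hJ hρ, newtE_spec _, newtE_spec _,
      fun j hj => b1 j (by omega), b2, b3, c1, c2, c3⟩
  obtain ⟨b, hb, hπ, hθ⟩ := plane hk (by omega) hc0 B PL
  obtain ⟨t, g, κ', L, ht, TG, hκ', V⟩ := exists_tg G P hJ hρ (by omega) hk hE hπ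
  have hq : -c ≠ 0 := neg_ne_zero.2 hc0
  have hp := ps_pw b (-c)
  have hcs := cs_cw k b (pw b (-c))
  have htv : ∀ {x : HH G}, x ^ (k + 1) = 0 → ∀ j, 1 ≤ j →
      tg (m + 1) t x (2 * j) = tg (m + 1) (tv k (m + 1) b (pw b (-c))) x (2 * j) := by
    intro x hx j hj
    rw [tg, tg]
    split_ifs with h
    · obtain ⟨a, ha⟩ := h
      have h1 : 2 * j / (m + 1) = a := by rw [ha, Nat.mul_div_cancel_left _ (by omega)]
      rw [h1]
      by_cases hak : a ≤ k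
      · have ha1 : 1 ≤ a := by
          rcases Nat.eq_zero_or_pos a with rfl | h
          · omega
          · exact h
        rw [tangent hk (by omega) hq hb hp TG hκ' V ha1 hak (ha ▸ even_two_mul j)]
      · rw [pow_eq_zero_of_le (show k + 1 ≤ a by omega) hx, smul_zero, smul_zero]
    · rfl
  have hT1 : ∀ j, 1 ≤ j → T1 G P (2 * j) = tg (m + 1) t (x1 G hJ hρ) (2 * j) := by
    intro j hj
    rw [← th_T0, ht j hj, map_tg, th_x0]
  obtain ⟨z1, z2⟩ := zz_sq G P hJ hρ hm hk hE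
  obtain ⟨w, hw⟩ : ∃ w : H584.Bas G.R G.map_R, qm G.R G.map_R w =
      (x0 G hJ hρ - x1 G hJ hρ) * cW G P ((m + 1) * (k - 1)) := Ideal.Quotient.mk_surjective _
  obtain ⟨η, hη, hR, hηb⟩ := exact_sec G P hE' (Nat.mul_pos (by omega) (by omega))
    (Om_d G hJ hρ) (Om_sg G hJ hρ) hw
  have h2 : 2 ≤ finrank ℝ E := by omega
  have g5 := mul_eq_zero_of_exact G (by omega) h2 (Om_d G hJ hρ) (Om_sg G hJ hρ)
    (Om_deg G hJ hρ) hη hηb
  rw [hw, ← mul_assoc] at g5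
  have R : Rel k (m + 1) b (-c) (pw b (-c)) (x0 G hJ hρ) (x1 G hJ hρ) (tt G P) (zz G hJ hρ)
      (pi G P) (ww G P) (ss G P) (cW G P) :=
    ⟨z1, fun h => z2 (by obtain ⟨i, hi⟩ := h; omega), hb, hπ, b4, b5,
      fun j hj => by rw [b6, ht j hj, htv (x0_pow G hJ hρ hE) j hj],
      fun j hj => by rw [b7, hT1 j hj, htv (x1_pow G hJ hρ hE) j hj, hθ _ (by omega)],
      newtE_spec _, b8, g5⟩
  have hpos : Even (m + 1) → 0 < -c := fun h => by
    have h1 : Odd m := by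
      obtain ⟨i, hi⟩ := h
      exact ⟨i - 1, by omega⟩
    rw [h1.neg_one_pow, neg_one_mul] at hc
    exact hc
  obtain ⟨h1, h3⟩ := num hk (show 3 ≤ m + 1 by omega) hq hp.p0 hp.p1 hp.ps hcs.c0 hcs.cs hb hpos
    (topE hk (by omega) hp hcs B R) (fun he => topZ hk (by omega) he hp hcs B R)
  exact ⟨h1, by omega⟩

end Geo

/-- **the possible multiplicities** -/
theorem cls : Fin.Cls e :=
  Fin.cls_of (fun h hn hlt _ => spread_even h hn hlt)
    (fun hm hk hE G hJ hρ => classify hm hk hE G hJ hρ)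

end

end Vale.Agent.P231Z.D
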