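import Vale.Agent.P231Z.D.Alg
import Mathlib.RingTheory.PowerSeries.Expand

/-!
# P231 (D): logarithmic derivatives, and the odd power sums modulo the annihilator of a test class
-/

set_option linter.unusedSectionVars false

namespace Vale.Agent.P231Z.D

open Finset PowerSeries Vale.Agent.P231 Vale.Agent.P231.ChW

noncomputable section

/-! ### logarithmic derivatives -/

section LG

variable {R R' : Type*} [CommRing R] [CommRing R']

/-- the Euler operator `X d/dX` -/
def eu (F : PowerSeries R) : PowerSeries R := X * d⁄dX R F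

theorem coeff_eu (F : PowerSeries R) (j : ℕ) : coeff j (eu F) = (j : R) * coeff j F := by
  cases j with
  | zero => rw [eu, coeff_zero_X_mul, Nat.cast_zero, zero_mul]
  | succ j =>
    rw [eu, coeff_succ_X_mul, coeff_derivative]
    push_cast
    ring

theorem eu_mul (F G : PowerSeries R) : eu (F * G) = eu F * G + F * eu G := by
  rw [eu, eu, eu, Derivation.leibniz, smul_eq_mul, smul_eq_mul]
  ring

theorem eu_add (F G : PowerSeries R) : eu (F + G) = eu F + eu G := by
  rw [eu, eu, eu, map_add, mul_add]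

theorem eu_sub (F G : PowerSeries R) : eu (F - G) = eu F - eu G := by
  rw [eu, eu, eu, map_sub, mul_sub]

theorem eu_C (a : R) : eu (C a : PowerSeries R) = 0 := by
  rw [eu, derivative_C, mul_zero]

theorem eu_one : eu (1 : PowerSeries R) = 0 := by
  rw [eu, derivative_one, mul_zero]

theorem eu_X : eu (X : PowerSeries R) = X := by
  rw [eu, derivative_X, mul_one]

theorem eu_C_mul (a : R) (F : PowerSeries R) : eu (C a * F) = C a * eu F := by
  rw [eu_mul, eu_C, zero_mul, zero_add]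

theorem eu_X_pow (n : ℕ) : eu ((X : PowerSeries R) ^ n) = (n : PowerSeries R) * X ^ n := by
  induction n with
  | zero => rw [pow_zero, eu_one, Nat.cast_zero, zero_mul]
  | succ n ih =>
    rw [pow_succ, eu_mul, ih, eu_X]
    push_cast
    ring

theorem eu_map (f : R →+* R') (F : PowerSeries R) :
    eu (PowerSeries.map f F) = PowerSeries.map f (eu F) := by
  ext j
  rw [coeff_eu, coeff_map, coeff_map, coeff_eu, map_mul, map_natCast]

theorem eu_rescale (a : R) (F : PowerSeries R) : eu (rescale a F) = rescale a (eu F) := by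
  ext j
  rw [coeff_eu, coeff_rescale, coeff_rescale, coeff_eu]
  ring

theorem eu_expand {r : ℕ} (hr : r ≠ 0) (F : PowerSeries R) :
    eu (expand r hr F) = (r : PowerSeries R) * expand r hr (eu F) := by
  ext j
  have h1 : ((r : ℕ) : PowerSeries R) = C (r : R) := (map_natCast C r).symm
  rw [h1, coeff_C_mul, coeff_eu]
  by_cases h : r ∣ j
  · obtain ⟨a, rfl⟩ := h
    rw [coeff_expand_mul, coeff_expand_mul, coeff_eu]
    push_cast
    ring
  · rw [coeff_expand_of_not_dvd _ _ _ h, coeff_expand_of_not_dvd _ _ _ h, mul_zero, mul_zero]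

/-- `A` is the logarithmic derivative of `F`: `X F' = F A` -/
def LG (F A : PowerSeries R) : Prop := eu F = F * A

theorem LG.congr {F A B : PowerSeries R} (h : LG F A) (e : A = B) : LG F B := e ▸ h

theorem LG.mul {F G A B : PowerSeries R} (h : LG F A) (h' : LG G B) : LG (F * G) (A + B) := by
  unfold LG at *
  rw [eu_mul, h, h']
  ring

theorem LG.one : LG (1 : PowerSeries R) 0 := by
  unfold LG
  rw [eu_one, mul_zero]

theorem LG.pow {F A : PowerSeries R} (h : LG F A) (n : ℕ) :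
    LG (F ^ n) ((n : PowerSeries R) * A) := by
  induction n with
  | zero => rw [pow_zero, Nat.cast_zero, zero_mul]; exact LG.one
  | succ n ih =>
    rw [pow_succ]
    refine (ih.mul h).congr ?_
    push_cast
    ring

theorem LG.map (f : R →+* R') {F A : PowerSeries R} (h : LG F A) :
    LG (PowerSeries.map f F) (PowerSeries.map f A) := by
  unfold LG at *
  rw [eu_map, h, map_mul]

theorem LG.rescale (a : R) {F A : PowerSeries R} (h : LG F A) :
    LG (rescale a F) (rescale a A) := by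
  unfold LG at *
  rw [eu_rescale, h, map_mul]

theorem LG.expand {r : ℕ} (hr : r ≠ 0) {F A : PowerSeries R} (h : LG F A) :
    LG (expand r hr F) ((r : PowerSeries R) * expand r hr A) := by
  unfold LG at *
  rw [eu_expand, h, map_mul]
  ring

theorem isUnit_of_coeff_zero {F : PowerSeries R} (h : coeff 0 F = 1) : IsUnit F := by
  rw [isUnit_iff_constantCoeff, ← coeff_zero_eq_constantCoeff_apply, h]
  exact isUnit_one

/-- the logarithmic derivative is determined by the series -/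
theorem LG.unique_log {F A B : PowerSeries R} (h : LG F A) (h' : LG F B) (h0 : coeff 0 F = 1) :
    A = B := by
  unfold LG at *
  exact (isUnit_of_coeff_zero h0).mul_left_cancel (h.symm.trans h')

end LG

section Real

variable {H H' : Type*} [CommRing H] [Algebra ℝ H] [CommRing H'] [Algebra ℝ H']

theorem natCast_mul_eq (j : ℕ) (y : H) : (j : H) * y = (j : ℝ) • y := by
  rw [Algebra.smul_def, map_natCast]

theorem smul_cancel {a : ℝ} (ha : a ≠ 0) {y y' : H} (h : a • y = a • y') : y = y' := by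
  have h1 := congrArg (fun v => a⁻¹ • v) h
  simpa only [smul_smul, inv_mul_cancel₀ ha, one_smul] using h1

/-- the series is determined by its logarithmic derivative -/
theorem LG.unique {F G A : PowerSeries H} (h : LG F A) (h' : LG G A) (h0 : coeff 0 A = 0)
    (hFG : coeff 0 F = coeff 0 G) : F = G := by
  ext k
  induction k using Nat.strong_induction_on with
  | _ k ih =>
    cases k with
    | zero => exact hFG
    | succ k =>
      have h1 := congrArg (coeff (k + 1)) h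
      have h2 := congrArg (coeff (k + 1)) h'
      rw [coeff_eu, coeff_mul, natCast_mul_eq] at h1 h2
      have h3 : ∑ p ∈ antidiagonal (k + 1), coeff p.1 F * coeff p.2 A =
          ∑ p ∈ antidiagonal (k + 1), coeff p.1 G * coeff p.2 A := by
        refine Finset.sum_congr rfl fun p hp => ?_
        rw [HasAntidiagonal.mem_antidiagonal] at hp
        rcases Nat.eq_zero_or_pos p.2 with h4 | h4
        · rw [h4, h0, mul_zero, mul_zero]
        · rw [ih p.1 (by omega)]
      rw [h3, ← h2] at h1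
      exact smul_cancel (by positivity) h1

/-- the series `∑_{j ≥ 1} (-1)^(j-1) s j X^j` -/
def ns (s : ℕ → H) : PowerSeries H :=
  PowerSeries.mk fun j => if j = 0 then 0 else -((-1 : ℝ) ^ j • s j)

theorem coeff_zero_ns (s : ℕ → H) : coeff 0 (ns s) = 0 := by
  rw [ns, coeff_mk, if_pos rfl]

theorem coeff_ns (s : ℕ → H) {j : ℕ} (hj : j ≠ 0) : coeff j (ns s) = -((-1 : ℝ) ^ j • s j) := by
  rw [ns, coeff_mk, if_neg hj]

theorem coeff_ns_even (s : ℕ → H) {j : ℕ} (hj : j ≠ 0) (he : Even j) : coeff j (ns s) = -s j := by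
  rw [coeff_ns s hj, he.neg_one_pow, one_smul]

theorem coeff_ns_odd (s : ℕ → H) {j : ℕ} (ho : Odd j) : coeff j (ns s) = s j := by
  rw [coeff_ns s ho.pos.ne', ho.neg_one_pow, neg_smul, one_smul, neg_neg]

theorem coeff_mk_mul (e : ℕ → H) {A : PowerSeries H} (h0 : coeff 0 A = 0) (j : ℕ) :
    coeff (j + 1) (PowerSeries.mk e * A) = ∑ i ∈ range (j + 1), coeff (i + 1) A * e (j - i) := by
  rw [mul_comm, coeff_mul, Finset.Nat.sum_antidiagonal_eq_sum_range_succ_mk, sum_range_succ',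
    h0, zero_mul, add_zero]
  refine Finset.sum_congr rfl fun i _ => ?_
  rw [coeff_mk, Nat.add_sub_add_right]

/-- a recursion as a logarithmic derivative -/
theorem LG_mk_iff (e : ℕ → H) {A : PowerSeries H} (h0 : coeff 0 A = 0) :
    LG (PowerSeries.mk e) A ↔ ∀ j : ℕ, ((j : ℝ) + 1) • e (j + 1) =
      ∑ i ∈ range (j + 1), coeff (i + 1) A * e (j - i) := by
  constructor
  · intro h j
    have h1 := congrArg (coeff (j + 1)) h
    rw [coeff_eu, coeff_mk_mul e h0, coeff_mk, natCast_mul_eq] at h1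
    rw [← h1]
    push_cast
    rfl
  · intro h
    ext j
    cases j with
    | zero =>
      rw [coeff_eu, Nat.cast_zero, zero_mul, coeff_zero_eq_constantCoeff_apply, map_mul,
        ← coeff_zero_eq_constantCoeff_apply A, h0, mul_zero]
    | succ j =>
      rw [coeff_eu, coeff_mk_mul e h0, coeff_mk, natCast_mul_eq, ← h j]
      push_cast
      rfl

/-- Newton's recursion as a logarithmic derivative -/
theorem newton_iff (s e : ℕ → H) :
    NewtonRec ℝ s e ↔ e 0 = 1 ∧ LG (PowerSeries.mk e) (ns s) := by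
  rw [LG_mk_iff e (coeff_zero_ns s), NewtonRec]
  have h1 : ∀ j : ℕ, ∑ i ∈ range (j + 1), (-1 : ℝ) ^ i • (s (i + 1) * e (j - i)) =
      ∑ i ∈ range (j + 1), coeff (i + 1) (ns s) * e (j - i) := fun j =>
    Finset.sum_congr rfl fun i _ => by
      rw [coeff_ns s (Nat.succ_ne_zero i), pow_succ, mul_neg_one, neg_smul, neg_neg, smul_mul_assoc]
  simp only [h1]

theorem newton_LG {s e : ℕ → H} (h : NewtonRec ℝ s e) : LG (PowerSeries.mk e) (ns s) :=
  ((newton_iff s e).1 h).2

theorem newton_map (f : H →ₐ[ℝ] H') {s e : ℕ → H} (h : NewtonRec ℝ s e) :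
    NewtonRec ℝ (fun j => f (s j)) (fun j => f (e j)) := by
  refine ⟨(congrArg f h.1).trans (map_one f), fun j => ?_⟩
  rw [← map_smul, h.2 j, map_sum]
  exact Finset.sum_congr rfl fun i _ => by rw [map_smul, map_mul]

/-- the substitution `w ↦ x s ^ r` -/
def ex {r : ℕ} (hr : r ≠ 0) (x : H) : PowerSeries ℝ →+* PowerSeries H :=
  (expand r hr).toRingHom.comp (S2T.ev x)

theorem ex_apply {r : ℕ} (hr : r ≠ 0) (x : H) (F : PowerSeries ℝ) :
    ex hr x F = expand r hr (S2T.ev x F) := rfl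

theorem coeff_ex_mul {r : ℕ} (hr : r ≠ 0) (x : H) (F : PowerSeries ℝ) (a : ℕ) :
    coeff (r * a) (ex hr x F) = coeff a F • x ^ a := by
  rw [ex_apply, coeff_expand_mul, S2T.coeff_ev, Algebra.smul_def, mul_comm]

theorem coeff_ex_of_not {r : ℕ} (hr : r ≠ 0) (x : H) (F : PowerSeries ℝ) {j : ℕ} (h : ¬ r ∣ j) :
    coeff j (ex hr x F) = 0 := by
  rw [ex_apply, coeff_expand_of_not_dvd _ _ _ h]

theorem coeff_ex {r : ℕ} (hr : r ≠ 0) (x : H) (F : PowerSeries ℝ) (j : ℕ) :
    coeff j (ex hr x F) = tg r (fun a => coeff a F) x j := by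
  rw [tg]
  split_ifs with h
  · obtain ⟨a, rfl⟩ := h
    rw [coeff_ex_mul, Nat.mul_div_cancel_left _ (Nat.pos_of_ne_zero hr)]
  · exact coeff_ex_of_not hr x F h

theorem coeff_zero_ex {r : ℕ} (hr : r ≠ 0) (x : H) (F : PowerSeries ℝ) :
    coeff 0 (ex hr x F) = algebraMap ℝ H (coeff 0 F) := by
  have h := coeff_ex_mul hr x F 0
  rw [mul_zero, pow_zero] at h
  rw [h, Algebra.algebraMap_eq_smul_one]

theorem ex_X {r : ℕ} (hr : r ≠ 0) (x : H) : ex hr x X = C x * X ^ r := by
  rw [ex_apply, S2T.ev_X, map_mul, expand_C, expand_X]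

theorem ex_C {r : ℕ} (hr : r ≠ 0) (x : H) (a : ℝ) : ex hr x (C a) = C (algebraMap ℝ H a) := by
  rw [ex_apply, S2T.ev_C, expand_C]

theorem LG.ex {r : ℕ} (hr : r ≠ 0) (x : H) {F A : PowerSeries ℝ} (h : LG F A) :
    LG (ex hr x F) (ex hr x ((r : PowerSeries ℝ) * A)) := by
  rw [map_mul, map_natCast]
  exact ((h.map (algebraMap ℝ H)).rescale x).expand hr

theorem map_tg' (f : H →ₐ[ℝ] H') (r : ℕ) (t : ℕ → ℝ) (x : H) (j : ℕ) :
    f (tg r t x j) = tg r t (f x) j := by
  rw [tg, tg]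
  split_ifs with h
  · rw [map_smul, map_pow]
  · exact map_zero f

theorem map_cP (f : H →ₐ[ℝ] H') (r : ℕ) (b q : ℝ) (x0 x1 : H) (j : ℕ) :
    f (cP r b q x0 x1 j) = cP r b q (f x0) (f x1) j := by
  unfold cP
  split_ifs
  · exact map_one f
  · rw [map_neg, map_smul, map_add]
  · rw [map_smul, map_pow, map_sub]
  · exact map_zero f

theorem mk_cP {r : ℕ} (hr : r ≠ 0) (b q : ℝ) (x0 x1 : H) :
    PowerSeries.mk (cP r b q x0 x1) =
      1 - C (b • (x0 + x1)) * X ^ r + C (q • (x0 - x1) ^ 2) * X ^ (2 * r) := by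
  ext j
  rw [coeff_mk, map_add, map_sub, coeff_C_mul, coeff_C_mul, coeff_X_pow, coeff_X_pow, coeff_one, cP]
  by_cases h0 : j = 0
  · rw [if_pos h0, if_pos h0, if_neg (by omega), if_neg (by omega)]
    ring
  · rw [if_neg h0, if_neg h0]
    by_cases h1 : j = r
    · rw [if_pos h1, if_pos h1, if_neg (by omega)]
      ring
    · rw [if_neg h1, if_neg h1]
      split_ifs <;> ring

/-! ### the annihilator of a test class -/

/-- the annihilator of `T` -/
def ann (T : H) : Ideal H := LinearMap.ker (LinearMap.mul H H T)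

theorem mem_ann {T y : H} : y ∈ ann T ↔ T * y = 0 := Iff.rfl

/-- the quotient map -/
abbrev qa (T : H) : H →ₐ[ℝ] H ⧸ ann T := Ideal.Quotient.mkₐ ℝ (ann T)

theorem qa_eq_iff {T y y' : H} : qa T y = qa T y' ↔ T * y = T * y' := by
  rw [Ideal.Quotient.mkₐ_eq_mk, Ideal.Quotient.eq, mem_ann, mul_sub, sub_eq_zero]

theorem qa_eq_zero {T y : H} : qa T y = 0 ↔ T * y = 0 := by
  rw [← map_zero (qa T), qa_eq_iff, mul_zero]

/-- the divided difference of `tg` -/
def dg (r : ℕ) (t : ℕ → ℝ) (x0 x1 : H) (j : ℕ) : H :=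
  if r ∣ j then t (j / r) • ∑ i ∈ range (j / r), x0 ^ i * x1 ^ (j / r - 1 - i) else 0

theorem sub_mul_dg (r : ℕ) (t : ℕ → ℝ) (x0 x1 : H) (j : ℕ) :
    (x0 - x1) * dg r t x0 x1 j = tg r t x0 j - tg r t x1 j := by
  rw [dg, tg, tg]
  split_ifs with h
  · rw [mul_smul_comm, ← smul_sub, mul_comm, Commute.geom_sum₂_mul (Commute.all x0 x1)]
  · rw [mul_zero, sub_self]

theorem dg_of_not {r j : ℕ} (h : ¬ r ∣ j) (t : ℕ → ℝ) (x0 x1 : H) : dg r t x0 x1 j = 0 := by
  rw [dg, if_neg h]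

theorem map_dg (f : H →ₐ[ℝ] H') (r : ℕ) (t : ℕ → ℝ) (x0 x1 : H) (j : ℕ) :
    f (dg r t x0 x1 j) = dg r t (f x0) (f x1) j := by
  rw [dg, dg]
  split_ifs with h
  · rw [map_smul, map_sum]
    simp only [map_mul, map_pow]
  · exact map_zero f

/-- the value of the divided difference against a class killed by `x0 - x1` -/
theorem mul_dg {y x0 x1 : H} (hy : y * (x0 - x1) = 0) {r : ℕ} (hr : r ≠ 0) (t : ℕ → ℝ) (a : ℕ) :
    y * dg r t x0 x1 (r * a) = ((a : ℝ) * t a) • (y * x0 ^ (a - 1)) := by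
  have h1 : y * x1 = y * x0 := by linear_combination -hy
  have h2 : ∀ n, y * x1 ^ n = y * x0 ^ n := by
    intro n
    induction n with
    | zero => rw [pow_zero, pow_zero]
    | succ n ih =>
      calc y * x1 ^ (n + 1) = (y * x1) * x1 ^ n := by ring
        _ = x0 * (y * x1 ^ n) := by rw [h1]; ring
        _ = y * x0 ^ (n + 1) := by rw [ih]; ring
  rw [dg, if_pos (dvd_mul_right r a), Nat.mul_div_cancel_left _ (Nat.pos_of_ne_zero hr),
    mul_smul_comm, mul_sum, mul_comm (a : ℝ), mul_smul]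
  congr 1
  have h3 : ∀ i ∈ range a, y * (x0 ^ i * x1 ^ (a - 1 - i)) = y * x0 ^ (a - 1) := by
    intro i hi
    have hi' : i < a := mem_range.1 hi
    rw [mul_left_comm, h2, mul_left_comm, ← pow_add]
    congr 2
    omega
  rw [sum_congr rfl h3, sum_const, card_range, Nat.cast_smul_eq_nsmul]

variable {k r : ℕ} {κ b q : ℝ} {p : ℕ → ℝ} {x0 x1 t z : H} {Φ : H →ₗ[ℝ] ℝ} {u ww ss cW : ℕ → H}

/-- the first three terms of the relation between the two sequences of power sums -/
theorem Rel.wz3 (R : Rel k r b q p x0 x1 t z u ww ss cW) (j : ℕ) :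
    ∃ y, ww (j + 2) = ss (j + 2) + ((j : ℝ) + 2) • (t * ss (j + 1)) +
      (((j : ℝ) + 2) * ((j : ℝ) + 1) / 2) • (t ^ 2 * ss j) + t ^ 3 * y := by
  refine ⟨∑ i ∈ range j, (((j + 2).choose (i + 3) : ℕ) : ℝ) • (t ^ i * ss (j + 2 - (i + 3))), ?_⟩
  rw [R.wz (j + 2), sum_range_succ', sum_range_succ', sum_range_succ', mul_sum]
  have h1 : (((j + 2).choose 2 : ℕ) : ℝ) = ((j : ℝ) + 2) * ((j : ℝ) + 1) / 2 := by
    rw [Nat.cast_choose_two]
    push_cast
    ring
  have h2 : ∀ i ∈ range j, (((j + 2).choose (i + 1 + 1 + 1) : ℕ) : ℝ) •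
      (t ^ (i + 1 + 1 + 1) * ss (j + 2 - (i + 1 + 1 + 1))) =
      t ^ 3 * ((((j + 2).choose (i + 3) : ℕ) : ℝ) • (t ^ i * ss (j + 2 - (i + 3)))) := by
    intro i _
    rw [mul_smul_comm]
    congr 1
    ring
  rw [sum_congr rfl h2]
  simp only [zero_add, Nat.choose_zero_right, Nat.choose_one_right, Nat.cast_one, one_smul,
    pow_zero, one_mul, pow_one, Nat.sub_zero]
  rw [show (1 + 1 : ℕ) = 2 from rfl, h1, Nat.add_sub_cancel, show j + 2 - 1 = j + 1 from rfl]
  push_cast
  ring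

/-- the first two terms -/
theorem Rel.wz2 (R : Rel k r b q p x0 x1 t z u ww ss cW) (j : ℕ) :
    ∃ y, ww (j + 1) = ss (j + 1) + ((j : ℝ) + 1) • (t * ss j) + t ^ 2 * y := by
  cases j with
  | zero =>
    refine ⟨0, ?_⟩
    rw [R.wz (0 + 1), sum_range_succ, sum_range_succ, sum_range_zero]
    simp
  | succ j =>
    obtain ⟨y, hy⟩ := R.wz3 j
    refine ⟨(((j : ℝ) + 2) * ((j : ℝ) + 1) / 2) • ss j + t * y, ?_⟩
    rw [show j + 1 + 1 = j + 2 from rfl, hy, mul_add (t ^ 2), mul_smul_comm]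
    push_cast
    rw [show (j : ℝ) + 1 + 1 = j + 2 by ring]
    ring

/-- **Lemma A**, for `ss`: with `T = t T'`, `T t² = 0`, the odd power sums modulo `ann T` -/
theorem lemA_ss (B : Base k κ x0 x1 t z Φ) (R : Rel k r b q p x0 x1 t z u ww ss cW) {T T' : H}
    (hT : T = t * T') (h2 : T * t ^ 2 = 0) (i : ℕ) :
    T * ss (2 * i + 1) = T * ((4 * ((i : ℝ) + 1))⁻¹ • (z * dg r (tv k r b p) x0 x1 (2 * (i + 1))) -
      ((2 * (i : ℝ) + 1) / 2) • (t * ss (2 * i))) := by
  obtain ⟨y, hy⟩ := R.wz3 (2 * i)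
  have e0 := R.ev0 (i + 1) (by omega)
  have e1 := R.ev1 (i + 1) (by omega)
  have e2 := sub_mul_dg r (tv k r b p) x0 x1 (2 * (i + 1))
  rw [← B.tz] at e2
  rw [show 2 * (i + 1) = 2 * i + 2 from rfl] at e0 e1 e2 ⊢
  set m := dg r (tv k r b p) x0 x1 (2 * i + 2)
  have e3 : (2 : ℝ) • (ww (2 * i + 2) - ss (2 * i + 2)) = t * z * m := by
    rw [smul_sub, e0, e1, e2]
    ring
  have hi : (4 * ((i : ℝ) + 1)) ≠ 0 := by positivity
  refine smul_cancel hi ?_
  rw [mul_sub, smul_sub, mul_smul_comm, smul_smul, mul_inv_cancel₀ hi, one_smul, mul_smul_comm,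
    smul_smul]
  have c1 : (((2 * i : ℕ) : ℝ) + 2) * (((2 * i : ℕ) : ℝ) + 1) / 2 =
      ((i : ℝ) + 1) * (2 * (i : ℝ) + 1) := by
    push_cast
    ring
  have c2 : 4 * ((i : ℝ) + 1) * ((2 * (i : ℝ) + 1) / 2) =
      2 * (((i : ℝ) + 1) * (2 * (i : ℝ) + 1)) := by ring
  rw [hy, c1] at e3
  rw [c2]
  have e4 := congrArg (fun v => T' * v) e3
  simp only [Algebra.smul_def, map_mul, map_add, map_ofNat, map_natCast, map_one,
    Nat.cast_mul, Nat.cast_ofNat] at e4 ⊢
  rw [hT] at h2 ⊢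
  linear_combination e4 - 2 * y * h2

/-- **Lemma A**, for `ww` -/
theorem lemA (B : Base k κ x0 x1 t z Φ) (R : Rel k r b q p x0 x1 t z u ww ss cW) {T T' : H}
    (hT : T = t * T') (h2 : T * t ^ 2 = 0) (i : ℕ) :
    T * ww (2 * i + 1) = T * ((4 * ((i : ℝ) + 1))⁻¹ • (z * dg r (tv k r b p) x0 x1 (2 * (i + 1))) +
      ((2 * (i : ℝ) + 1) / 2) • (t * ss (2 * i))) := by
  obtain ⟨y, hy⟩ := R.wz2 (2 * i)
  have c1 : ((2 * i : ℕ) : ℝ) + 1 = (2 * (i : ℝ) + 1) / 2 + (2 * (i : ℝ) + 1) / 2 := by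
    push_cast
    ring
  rw [hy, mul_add, mul_add, lemA_ss B R hT h2 i, ← mul_assoc T (t ^ 2), h2, zero_mul, add_zero,
    c1, add_smul]
  ring

/-- **Lemma A** in the quotient ring -/
theorem lemA_q (B : Base k κ x0 x1 t z Φ) (R : Rel k r b q p x0 x1 t z u ww ss cW) {T T' : H}
    (hT : T = t * T') (h2 : T * t ^ 2 = 0) (i : ℕ) :
    qa T (ww (2 * i + 1)) = (4 * ((i : ℝ) + 1))⁻¹ •
      (qa T z * dg r (tv k r b p) (qa T x0) (qa T x1) (2 * (i + 1))) +
      ((2 * (i : ℝ) + 1) / 2) • (qa T t * qa T (ss (2 * i))) := by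
  rw [qa_eq_iff.2 (lemA B R hT h2 i), map_add, map_smul, map_smul, map_mul, map_mul, map_dg]

/-! ### the real series -/

/-- `1 - b w + q w²` -/
def Qs (b q : ℝ) : PowerSeries ℝ := 1 - C b * X + C q * X ^ 2

/-- the power sums as a series without constant term -/
def Ps (p : ℕ → ℝ) : PowerSeries ℝ := PowerSeries.mk fun a => if a = 0 then 0 else p a

theorem coeff_Ps (p : ℕ → ℝ) {a : ℕ} (ha : a ≠ 0) : coeff a (Ps p) = p a := by
  rw [Ps, coeff_mk, if_neg ha]

theorem coeff_zero_Ps (p : ℕ → ℝ) : coeff 0 (Ps p) = 0 := by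
  rw [Ps, coeff_mk, if_pos rfl]

theorem coeff_zero_Qs (b q : ℝ) : coeff 0 (Qs b q) = 1 := by
  simp [Qs]

theorem LG_Qs (hp : PS b q p) : LG (Qs b q) (-Ps p) := by
  have h1 : eu (Qs b q) = -(C b * X) + C (2 * q) * X ^ 2 := by
    rw [Qs, eu_add, eu_sub, eu_one, eu_C_mul, eu_C_mul, eu_X, eu_X_pow, map_mul, map_ofNat]
    push_cast
    ring
  unfold LG
  rw [h1]
  have h2 : Qs b q * -Ps p = -(Ps p) + C b * (X * Ps p) - C q * (X * (X * Ps p)) := by
    rw [Qs]
    ring
  rw [h2]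
  ext j
  simp only [map_add, map_sub, map_neg, coeff_C_mul, coeff_X_pow, coeff_X]
  rcases j with _ | _ | _ | j
  · simp [coeff_zero_Ps]
  · simp [coeff_succ_X_mul, coeff_Ps, coeff_zero_Ps, hp.p1]
  · have := hp.ps 0
    simp only [coeff_succ_X_mul]
    rw [coeff_Ps p (by omega), coeff_Ps p (by omega), coeff_zero_Ps]
    simp only [zero_add] at this ⊢
    rw [this, hp.p0]
    norm_num
    ring
  · have := hp.ps (j + 1)
    simp only [coeff_succ_X_mul]
    rw [coeff_Ps p (by omega), coeff_Ps p (by omega), coeff_Ps p (by omega), if_neg (by omega),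
      if_neg (by omega), show j + 1 + 1 + 1 = j + 1 + 2 from rfl, this]
    ring

/-- the geometric series `1 / (1 - a w)` -/
def Gs (a : ℝ) : PowerSeries ℝ := PowerSeries.mk fun n => a ^ n

theorem one_sub_mul_Gs (a : ℝ) : (1 - C a * X) * Gs a = 1 := S2T.mk_pow a

theorem coeff_zero_Gs (a : ℝ) : coeff 0 (Gs a) = 1 := by
  rw [Gs, coeff_mk, pow_zero]

theorem Ps_pow (a : ℝ) : Ps (fun n => a ^ n) = C a * X * Gs a := by
  ext j
  rw [mul_assoc, coeff_C_mul]
  cases j with
  | zero => rw [coeff_zero_Ps, coeff_zero_X_mul, mul_zero]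
  | succ j => rw [coeff_Ps _ (Nat.succ_ne_zero j), coeff_succ_X_mul, Gs, coeff_mk, pow_succ']

theorem LG_lin (a : ℝ) : LG (1 - C a * X) (-Ps fun n => a ^ n) := by
  unfold LG
  rw [eu_sub, eu_one, eu_C_mul, eu_X, Ps_pow]
  linear_combination (C a * X) * one_sub_mul_Gs a

theorem LG_Gs (a : ℝ) : LG (Gs a) (Ps fun n => a ^ n) := by
  have h1 := congrArg eu (one_sub_mul_Gs a)
  rw [eu_mul, eu_one, LG_lin a] at h1
  unfold LG
  linear_combination Gs a * h1 - (eu (Gs a) - Gs a * Ps fun n => a ^ n) * one_sub_mul_Gs a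

/-- the recursion `CS` as a logarithmic derivative -/
theorem LG_cs {c : ℕ → ℝ} (hc : CS k b p c) : LG (PowerSeries.mk c)
    (Ps fun a => (2 * b) ^ a - ((k : ℝ) + 1) / 2 * p a) := by
  rw [LG_mk_iff c (coeff_zero_Ps _)]
  intro j
  rw [smul_eq_mul, hc.cs j]
  exact Finset.sum_congr rfl fun i _ => by rw [coeff_Ps _ (Nat.succ_ne_zero i)]

/-- for `b = 0` the odd power sums vanish -/
theorem PS.odd (hp : PS b q p) (hb : b = 0) {a : ℕ} (ha : Odd a) : p a = 0 := by
  obtain ⟨i, rfl⟩ := ha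
  induction i with
  | zero => rw [mul_zero, zero_add, hp.p1, hb]
  | succ i ih =>
    rw [show 2 * (i + 1) + 1 = 2 * i + 1 + 2 from rfl, hp.ps, ih, hb]
    ring

end Real

end

end Vale.Agent.P231Z.D
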