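import Vale.Agent.P231Z.D.Num2

/-!
P231, the numerical inequality: only `(k, r) = (2, 4)` survives.
-/

open Finset
open scoped Polynomial PowerSeries

noncomputable section

namespace Vale.Agent.P231Z.D

namespace Num

section Series

open PowerSeries hiding mk

/-- the series with given coefficients -/
abbrev mk (c : ℕ → ℝ) : ℝ⟦X⟧ := PowerSeries.mk c

/-- the quadratic series -/
def QQ (b q : ℝ) : ℝ⟦X⟧ := 1 - C b * X + C q * X ^ 2

/-- the geometric series -/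
def RR (b : ℝ) : ℝ⟦X⟧ := mk fun j => (2 * b) ^ j

/-- the Euler operator -/
def th (f : ℝ⟦X⟧) : ℝ⟦X⟧ := X * derivative ℝ f

/-- reversed truncation -/
def Psi (H : ℝ⟦X⟧) : ℕ → ℝ[X]
  | 0 => 0
  | d + 1 => Polynomial.X * Psi H d + Polynomial.C (coeff d H)

variable {b q t0 t1 : ℝ}

theorem RR_mul : (1 - C (2 * b) * X) * RR b = 1 := by
  ext j
  rw [sub_mul, one_mul, mul_assoc, map_sub, coeff_C_mul]
  rcases j with _ | j
  · simp [RR]
  · rw [coeff_succ_X_mul]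
    simp [RR, pow_succ, mul_comm, coeff_one]

theorem QQ_mul (H : ℝ⟦X⟧) : QQ b q * H = H - C b * (X * H) + C q * (X * (X * H)) := by
  unfold QQ
  ring

theorem cQ0 (H : ℝ⟦X⟧) : coeff 0 (QQ b q * H) = coeff 0 H := by simp [QQ_mul]

theorem cQ1 (H : ℝ⟦X⟧) : coeff 1 (QQ b q * H) = coeff 1 H - b * coeff 0 H := by
  rw [QQ_mul, map_add, map_sub, coeff_C_mul, coeff_C_mul, coeff_succ_X_mul, coeff_succ_X_mul,
    coeff_zero_X_mul, mul_zero, add_zero]

theorem cQ2 (H : ℝ⟦X⟧) (j : ℕ) :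
    coeff (j + 2) (QQ b q * H) = coeff (j + 2) H - b * coeff (j + 1) H + q * coeff j H := by
  rw [QQ_mul, map_add, map_sub, coeff_C_mul, coeff_C_mul, coeff_succ_X_mul, coeff_succ_X_mul,
    coeff_succ_X_mul]

theorem Psi_QQ (H : ℝ⟦X⟧) (d : ℕ) : Psi (QQ b q * H) (d + 2) = eta b q * Psi H d +
    (Polynomial.X * Polynomial.C (coeff d H) +
      Polynomial.C (coeff (d + 1) H - b * coeff d H)) := by
  induction d with
  | zero =>
    simp only [Psi, cQ0, cQ1, zero_add, mul_zero]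
  | succ d ih =>
    rw [Psi, ih, cQ2, Psi]
    simp only [eta, map_add, map_sub, map_mul]
    ring

theorem Psi_X (H : ℝ⟦X⟧) (d : ℕ) : Psi (X * H) (d + 1) = Psi H d := by
  induction d with
  | zero => simp [Psi]
  | succ d ih => rw [Psi, ih, coeff_succ_X_mul, Psi]

theorem Psi_X_pow (H : ℝ⟦X⟧) (d j : ℕ) : Psi (X ^ j * H) (d + j) = Psi H d := by
  induction j with
  | zero => simp
  | succ j ih => rw [pow_succ', mul_assoc, ← add_assoc, Psi_X, ih]

theorem Psi_congr {H H' : ℝ⟦X⟧} {d : ℕ} (h : ∀ j < d, coeff j H = coeff j H') :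
    Psi H d = Psi H' d := by
  induction d with
  | zero => rfl
  | succ d ih => rw [Psi, Psi, ih fun j hj => h j (by omega), h d (by omega)]

theorem Psi_sum (s : Finset ℕ) (a : ℕ → ℝ) (H : ℕ → ℝ⟦X⟧) (d : ℕ) :
    Psi (∑ j ∈ s, C (a j) * H j) d = ∑ j ∈ s, a j • Psi (H j) d := by
  induction d with
  | zero => simp [Psi]
  | succ d ih =>
    simp only [Psi, ih, map_sum, coeff_C_mul, mul_sum, smul_add, sum_add_distrib, map_mul,
      Polynomial.smul_eq_C_mul]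
    exact congrArg (· + _) (sum_congr rfl fun j _ => by ring)

theorem Psi_eq (H : ℝ⟦X⟧) (d : ℕ) :
    Psi H d = ∑ a ∈ range d, Polynomial.monomial a (coeff (d - 1 - a) H) := by
  induction d with
  | zero => simp [Psi]
  | succ d ih =>
    rw [Psi, ih, sum_range_succ', mul_sum]
    simp only [Polynomial.X_mul_monomial, Nat.add_sub_cancel, Nat.sub_zero,
      Polynomial.monomial_zero_left]
    exact congrArg (· + _) (sum_congr rfl fun a _ => by rw [show d - (a + 1) = d - 1 - a by omega])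

theorem HH_spec (m : ℕ) :
    Psi (QQ b q ^ m * ((C t0 + C t1 * X) * RR b)) (2 * m) = PP b q t0 t1 m ∧
      coeff (2 * m) (QQ b q ^ m * ((C t0 + C t1 * X) * RR b)) = DD b q t0 t1 m ∧
      ∀ i, coeff (2 * m + 1 + i) (QQ b q ^ m * ((C t0 + C t1 * X) * RR b)) =
        yy b q t0 t1 m * (2 * b) ^ i := by
  induction m with
  | zero =>
    refine ⟨rfl, by simp [DD, RR], fun i => ?_⟩
    rw [pow_zero, one_mul, add_mul, mul_assoc, map_add, coeff_C_mul, coeff_C_mul, mul_zero,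
      zero_add, add_comm 1 i, coeff_succ_X_mul]
    simp only [RR, coeff_mk, yy]
    ring
  | succ m ih =>
    obtain ⟨h1, h2, h3⟩ := ih
    have h4 := h3 0
    have h5 := h3 1
    simp only [add_zero, pow_zero, mul_one, pow_one] at h4 h5
    rw [pow_succ', mul_assoc, show 2 * (m + 1) = 2 * m + 2 by ring]
    refine ⟨?_, ?_, fun i => ?_⟩
    · rw [Psi_QQ, h1, h2, h4]
      rfl
    · rw [cQ2, h2, h4, h5, DD]
      ring
    · rw [show 2 * m + 2 + 1 + i = 2 * m + 1 + i + 2 by ring, cQ2, add_assoc (2 * m + 1),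
        add_assoc (2 * m + 1), h3, h3, h3, yy_succ]
      ring

theorem th_mul (f g : ℝ⟦X⟧) : th (f * g) = f * th g + g * th f := by
  simp only [th, Derivation.leibniz, smul_eq_mul]
  ring

theorem th_C (a : ℝ) : th (C a) = 0 := by simp [th]

theorem th_X : th X = X := by simp [th]

theorem th_one : th 1 = 0 := by simp [th]

theorem th_sub (f g : ℝ⟦X⟧) : th (f - g) = th f - th g := by simp [th, mul_sub]

theorem th_add (f g : ℝ⟦X⟧) : th (f + g) = th f + th g := by simp [th, mul_add]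

theorem th_sum (s : Finset ℕ) (f : ℕ → ℝ⟦X⟧) : th (∑ j ∈ s, f j) = ∑ j ∈ s, th (f j) := by
  simp [th, mul_sum]

theorem th_pow (f : ℝ⟦X⟧) (m : ℕ) : th (f ^ (m + 1)) = (m + 1) * f ^ m * th f := by
  induction m with
  | zero => simp
  | succ m ih =>
    rw [pow_succ, th_mul, ih]
    push_cast
    ring

theorem th_X_pow (m : ℕ) : th (X ^ m) = (m : ℝ⟦X⟧) * X ^ m := by
  rcases m with _ | m
  · simp [th_one]
  · rw [th_pow, th_X]
    push_cast
    ring

theorem th_QQ : th (QQ b q) = -(C b * X) + 2 * (C q * X ^ 2) := by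
  simp only [QQ, th_add, th_sub, th_mul, th_one, th_C, th_X, th_X_pow]
  push_cast
  ring

theorem uniq {n : ℝ} {Δ : ℝ⟦X⟧} {L : ℕ} (h0 : constantCoeff Δ = 0)
    (h : X ^ L ∣ QQ b q * th Δ - C n * th (QQ b q) * Δ) : X ^ L ∣ Δ := by
  have key : ∀ j, j ≤ L → X ^ j ∣ Δ := by
    intro j
    induction j with
    | zero => intro _; simp
    | succ j ih =>
      intro hj
      rcases Nat.eq_zero_or_pos j with rfl | hpos
      · simpa [X_dvd_iff] using h0
      obtain ⟨E, rfl⟩ := ih (by omega)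
      have h1 : QQ b q * th (X ^ j * E) - C n * th (QQ b q) * (X ^ j * E) =
          (QQ b q * (th E + (j : ℝ⟦X⟧) * E) - C n * th (QQ b q) * E) * X ^ j := by
        rw [th_mul, th_X_pow]
        ring
      have h2 := X_pow_dvd_iff.1 h j (by omega)
      have h3 := coeff_mul_X_pow (QQ b q * (th E + (j : ℝ⟦X⟧) * E) - C n * th (QQ b q) * E) j 0
      rw [zero_add, ← h1, h2] at h3
      have h4 : (j : ℝ) * constantCoeff E = 0 := by simpa [QQ, th] using h3.symm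
      have h5 : (j : ℝ) ≠ 0 := by exact_mod_cast hpos.ne'
      rw [pow_succ]
      exact mul_dvd_mul_left _ (X_dvd_iff.2 ((mul_eq_zero.1 h4).resolve_left h5))
  exact key L le_rfl

theorem ode {n : ℝ} {p c : ℕ → ℝ} (hp0 : p 0 = 2) (hp1 : p 1 = b)
    (hp : ∀ a, p (a + 2) = b * p (a + 1) - q * p a)
    (hc : ∀ j : ℕ, ((j : ℝ) + 1) * c (j + 1) =
      ∑ a ∈ range (j + 1), ((2 * b) ^ (a + 1) - n * p (a + 1)) * c (j - a)) :
    QQ b q * th ((1 - C (2 * b) * X) * mk c) =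
      C n * th (QQ b q) * ((1 - C (2 * b) * X) * mk c) := by
  have h1 : derivative ℝ (mk c) = (C (2 * b) * RR b - C n * mk fun a => p (a + 1)) * mk c := by
    ext j
    rw [coeff_derivative, coeff_mul, Finset.Nat.sum_antidiagonal_eq_sum_range_succ_mk, coeff_mk,
      mul_comm, hc]
    refine sum_congr rfl fun a _ => ?_
    simp only [map_sub, coeff_C_mul, RR, coeff_mk]
    ring
  have h2 : QQ b q * mk (fun a => p (a + 1)) = C b - 2 * (C q * X) := by
    ext j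
    rcases j with _ | _ | j
    · simp [cQ0, hp1]
    · rw [zero_add, cQ1, coeff_mk, coeff_mk, hp, hp0, two_mul]
      simp [coeff_C]
      ring
    · rw [cQ2, coeff_mk, coeff_mk, coeff_mk, hp, two_mul]
      simp
  have h3 := RR_mul (b := b)
  have h4 : th (mk c) = X * ((C (2 * b) * RR b - C n * mk fun a => p (a + 1)) * mk c) := by
    rw [th, h1]
  rw [th_mul, th_sub, th_mul, th_one, th_C, th_X, h4, th_QQ]
  linear_combination (QQ b q * X * C (2 * b) * mk c) * h3 -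
    ((1 - C (2 * b) * X) * X * C n * mk c) * h2

theorem Psi_of {n : ℝ} {p c : ℕ → ℝ} (hp0 : p 0 = 2) (hp1 : p 1 = b)
    (hp : ∀ a, p (a + 2) = b * p (a + 1) - q * p a) (hc0 : c 0 = 1)
    (hc : ∀ j : ℕ, ((j : ℝ) + 1) * c (j + 1) =
      ∑ a ∈ range (j + 1), ((2 * b) ^ (a + 1) - n * p (a + 1)) * c (j - a))
    {G : ℝ⟦X⟧} {L : ℕ} (h0 : constantCoeff G = 1)
    (h : X ^ L ∣ QQ b q * th G - C n * th (QQ b q) * G) : Psi (mk c) L = Psi (G * RR b) L := by
  have h1 : X ^ L ∣ G - (1 - C (2 * b) * X) * mk c := by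
    refine uniq (b := b) (q := q) (n := n) (by simp [h0, hc0]) ?_
    rw [th_sub, mul_sub, ode hp0 hp1 hp hc, mul_sub _ G, sub_sub_sub_cancel_right]
    exact h
  have h2 : (G - (1 - C (2 * b) * X) * mk c) * RR b = G * RR b - mk c := by
    linear_combination (-mk c) * RR_mul (b := b)
  have h3 := X_pow_dvd_iff.1 (h2 ▸ h1.mul_right (RR b))
  refine Psi_congr fun j hj => ?_
  have h4 := h3 j hj
  rw [map_sub] at h4
  linarith

theorem Psi_one {N : ℕ} {p c : ℕ → ℝ} (hp0 : p 0 = 2) (hp1 : p 1 = b)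
    (hp : ∀ a, p (a + 2) = b * p (a + 1) - q * p a) (hc0 : c 0 = 1)
    (hc : ∀ j : ℕ, ((j : ℝ) + 1) * c (j + 1) =
      ∑ a ∈ range (j + 1), ((2 * b) ^ (a + 1) - ((N : ℝ) + 1) * p (a + 1)) * c (j - a)) :
    Psi (mk c) (2 * N + 1) = PP b q 0 1 (N + 1) := by
  rw [Psi_of hp0 hp1 hp hc0 hc (G := QQ b q ^ (N + 1)) (by simp [QQ]), ← Psi_X,
    ← (HH_spec (N + 1)).1]
  · simp only [map_zero, map_one, zero_add, one_mul]
    rw [mul_left_comm]
    rfl
  · rw [th_pow, map_add, map_natCast, map_one]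
    exact ⟨0, by ring⟩

/-- central binomial weights -/
def gam : ℕ → ℝ
  | 0 => 1
  | j + 1 => gam j * ((2 * j + 1) / (2 * j + 2))

theorem gam_mem (j : ℕ) : 0 ≤ gam j ∧ gam j ≤ 1 := by
  induction j with
  | zero => simp [gam]
  | succ j ih =>
    have h0 : (0 : ℝ) ≤ j := Nat.cast_nonneg j
    refine ⟨mul_nonneg ih.1 (by positivity), mul_le_one₀ ih.2 (by positivity) ?_⟩
    rw [div_le_one (by positivity)]
    linarith

theorem Psi_two {N : ℕ} {p c : ℕ → ℝ} (hp0 : p 0 = 2) (hp1 : p 1 = b)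
    (hp : ∀ a, p (a + 2) = b * p (a + 1) - q * p a) (hc0 : c 0 = 1)
    (hc : ∀ j : ℕ, ((j : ℝ) + 1) * c (j + 1) =
      ∑ a ∈ range (j + 1), ((2 * b) ^ (a + 1) - ((N : ℝ) + 1 + 1 / 2) * p (a + 1)) * c (j - a)) :
    Psi (mk c) (2 * (N + 1)) = ∑ j ∈ range (N + 1),
      (gam j * (q - b ^ 2 / 4) ^ j) • PP b q 1 (-(b / 2)) (N + 1 - j) := by
  rw [Psi_of hp0 hp1 hp hc0 hc (G := ∑ j ∈ range (N + 1), C (gam j * (q - b ^ 2 / 4) ^ j) *
    (X ^ (2 * j) * (QQ b q ^ (N + 1 - j) * (C 1 + C (-(b / 2)) * X))))]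
  · rw [sum_mul]
    simp only [mul_assoc]
    rw [Psi_sum]
    refine sum_congr rfl fun j hj => ?_
    have h1 := mem_range.1 hj
    rw [show 2 * (N + 1) = 2 * (N + 1 - j) + 2 * j by omega, Psi_X_pow, (HH_spec _).1]
  · rw [sum_range_succ', map_add, map_sum, sum_eq_zero fun j _ => by simp]
    simp [gam, QQ]
  · have h1 : ∀ j ∈ range (N + 1), QQ b q * th (C (gam j * (q - b ^ 2 / 4) ^ j) *
        (X ^ (2 * j) * (QQ b q ^ (N + 1 - j) * (C 1 + C (-(b / 2)) * X)))) -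
        C ((N : ℝ) + 1 + 1 / 2) * th (QQ b q) * (C (gam j * (q - b ^ 2 / 4) ^ j) *
        (X ^ (2 * j) * (QQ b q ^ (N + 1 - j) * (C 1 + C (-(b / 2)) * X)))) =
        C (2 * j * gam j * (q - b ^ 2 / 4) ^ j) * X ^ (2 * j) * QQ b q ^ (N + 2 - j) -
        C (2 * (j + 1 : ℕ) * gam (j + 1) * (q - b ^ 2 / 4) ^ (j + 1)) * X ^ (2 * (j + 1)) *
          QQ b q ^ (N + 2 - (j + 1)) := by
      intro j hj
      obtain ⟨m, rfl⟩ := Nat.exists_eq_add_of_le (Nat.lt_succ_iff.1 (mem_range.1 hj))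
      have a1 : (2 * (j + 1 : ℕ) * gam (j + 1) * (q - b ^ 2 / 4) ^ (j + 1) : ℝ) =
          (2 * j + 1) * (q - b / 2 * (b / 2)) * (gam j * (q - b ^ 2 / 4) ^ j) := by
        have h0 : (0 : ℝ) ≤ j := Nat.cast_nonneg j
        rw [gam]
        push_cast
        field_simp
        ring
      have a2 : (C b : ℝ⟦X⟧) = 2 * C (b / 2) := by
        rw [← map_ofNat C 2, ← map_mul]
        exact congrArg _ (by ring)
      have a3 : (2 : ℝ⟦X⟧) * C (1 / 2 : ℝ) = 1 := by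
        rw [← map_ofNat C 2, ← map_mul]
        norm_num
      rw [a1, mul_assoc (2 * (j : ℝ)), show j + m + 1 - j = m + 1 by omega,
        show j + m + 2 - j = m + 2 by omega, show j + m + 2 - (j + 1) = m + 1 by omega]
      generalize gam j * (q - b ^ 2 / 4) ^ j = g
      simp only [th_mul, th_add, th_C, th_X, th_X_pow, th_pow, map_mul, map_add, map_sub, map_neg,
        map_natCast, map_one, map_ofNat, th_one]
      have a4 : th (-C (b / 2)) = 0 := by rw [← map_neg, th_C]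
      rw [a4, th_QQ, show 2 * (j + 1) = 2 * j + 2 by ring, pow_add X, pow_succ (QQ b q) (m + 1),
        pow_succ (QQ b q) m]
      generalize QQ b q ^ m = U
      generalize (X : ℝ⟦X⟧) ^ (2 * j) = V
      unfold QQ
      rw [a2]
      push_cast
      generalize (C (b / 2) : ℝ⟦X⟧) = h
      generalize (C (1 / 2 : ℝ) : ℝ⟦X⟧) = u at a3
      linear_combination (-(C g * V * U * (1 - 2 * h * X + C q * X ^ 2) * (1 - h * X) *
        (-(h * X) + C q * X ^ 2))) * a3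
    rw [th_sum, mul_sum, mul_sum, ← sum_sub_distrib, sum_congr rfl h1, sum_range_sub']
    simp only [Nat.cast_zero, mul_zero, zero_mul, map_zero, zero_sub, dvd_neg]
    exact (dvd_mul_left _ _).mul_right _

theorem Psi_eval (c : ℕ → ℝ) (K : ℕ) : (Psi (mk c) (K + 1)).eval 0 = c K := by simp [Psi]

theorem lam_tw_Psi (r : ℕ) (φ c : ℕ → ℝ) (K : ℕ) :
    lam r (tw φ (Psi (mk c) (K + 1))) = ∑ a ∈ range K,
      φ (a + 1) * c (K - (a + 1)) / ((r : ℝ) * (a + 1) - 1) - φ 0 * c K := by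
  rw [Psi_eq, map_sum, map_sum, sum_range_succ']
  simp only [tw_mono, lam_mono]
  simp [div_neg, sub_eq_add_neg]

theorem LL_Psi {r K : ℕ} {n : ℝ} {p c : ℕ → ℝ} (hp0 : p 0 = 2)
    (hZ : 3 / 2 * ∑ a ∈ range K, (2 * n * p (a + 1) - (2 * b) ^ (a + 1)) * c (K - (a + 1)) /
      ((r : ℝ) * (a + 1) - 1) = (2 * n - 2) * c K) : LL r n b p (Psi (mk c) (K + 1)) = 0 := by
  have h1 : ∑ a ∈ range K, (2 * n * p (a + 1) - (2 * b) ^ (a + 1)) * c (K - (a + 1)) /
      ((r : ℝ) * (a + 1) - 1) =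
      2 * n * ∑ a ∈ range K, p (a + 1) * c (K - (a + 1)) / ((r : ℝ) * (a + 1) - 1) -
        ∑ a ∈ range K, (2 * b) ^ (a + 1) * c (K - (a + 1)) / ((r : ℝ) * (a + 1) - 1) := by
    rw [mul_sum, ← sum_sub_distrib]
    exact sum_congr rfl fun a _ => by ring
  rw [LL_apply, Psi_eval, lam_tw_Psi, lam_tw_Psi, hp0]
  rw [h1] at hZ
  linarith

end Series

theorem choose_two (k : ℕ) : ((k + 1).choose 2 : ℝ) = (k + 1) * k / 2 := by
  rw [Nat.cast_choose_two]
  push_cast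
  ring

theorem sq_lt_of {x y z : ℝ} (hx : 0 ≤ x) (h : x < y) (hE : y ^ 2 = z) (hz : z = x ^ 2) :
    False := by
  nlinarith

theorem core {k r : ℕ} (hk : 3 ≤ k) (hr : 4 ≤ r) {b q : ℝ} (hb : 0 < b) (hq : 0 < q)
    {p c : ℕ → ℝ} (hp0 : p 0 = 2) (hp1 : p 1 = b)
    (hp : ∀ a, p (a + 2) = b * p (a + 1) - q * p a) (hc0 : c 0 = 1)
    (hc : ∀ j : ℕ, ((j : ℝ) + 1) * c (j + 1) = ∑ a ∈ range (j + 1),
      ((2 * b) ^ (a + 1) - ((k : ℝ) + 1) / 2 * p (a + 1)) * c (j - a))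
    (hE : c (k - 1) ^ 2 = q ^ (k - 1) * ((k + 1).choose 2 : ℝ) ^ 2)
    (hZ : 3 / 2 * ∑ a ∈ range (k - 1), (((k : ℝ) + 1) * p (a + 1) - (2 * b) ^ (a + 1)) *
      c (k - 1 - (a + 1)) / ((r : ℝ) * (a + 1) - 1) = ((k : ℝ) - 1) * c (k - 1)) : False := by
  have hL : LL r (((k : ℝ) + 1) / 2) b p (Psi (PowerSeries.mk c) (k - 1 + 1)) = 0 := by
    refine LL_Psi hp0 ?_
    rw [show 2 * (((k : ℝ) + 1) / 2) = k + 1 by ring, hZ]
    ring
  have hA := Psi_eval c (k - 1)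
  rw [Nat.sub_add_cancel (by omega)] at hL hA
  rw [choose_two] at hE
  obtain ⟨N, rfl | rfl⟩ := Nat.even_or_odd' k
  · obtain ⟨m, rfl⟩ := Nat.exists_eq_add_of_le' (by omega : 2 ≤ N)
    have hm : (0 : ℝ) ≤ m := Nat.cast_nonneg m
    have hn : (((2 * (m + 2) : ℕ) : ℝ) + 1) / 2 = ((m + 1 : ℕ) : ℝ) + 1 + 1 / 2 := by
      push_cast
      ring
    rw [hn] at hc hL
    rw [Psi_two hp0 hp1 hp hc0 hc] at hL hA
    rcases le_or_gt (b ^ 2) (4 * q) with hd | hd
    · have hn2 : (2 : ℝ) < ((m + 1 : ℕ) : ℝ) + 1 + 1 / 2 := by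
        push_cast
        linarith
      rw [map_sum] at hL
      refine absurd hL (ne_of_gt (sum_pos' (fun j _ => ?_) ⟨0, by simp, ?_⟩))
      · rw [map_smul, smul_eq_mul]
        refine mul_nonneg (mul_nonneg (gam_mem j).1 (pow_nonneg (by linarith) j))
          (le_trans (mul_nonneg (by linarith) ?_) (LL_two hr hn2.le hb.le hd hp0 hp1 hp _))
        linarith [AA_ge (b := b) (t0 := 1) (t1 := -(b / 2)) hq.le (by linarith) (m + 1 + 1 - j)]
      · rw [map_smul, smul_eq_mul, gam, pow_zero, one_mul, one_mul]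
        exact lt_of_lt_of_le (mul_pos (by linarith) (sub_pos.2 (AA_gt hb hq m)))
          (LL_two hr hn2.le hb.le hd hp0 hp1 hp _)
    · have h1 := sum_two_ge hb hq hd (w := gam) rfl
        (fun j => by rw [abs_of_nonneg (gam_mem j).1]; exact (gam_mem j).2) m
      rw [Polynomial.eval_finsetSum] at hA
      simp only [Polynomial.eval_smul, smul_eq_mul] at hA
      have h2 : b / 2 * (((m : ℝ) + 2) * (2 * m + 5) * q ^ (m + 1)) ≤ c (2 * (m + 2) - 1) :=
        hA ▸ h1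
      have h3 := pow_le_pow_left₀ (by positivity) h2 2
      have h4 : 0 < (((m : ℝ) + 2) * (2 * m + 5) * q ^ (m + 1)) ^ 2 := by positivity
      rw [hE, show 2 * (m + 2) - 1 = 2 * (m + 1) + 1 by omega] at h3
      have h5 : q ^ (2 * (m + 1) + 1) * ((((2 * (m + 2) : ℕ) : ℝ) + 1) * (2 * (m + 2) : ℕ) / 2) ^ 2 =
          q * (((m : ℝ) + 2) * (2 * m + 5) * q ^ (m + 1)) ^ 2 := by
        push_cast
        ring
      rw [h5, mul_pow] at h3
      nlinarith [mul_lt_mul_of_pos_right hd h4]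
  · obtain ⟨m, rfl⟩ := Nat.exists_eq_add_of_le' (by omega : 1 ≤ N)
    have hm : (0 : ℝ) ≤ m := Nat.cast_nonneg m
    have hn : (((2 * (m + 1) + 1 : ℕ) : ℝ) + 1) / 2 = ((m + 1 : ℕ) : ℝ) + 1 := by
      push_cast
      ring
    rw [hn] at hc hL
    rw [Psi_one hp0 hp1 hp hc0 hc] at hL hA
    rcases le_or_gt (b ^ 2) (4 * q) with hd | hd
    · exact absurd hL (ne_of_gt (LL_one hr (by push_cast; linarith) hb.le hq hd hp0 hp1 hp _))
    · refine sq_lt_of (by positivity) ((AA_one_gt hq hd m).trans_eq hA) hE ?_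
      rw [Nat.add_sub_cancel]
      push_cast
      ring

theorem AA_b0 (q t0 t1 : ℝ) (m : ℕ) : AA 0 q t0 t1 m = t1 * ZZ q m := by
  induction m with
  | zero => simp [AA_zero, ZZ]
  | succ m ih =>
    rw [AA_succ, ih, ee_sub, ZZ]
    ring

theorem b_ne {k : ℕ} (hk : 2 ≤ k) {q : ℝ} (hq : q ≠ 0) {p c : ℕ → ℝ} (hp0 : p 0 = 2)
    (hp1 : p 1 = 0) (hp : ∀ a, p (a + 2) = 0 * p (a + 1) - q * p a) (hc0 : c 0 = 1)
    (hc : ∀ j : ℕ, ((j : ℝ) + 1) * c (j + 1) = ∑ a ∈ range (j + 1),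
      ((2 * 0) ^ (a + 1) - ((k : ℝ) + 1) / 2 * p (a + 1)) * c (j - a))
    (hE : c (k - 1) ^ 2 = |q| ^ (k - 1) * ((k + 1).choose 2 : ℝ) ^ 2) : False := by
  have hA := Psi_eval c (k - 1)
  have hq0 := abs_pos.2 hq
  rw [Nat.sub_add_cancel (by omega)] at hA
  rw [choose_two] at hE
  obtain ⟨N, rfl | rfl⟩ := Nat.even_or_odd' k
  · obtain ⟨m, rfl⟩ := Nat.exists_eq_add_of_le' (by omega : 1 ≤ N)
    have hn : (((2 * (m + 1) : ℕ) : ℝ) + 1) / 2 = (m : ℝ) + 1 + 1 / 2 := by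
      push_cast
      ring
    rw [hn] at hc
    rw [Psi_two hp0 hp1 hp hc0 hc, Polynomial.eval_finsetSum, sum_eq_zero fun j _ => by
      rw [Polynomial.eval_smul, smul_eq_mul]
      change _ * AA 0 q 1 _ _ = 0
      simp [AA_b0]] at hA
    refine sq_lt_of (x := 0) (y := 1) le_rfl one_pos rfl (absurd hE (ne_of_lt ?_))
    rw [← hA, zero_pow two_ne_zero]
    positivity
  · obtain ⟨m, rfl⟩ := Nat.exists_eq_add_of_le' (by omega : 1 ≤ N)
    have hm : (0 : ℝ) ≤ m := Nat.cast_nonneg m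
    have hn : (((2 * (m + 1) + 1 : ℕ) : ℝ) + 1) / 2 = ((m + 1 : ℕ) : ℝ) + 1 := by
      push_cast
      ring
    rw [hn] at hc
    rw [Psi_one hp0 hp1 hp hc0 hc] at hA
    change AA 0 q 0 1 _ = _ at hA
    rw [AA_b0, ZZ_succ, one_mul] at hA
    have h1 : 0 < |q| ^ (m + 1) := pow_pos hq0 _
    refine sq_lt_of (x := ((m : ℝ) + 2) * |q| ^ (m + 1))
      (y := ((m : ℝ) + 2) * (2 * m + 3) * |q| ^ (m + 1)) (by positivity)
      (mul_lt_mul_of_pos_right (by nlinarith) h1) (z := c (2 * (m + 1) + 1 - 1) ^ 2) ?_ ?_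
    · rw [hE, Nat.add_sub_cancel]
      push_cast
      ring
    · rw [← hA, mul_pow, mul_pow, ← abs_pow, sq_abs]
      push_cast
      ring

end Num

open Vale.Agent.P231Z.D.Num in
theorem num {k r : ℕ} (hk : 2 ≤ k) (hr : 3 ≤ r) {b q : ℝ} (hq : q ≠ 0) {p c : ℕ → ℝ}
    (hp0 : p 0 = 2) (hp1 : p 1 = b) (hp : ∀ a, p (a + 2) = b * p (a + 1) - q * p a)
    (hc0 : c 0 = 1)
    (hc : ∀ j : ℕ, ((j : ℝ) + 1) * c (j + 1) = ∑ a ∈ Finset.range (j + 1),
      ((2 * b) ^ (a + 1) - ((k : ℝ) + 1) / 2 * p (a + 1)) * c (j - a))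
    (hodd : Odd r → b = 0) (hpos : Even r → 0 < q)
    (hE : c (k - 1) ^ 2 = |q| ^ (k - 1) * ((k + 1).choose 2 : ℝ) ^ 2)
    (hZ : Even r → 3 / 2 * ∑ a ∈ Finset.range (k - 1),
      (((k : ℝ) + 1) * p (a + 1) - (2 * b) ^ (a + 1)) * c (k - 1 - (a + 1)) /
        ((r : ℝ) * (a + 1) - 1) = ((k : ℝ) - 1) * c (k - 1)) :
    k = 2 ∧ r = 4 := by
  have hb : b ≠ 0 := by
    rintro rfl
    exact b_ne hk hq hp0 hp1 hp hc0 hc hE
  have he : Even r := Nat.not_odd_iff_even.1 fun h => hb (hodd h)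
  have hq0 := hpos he
  have hZ' := hZ he
  have hr4 : 4 ≤ r := by
    obtain ⟨t, rfl⟩ := he
    omega
  rw [abs_of_pos hq0] at hE
  rcases hk.eq_or_lt with rfl | hk3
  · refine ⟨rfl, ?_⟩
    have h1 := hc 0
    have h2 : (4 : ℝ) ≤ r := by exact_mod_cast hr4
    have h3 : (r : ℝ) - 1 ≠ 0 := by linarith
    norm_num [hc0, hp1] at h1 hZ'
    rw [h1] at hZ'
    field_simp at hZ'
    have h4 : (r : ℝ) = 4 := by linarith
    exact_mod_cast h4
  exfalso
  rcases lt_or_gt_of_ne hb with h | h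
  · refine core (b := -b) (p := fun a => (-1) ^ a * p a) (c := fun j => (-1) ^ j * c j) hk3 hr4
      (neg_pos.2 h) hq0 (by simp [hp0]) (by simp [hp1]) (fun a => ?_) (by simp [hc0])
      (fun j => ?_) ?_ ?_
    · rw [hp]
      ring
    · rw [mul_left_comm, hc, mul_sum]
      refine sum_congr rfl fun a ha => ?_
      obtain ⟨i, rfl⟩ := Nat.exists_eq_add_of_le (Nat.lt_succ_iff.1 (mem_range.1 ha))
      rw [Nat.add_sub_cancel_left, show 2 * -b = -1 * (2 * b) by ring, mul_pow (-1 : ℝ)]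
      ring
    · rw [mul_pow, ← pow_mul, mul_comm (k - 1), pow_mul, neg_one_sq, one_pow, one_mul, hE]
    · rw [mul_left_comm ((k : ℝ) - 1), ← hZ', mul_left_comm, mul_sum _ _ ((-1 : ℝ) ^ (k - 1))]
      refine congrArg _ (sum_congr rfl fun a ha => ?_)
      obtain ⟨i, hi⟩ := Nat.exists_eq_add_of_le (Nat.succ_le_of_lt (mem_range.1 ha))
      rw [hi, Nat.succ_eq_add_one, Nat.add_sub_cancel_left, show 2 * -b = -1 * (2 * b) by ring,
        mul_pow]
      ring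
  · exact core hk3 hr4 h hq0 hp0 hp1 hp hc0 hc hE hZ'

end Vale.Agent.P231Z.D
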