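import Mathlib

/-!
P231, the numerical inequality, part 1: a linear functional on polynomials and the estimates
of the model polynomials.
-/

open Polynomial Finset

noncomputable section

namespace Vale.Agent.P231Z.D.Num

/-- multiply the coefficients by a sequence -/
def tw (φ : ℕ → ℝ) : ℝ[X] →ₗ[ℝ] ℝ[X] := Polynomial.lsum fun a => φ a • Polynomial.monomial a

/-- the functional `v ^ a ↦ 1 / (r a - 1)` -/
def lam (r : ℕ) : ℝ[X] →ₗ[ℝ] ℝ :=
  Polynomial.lsum fun a => (1 / ((r : ℝ) * a - 1)) • LinearMap.id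

theorem tw_mono (φ : ℕ → ℝ) (a : ℕ) (c : ℝ) : tw φ (monomial a c) = monomial a (φ a * c) := by
  simp [tw, Polynomial.lsum_apply, Polynomial.sum_monomial_index, smul_monomial]

theorem lam_mono (r a : ℕ) (c : ℝ) : lam r (monomial a c) = c / ((r : ℝ) * a - 1) := by
  simp [lam, Polynomial.lsum_apply, Polynomial.sum_monomial_index, div_eq_inv_mul]

theorem den_ne {r : ℕ} (hr : 3 ≤ r) (a : ℕ) : (r : ℝ) * a - 1 ≠ 0 := by
  have h3 : (3 : ℝ) ≤ r := by exact_mod_cast hr
  rcases a with _ | a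
  · simp
  · have h0 : (0 : ℝ) ≤ a := Nat.cast_nonneg a
    push_cast
    nlinarith

theorem lam_deriv {r : ℕ} (hr : 3 ≤ r) (f : ℝ[X]) :
    r * lam r (X * derivative f) = lam r f + f.eval 1 := by
  induction f using Polynomial.induction_on' with
  | add f g hf hg =>
    rw [derivative_add, mul_add, map_add, map_add, eval_add]
    linarith
  | monomial a c =>
    have h1 : X * derivative (monomial a c) = monomial a (c * a) := by
      rcases a with _ | a
      · simp
      · rw [derivative_monomial_succ, X_mul_monomial]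
        push_cast
        rfl
    have h2 := den_ne hr a
    rw [h1, lam_mono, lam_mono, eval_monomial, one_pow]
    field_simp
    ring

theorem lam_int {r : ℕ} (hr : 3 ≤ r) (g : ℝ[X]) :
    lam r (X * g) = ∫ u in (0 : ℝ)..1, u ^ (r - 2) * g.eval (u ^ r) := by
  induction g using Polynomial.induction_on' with
  | add f g hf hg =>
    rw [mul_add, map_add, hf, hg, ← intervalIntegral.integral_add]
    · simp only [eval_add, mul_add]
    · exact (by fun_prop : Continuous fun u : ℝ => u ^ (r - 2) * f.eval (u ^ r)).intervalIntegrable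
        _ _
    · exact (by fun_prop : Continuous fun u : ℝ => u ^ (r - 2) * g.eval (u ^ r)).intervalIntegrable
        _ _
  | monomial a c =>
    obtain ⟨t, rfl⟩ := Nat.exists_eq_add_of_le' (by omega : 2 ≤ r)
    have h1 : ∀ u : ℝ, u ^ (t + 2 - 2) * (monomial a c).eval (u ^ (t + 2)) =
        c * u ^ (t + (t + 2) * a) := fun u => by
      rw [eval_monomial, Nat.add_sub_cancel, pow_add u t ((t + 2) * a), pow_mul]
      ring
    simp only [h1]
    rw [X_mul_monomial, lam_mono, intervalIntegral.integral_const_mul, integral_pow,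
      zero_pow (by omega), one_pow]
    push_cast
    ring

theorem lam_nonneg {r : ℕ} (hr : 3 ≤ r) {f : ℝ[X]} (h0 : f.eval 0 = 0)
    (h : ∀ v, 0 < v → v ≤ 1 → 0 ≤ f.eval v) : 0 ≤ lam r f := by
  obtain ⟨g, rfl⟩ : X ∣ f := by
    rw [X_dvd_iff, coeff_zero_eq_eval_zero]
    exact h0
  rw [lam_int hr]
  refine intervalIntegral.integral_nonneg zero_le_one fun u hu => ?_
  rcases hu.1.eq_or_lt with h1 | h1
  · rw [← h1, zero_pow (by omega), zero_mul]
  · have h2 : 0 < u ^ r := pow_pos h1 r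
    have h3 := h _ h2 (pow_le_one₀ h1.le hu.2)
    rw [eval_mul, eval_X] at h3
    exact mul_nonneg (pow_pos h1 _).le (nonneg_of_mul_nonneg_right h3 h2)

theorem lam_le {r : ℕ} (hr : 3 ≤ r) {f g : ℝ[X]} (h0 : f.eval 0 = g.eval 0)
    (h : ∀ v, 0 < v → v ≤ 1 → f.eval v ≤ g.eval v) : lam r f ≤ lam r g := by
  have h1 := lam_nonneg hr (f := g - f) (by rw [eval_sub, h0, sub_self])
    fun v h1 h2 => by rw [eval_sub]; linarith [h v h1 h2]
  rw [map_sub] at h1
  linarith

theorem lam_C (r : ℕ) (c : ℝ) : lam r (C c) = -c := by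
  rw [← monomial_zero_left, lam_mono]
  simp [div_neg]

theorem lam_X (r : ℕ) : lam r X = 1 / ((r : ℝ) - 1) := by
  rw [← monomial_one_one_eq_X, lam_mono]
  simp

theorem tw_eval_pow (t v : ℝ) (P : ℝ[X]) : (tw (fun a => t ^ a) P).eval v = P.eval (t * v) := by
  induction P using Polynomial.induction_on' with
  | add f g hf hg => rw [map_add, eval_add, eval_add, hf, hg]
  | monomial a c =>
    rw [tw_mono, eval_monomial, eval_monomial, mul_pow]
    ring

theorem tw_eval_re {p : ℕ → ℝ} {α : ℂ} (hp : ∀ a, p a = 2 * (α ^ a).re) (v : ℝ) (P : ℝ[X]) :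
    (tw p P).eval v = 2 * (aeval (α * v) P).re := by
  induction P using Polynomial.induction_on' with
  | add f g hf hg =>
    rw [map_add, eval_add, map_add, Complex.add_re, hf, hg]
    ring
  | monomial a c =>
    rw [tw_mono, eval_monomial, aeval_monomial, hp, mul_pow, ← Complex.ofReal_pow,
      Complex.coe_algebraMap, Complex.re_ofReal_mul, Complex.re_mul_ofReal]
    ring

/-- the quadratic polynomial -/
def eta (b q : ℝ) : ℝ[X] := X ^ 2 - C b * X + C q

section Cx

variable {b q v : ℝ} {α : ℂ}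

theorem re_le_pow (hn : ‖α‖ ^ 2 = q) (hv : 0 ≤ v) (i : ℕ) :
    ‖((q : ℂ) - α ^ 2 * v) ^ i‖ ≤ q ^ i * (1 + v) ^ i := by
  have hq : 0 ≤ q := hn ▸ sq_nonneg _
  rw [norm_pow, ← mul_pow]
  refine pow_le_pow_left₀ (norm_nonneg _) ((norm_sub_le _ _).trans (le_of_eq ?_)) i
  rw [norm_mul, norm_pow, hn, Complex.norm_real, Complex.norm_real, Real.norm_of_nonneg hq,
    Real.norm_of_nonneg hv]
  ring

theorem re_odd (hα : α ^ 2 = b * α - q) (hn : ‖α‖ ^ 2 = q) (hb : 2 * α.re = b) (hb0 : 0 ≤ b)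
    (hv : 0 ≤ v) (i : ℕ) : 2 * (α * ((q : ℂ) - α ^ 2 * v) ^ i).re ≤
      b * q ^ i * ((1 + v) ^ i + 2 * v * (i * (1 + v) ^ (i - 1))) := by
  have hq : 0 ≤ q := hn ▸ sq_nonneg _
  induction i with
  | zero => simp [hb]
  | succ i ih =>
    have h1 : α * ((q : ℂ) - α ^ 2 * v) ^ (i + 1) =
        ((q * (1 + v) : ℝ) : ℂ) * (α * ((q : ℂ) - α ^ 2 * v) ^ i) -
          ((b * v : ℝ) : ℂ) * (α ^ 2 * ((q : ℂ) - α ^ 2 * v) ^ i) := by
      push_cast
      rw [pow_succ]
      linear_combination (-(α * ((q : ℂ) - α ^ 2 * v) ^ i * v)) * hα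
    have h2 : -(α ^ 2 * ((q : ℂ) - α ^ 2 * v) ^ i).re ≤ q * (q ^ i * (1 + v) ^ i) := by
      refine (neg_le_abs _).trans ((Complex.abs_re_le_norm _).trans ?_)
      rw [norm_mul, norm_pow α, hn]
      exact mul_le_mul_of_nonneg_left (re_le_pow hn hv i) hq
    have h3 : (1 + v) * (i * (1 + v) ^ (i - 1)) = i * (1 + v) ^ i := by
      rcases i with _ | i
      · simp
      · rw [Nat.add_sub_cancel, pow_succ]
        ring
    rw [h1, Complex.sub_re, Complex.re_ofReal_mul, Complex.re_ofReal_mul, Nat.add_sub_cancel]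
    have h4 := mul_le_mul_of_nonneg_left ih (show 0 ≤ q * (1 + v) by positivity)
    have h5 := mul_le_mul_of_nonneg_left h2 (show 0 ≤ 2 * (b * v) by positivity)
    have h6 : q * (1 + v) * (b * q ^ i * ((1 + v) ^ i + 2 * v * (i * (1 + v) ^ (i - 1)))) =
        b * q ^ (i + 1) * ((1 + v) ^ (i + 1) + 2 * v * (i * (1 + v) ^ i)) := by
      rw [← h3]
      ring
    push_cast
    rw [h6] at h4
    rw [pow_succ q] at h4 ⊢
    linarith

end Cx

theorem exists_root {b q : ℝ} (hd : b ^ 2 ≤ 4 * q) :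
    ∃ α : ℂ, α ^ 2 = b * α - q ∧ ‖α‖ ^ 2 = q ∧ 2 * α.re = b := by
  have h1 := Real.sq_sqrt (show 0 ≤ q - b ^ 2 / 4 by linarith)
  refine ⟨⟨b / 2, Real.sqrt (q - b ^ 2 / 4)⟩, ?_, ?_, by ring⟩
  · refine Complex.ext ?_ ?_
    · simp only [pow_two] at h1
      simp [pow_two]
      linarith
    · simp [pow_two]
      ring
  · rw [Complex.sq_norm, Complex.normSq_mk]
    nlinarith

theorem p_eq {b q : ℝ} {α : ℂ} (hα : α ^ 2 = b * α - q) (hb : 2 * α.re = b) {p : ℕ → ℝ}
    (hp0 : p 0 = 2) (hp1 : p 1 = b) (hp : ∀ a, p (a + 2) = b * p (a + 1) - q * p a) (a : ℕ) :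
    p a = 2 * (α ^ a).re := by
  induction a using Nat.twoStepInduction with
  | zero => simp [hp0]
  | one => simp [hp1, hb]
  | more a h1 h2 =>
    have h3 : α ^ (a + 2) = (b : ℂ) * α ^ (a + 1) - (q : ℂ) * α ^ a := by
      rw [pow_add, hα]
      ring
    rw [hp, h1, h2, h3, Complex.sub_re, Complex.re_ofReal_mul, Complex.re_ofReal_mul]
    ring

/-- the bound for one term -/
theorem term_le {r : ℕ} (hr : 3 ≤ r) {b q : ℝ} (hb0 : 0 ≤ b) (hd : b ^ 2 ≤ 4 * q) {p : ℕ → ℝ}
    (hp0 : p 0 = 2) (hp1 : p 1 = b) (hp : ∀ a, p (a + 2) = b * p (a + 1) - q * p a) {D e : ℝ}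
    (hD : 0 ≤ D) (he : b * D ≤ 2 * e) (i : ℕ) :
    lam r (tw p (eta b q ^ i * (X * C D + C e))) + 2 * (q ^ i * e) ≤
      q ^ i * (b * D) / ((r : ℝ) - 1) := by
  obtain ⟨α, hα, hn, hb⟩ := exists_root hd
  have hq : 0 ≤ q := by nlinarith [sq_nonneg b]
  have he0 : 0 ≤ e := by nlinarith [mul_nonneg hb0 hD]
  have hr3 : (3 : ℝ) ≤ r := by exact_mod_cast hr
  have hev := tw_eval_re (p_eq hα hb hp0 hp1 hp)
  set E : ℝ[X] := (1 - X ^ 2) ^ i with hE
  have e0 : E.eval 0 = 1 := by simp [hE]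
  have e1 : ∀ v : ℝ, E.eval v = (1 - v) ^ i * (1 + v) ^ i := fun v => by
    rw [← mul_pow]
    simp only [hE, eval_pow, eval_sub, eval_one, eval_X]
    ring_nf
  have e2 : ∀ v : ℝ, (1 - v) * (derivative E).eval v =
      -((1 - v) ^ i * (2 * v * (i * (1 + v) ^ (i - 1)))) := fun v => by
    rw [hE, derivative_pow]
    rcases i with _ | i
    · simp
    · have h1 : (1 - v ^ 2) ^ i = (1 - v) ^ i * (1 + v) ^ i := by
        rw [← mul_pow]
        ring_nf
      simp [h1]
      ring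
  have e3 : ∀ v : ℝ, 0 < v → v ≤ 1 → E.eval v ≤ 1 := fun v h1 h2 => by
    rw [e1, ← mul_pow]
    exact pow_le_one₀ (by nlinarith) (by nlinarith)
  have ev : ∀ v : ℝ, aeval (α * v) (eta b q ^ i * (X * C D + C e)) =
      (((1 - v) ^ i : ℝ) : ℂ) * ((e : ℂ) * ((q : ℂ) - α ^ 2 * v) ^ i +
        ((v * D : ℝ) : ℂ) * (α * ((q : ℂ) - α ^ 2 * v) ^ i)) := fun v => by
    have h1 : aeval (α * v) (eta b q) = (1 - v) * ((q : ℂ) - α ^ 2 * v) := by
      simp only [eta, map_add, map_sub, map_mul, map_pow, aeval_X, aeval_C,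
        Complex.coe_algebraMap]
      linear_combination (v : ℂ) * hα
    rw [map_mul, map_pow, h1, mul_pow]
    simp only [map_add, map_mul, aeval_X, aeval_C, Complex.coe_algebraMap]
    push_cast
    ring
  have h1 : lam r (tw p (eta b q ^ i * (X * C D + C e))) ≤ lam r ((2 * (q ^ i * e)) • E +
      (q ^ i * (b * D)) • (X * E - X * derivative E + X * (X * derivative E))) := by
    refine lam_le hr ?_ fun v h1 h2 => ?_
    · rw [hev, ev]
      simp [e0, ← Complex.ofReal_pow]
      ring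
    · rw [hev, ev, Complex.re_ofReal_mul, Complex.add_re, Complex.re_ofReal_mul,
        Complex.re_ofReal_mul]
      simp only [eval_add, eval_sub, eval_smul, eval_mul, eval_X, smul_eq_mul]
      have a1 := (Complex.re_le_norm _).trans (re_le_pow hn h1.le i)
      have a2 := re_odd hα hn hb hb0 h1.le i
      have a3 : 0 ≤ (1 - v) ^ i := pow_nonneg (by linarith) i
      have a4 := mul_le_mul_of_nonneg_left a1 (mul_nonneg a3 he0)
      have a5 := mul_le_mul_of_nonneg_left a2 (mul_nonneg a3 (mul_nonneg h1.le hD))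
      have a6 : v * E.eval v - v * (derivative E).eval v + v * (v * (derivative E).eval v) =
          v * (E.eval v - (1 - v) * (derivative E).eval v) := by ring
      rw [a6, e2, e1]
      linarith
  have h2 := lam_deriv hr E
  have h3 := lam_deriv hr (X * E)
  rw [derivative_mul, derivative_X, one_mul, mul_add, map_add, eval_mul, eval_X, one_mul] at h3
  have h4 : lam r E ≤ -1 := by
    rw [← lam_C r 1]
    exact lam_le hr (by simp [e0]) fun v h1 h2 => by simpa using e3 v h1 h2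
  have h5 : lam r (X * E) ≤ 1 / ((r : ℝ) - 1) := by
    rw [← lam_X]
    refine lam_le hr (by simp) fun v h1 h2 => ?_
    rw [eval_mul, eval_X]
    exact mul_le_of_le_one_right h1.le (e3 v h1 h2)
  simp only [map_add, map_sub, map_smul, smul_eq_mul] at h1
  have h6 : (r : ℝ) * (1 / ((r : ℝ) - 1)) = 1 / ((r : ℝ) - 1) + 1 := by
    have : (r : ℝ) - 1 ≠ 0 := by linarith
    field_simp
    ring
  have h7 : lam r (X * E) - lam r (X * derivative E) + lam r (X * (X * derivative E)) ≤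
      1 / ((r : ℝ) - 1) + (-1 - lam r E) := by
    refine le_of_mul_le_mul_left ?_ (show (0 : ℝ) < r by linarith)
    nlinarith
  have h8 : 0 ≤ q ^ i := pow_nonneg hq i
  have h9 := mul_le_mul_of_nonneg_left h7 (mul_nonneg h8 (mul_nonneg hb0 hD))
  have h10 := mul_nonneg (mul_nonneg h8 (sub_nonneg.2 he)) (sub_nonneg.2 h4)
  rw [div_eq_mul_one_div]
  nlinarith

end Vale.Agent.P231Z.D.Num
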