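import Vale.Agent.P231Z.D.Num1

/-!
P231, the numerical inequality, part 2: the model polynomials.
-/

open Polynomial Finset

noncomputable section

namespace Vale.Agent.P231Z.D.Num

/-- top values -/
def yy (b q t0 t1 : ℝ) (m : ℕ) : ℝ := (2 * b * t0 + t1) * (q + 2 * b ^ 2) ^ m

/-- first divided differences -/
def DD (b q t0 t1 : ℝ) : ℕ → ℝ
  | 0 => t0
  | m + 1 => q * DD b q t0 t1 m + b * yy b q t0 t1 m

/-- constant terms -/
def ee (b q t0 t1 : ℝ) (m : ℕ) : ℝ := yy b q t0 t1 m - b * DD b q t0 t1 m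

/-- the model polynomials -/
def PP (b q t0 t1 : ℝ) : ℕ → ℝ[X]
  | 0 => 0
  | m + 1 => eta b q * PP b q t0 t1 m + (X * C (DD b q t0 t1 m) + C (ee b q t0 t1 m))

/-- their values at zero -/
def AA (b q t0 t1 : ℝ) (m : ℕ) : ℝ := (PP b q t0 t1 m).eval 0

/-- `m q ^ (m - 1)` -/
def ZZ (q : ℝ) : ℕ → ℝ
  | 0 => 0
  | m + 1 => q * ZZ q m + q ^ m

variable {b q t0 t1 : ℝ}

theorem eta_eval (w : ℝ) : (eta b q).eval w = w ^ 2 - b * w + q := by simp [eta]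

theorem PP_eval (w : ℝ) (m : ℕ) : (PP b q t0 t1 (m + 1)).eval w =
    (w ^ 2 - b * w + q) * (PP b q t0 t1 m).eval w + (w * DD b q t0 t1 m + ee b q t0 t1 m) := by
  simp [PP, eta_eval, mul_comm w]

theorem AA_zero : AA b q t0 t1 0 = 0 := by simp [AA, PP]

theorem AA_succ (m : ℕ) : AA b q t0 t1 (m + 1) = q * AA b q t0 t1 m + ee b q t0 t1 m := by
  simp [AA, PP_eval]

theorem yy_succ (m : ℕ) : yy b q t0 t1 (m + 1) = (q + 2 * b ^ 2) * yy b q t0 t1 m := by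
  unfold yy
  ring

theorem ee_succ (m : ℕ) :
    ee b q t0 t1 (m + 1) = q * ee b q t0 t1 m + b ^ 2 * yy b q t0 t1 m := by
  simp only [ee, DD, yy_succ]
  ring

theorem ee_zero : ee b q t0 t1 0 = b * t0 + t1 := by
  simp only [ee, DD, yy]
  ring

theorem ee_sub (m : ℕ) : ee b q t0 t1 m = b * DD b q t0 t1 m + t1 * q ^ m := by
  induction m with
  | zero => simp [ee_zero, DD]
  | succ m ih =>
    rw [ee_succ, ih, DD]
    ring

theorem ZZ_succ (m : ℕ) : ZZ q (m + 1) = (m + 1) * q ^ m := by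
  induction m with
  | zero => simp [ZZ]
  | succ m ih =>
    rw [ZZ, ih]
    push_cast
    ring

theorem ZZ_nonneg (hq : 0 ≤ q) (m : ℕ) : 0 ≤ ZZ q m := by
  rcases m with _ | m
  · exact le_rfl
  · rw [ZZ_succ]
    positivity

theorem yy_nonneg (hq : 0 ≤ q) (hy : 0 ≤ 2 * b * t0 + t1) (m : ℕ) : 0 ≤ yy b q t0 t1 m := by
  unfold yy
  positivity

theorem DD_ge (hb : 0 ≤ b) (hq : 0 ≤ q) (hy : 0 ≤ 2 * b * t0 + t1) (m : ℕ) :
    t0 * q ^ m ≤ DD b q t0 t1 m := by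
  induction m with
  | zero => simp [DD]
  | succ m ih =>
    rw [DD, pow_succ]
    nlinarith [mul_le_mul_of_nonneg_left ih hq, mul_nonneg hb (yy_nonneg hq hy m)]

theorem ee_ge (hq : 0 ≤ q) (hy : 0 ≤ 2 * b * t0 + t1) (m : ℕ) :
    (b * t0 + t1) * q ^ m ≤ ee b q t0 t1 m := by
  induction m with
  | zero => simp [ee_zero]
  | succ m ih =>
    rw [ee_succ, pow_succ]
    nlinarith [mul_le_mul_of_nonneg_left ih hq, mul_nonneg (sq_nonneg b) (yy_nonneg hq hy m)]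

/-- the two admissible starting data -/
def Adm (b t0 t1 : ℝ) : Prop := (t0 = 0 ∧ t1 = 1) ∨ (t0 = 1 ∧ t1 = -(b / 2))

theorem Adm.hy (h : Adm b t0 t1) (hb : 0 ≤ b) : 0 ≤ 2 * b * t0 + t1 := by
  rcases h with ⟨rfl, rfl⟩ | ⟨rfl, rfl⟩ <;> linarith

theorem Adm.D0 (h : Adm b t0 t1) (hb : 0 ≤ b) (hq : 0 ≤ q) (m : ℕ) : 0 ≤ DD b q t0 t1 m := by
  refine le_trans ?_ (DD_ge hb hq (h.hy hb) m)
  rcases h with ⟨rfl, rfl⟩ | ⟨rfl, rfl⟩ <;> positivity

theorem Adm.De (h : Adm b t0 t1) (hb : 0 ≤ b) (hq : 0 ≤ q) (m : ℕ) :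
    b * DD b q t0 t1 m ≤ 2 * ee b q t0 t1 m := by
  have h1 := mul_le_mul_of_nonneg_left (DD_ge hb hq (h.hy hb) m) hb
  have h2 : 0 ≤ q ^ m := pow_nonneg hq m
  rw [ee_sub]
  rcases h with ⟨rfl, rfl⟩ | ⟨rfl, rfl⟩ <;> linarith

theorem B_le {r : ℕ} (hr : 3 ≤ r) (h : Adm b t0 t1) (hb : 0 ≤ b) (hd : b ^ 2 ≤ 4 * q) {p : ℕ → ℝ}
    (hp0 : p 0 = 2) (hp1 : p 1 = b) (hp : ∀ a, p (a + 2) = b * p (a + 1) - q * p a) (m : ℕ) :
    ∀ i, lam r (tw p (eta b q ^ i * PP b q t0 t1 m)) + 2 * (q ^ i * AA b q t0 t1 m) ≤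
      q ^ i * (AA b q t0 t1 m - t1 * ZZ q m) / ((r : ℝ) - 1) := by
  have hq : 0 ≤ q := by nlinarith [sq_nonneg b]
  induction m with
  | zero => intro i; simp [PP, AA_zero, ZZ]
  | succ m ih =>
    intro i
    have h1 := ih (i + 1)
    have h2 := term_le hr hb hd hp0 hp1 hp (h.D0 hb hq m) (h.De hb hq m) i
    have h3 : q ^ i * (q * AA b q t0 t1 m + ee b q t0 t1 m - t1 * (q * ZZ q m + q ^ m)) /
        ((r : ℝ) - 1) = q ^ (i + 1) * (AA b q t0 t1 m - t1 * ZZ q m) / ((r : ℝ) - 1) +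
          q ^ i * (b * DD b q t0 t1 m) / ((r : ℝ) - 1) := by
      rw [ee_sub]
      ring
    rw [PP, mul_add, ← mul_assoc, ← pow_succ, map_add, map_add, AA_succ, ZZ, h3]
    rw [pow_succ q] at h1 ⊢
    linarith

theorem Y_ge (h : Adm b t0 t1) (hb : 0 ≤ b) (hd : b ^ 2 ≤ 4 * q) {w : ℝ} (hw : 0 ≤ w) (m : ℕ) :
    t0 * q ^ m ≤ (w - b) * (PP b q t0 t1 m).eval w + DD b q t0 t1 m := by
  have hq : 0 ≤ q := by nlinarith [sq_nonneg b]
  induction m with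
  | zero => simp [PP, DD]
  | succ m ih =>
    have h0 : 0 ≤ w ^ 2 - b * w + q := by nlinarith [sq_nonneg (w - b / 2)]
    have h1 : (w - b) * (PP b q t0 t1 (m + 1)).eval w + DD b q t0 t1 (m + 1) =
        (w ^ 2 - b * w + q) * ((w - b) * (PP b q t0 t1 m).eval w + DD b q t0 t1 m) +
          w * ee b q t0 t1 m + b ^ 2 * DD b q t0 t1 m := by
      rw [PP_eval, DD, ee]
      ring
    have h2 := mul_le_mul_of_nonneg_left ih h0
    have h3 := mul_le_mul_of_nonneg_left (ee_ge hq (h.hy hb) m) hw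
    have h4 := mul_le_mul_of_nonneg_left (DD_ge hb hq (h.hy hb) m) (sq_nonneg b)
    have h5 : 0 ≤ q ^ m := pow_nonneg hq m
    rw [h1, pow_succ q]
    rcases h with ⟨rfl, rfl⟩ | ⟨rfl, rfl⟩
    · nlinarith [mul_nonneg hw h5]
    · nlinarith [mul_nonneg h5 (show 0 ≤ w ^ 2 - b * w / 2 + b ^ 2 by
        nlinarith [sq_nonneg (w - b / 4)])]

theorem PP_ge (h : Adm b t0 t1) (hb : 0 ≤ b) (hd : b ^ 2 ≤ 4 * q) {w : ℝ} (hw : 0 ≤ w) (m : ℕ) :
    AA b q t0 t1 m + t0 * ZZ q m * w ≤ (PP b q t0 t1 m).eval w := by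
  have hq : 0 ≤ q := by nlinarith [sq_nonneg b]
  induction m with
  | zero => simp [PP, AA_zero, ZZ]
  | succ m ih =>
    have h1 := mul_le_mul_of_nonneg_left ih hq
    have h2 := mul_le_mul_of_nonneg_left (Y_ge h hb hd hw m) hw
    rw [PP_eval, AA_succ, ZZ]
    linarith

theorem C_ge {r : ℕ} (hr : 3 ≤ r) (h : Adm b t0 t1) (hb : 0 ≤ b) (hd : b ^ 2 ≤ 4 * q) (m : ℕ) :
    t0 * ZZ q m * (2 * b) / ((r : ℝ) - 1) ≤
      lam r (tw (fun a => (2 * b) ^ a) (PP b q t0 t1 m)) + AA b q t0 t1 m := by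
  have h1 : lam r (C (AA b q t0 t1 m) + (t0 * ZZ q m * (2 * b)) • X) ≤
      lam r (tw (fun a => (2 * b) ^ a) (PP b q t0 t1 m)) := by
    refine lam_le hr (by simp [tw_eval_pow, AA]) fun v h1 _ => ?_
    have h2 := PP_ge h hb hd (w := 2 * b * v) (by positivity) m
    rw [tw_eval_pow]
    simp only [eval_add, eval_C, eval_smul, eval_X, smul_eq_mul]
    linarith
  rw [map_add, map_smul, lam_C, lam_X, smul_eq_mul, mul_one_div] at h1
  linarith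

/-- the linear functional -/
def LL (r : ℕ) (n b : ℝ) (p : ℕ → ℝ) : ℝ[X] →ₗ[ℝ] ℝ :=
  (-(4 * n) - 1 / 2) • leval 0 - (3 * n) • (lam r ∘ₗ tw p) +
    (3 / 2 : ℝ) • (lam r ∘ₗ tw (fun a => (2 * b) ^ a))

theorem LL_apply (r : ℕ) (n b : ℝ) (p : ℕ → ℝ) (P : ℝ[X]) :
    LL r n b p P = (-(4 * n) - 1 / 2) * P.eval 0 - 3 * n * lam r (tw p P) +
      3 / 2 * lam r (tw (fun a => (2 * b) ^ a) P) := by
  simp [LL]

theorem AA_ge (hq : 0 ≤ q) (hy : 0 ≤ 2 * b * t0 + t1) (m : ℕ) :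
    (b * t0 + t1) * ZZ q m ≤ AA b q t0 t1 m := by
  induction m with
  | zero => simp [AA_zero, ZZ]
  | succ m ih =>
    rw [AA_succ, ZZ]
    nlinarith [mul_le_mul_of_nonneg_left ih hq, ee_ge hq hy m]

theorem AA_gt (hb : 0 < b) (hq : 0 < q) (m : ℕ) :
    b / 2 * ZZ q (m + 2) < AA b q 1 (-(b / 2)) (m + 2) := by
  have hy : 0 ≤ 2 * b * 1 + -(b / 2) := by linarith
  have h1 := mul_le_mul_of_nonneg_left (AA_ge hq.le hy (m + 1)) hq.le
  have h2 := mul_le_mul_of_nonneg_left (ee_ge hq.le hy m) hq.le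
  have h3 : 0 < b ^ 2 * yy b q 1 (-(b / 2)) m := by
    have : 0 < 2 * b * 1 + -(b / 2) := by linarith
    unfold yy
    positivity
  rw [AA_succ, ee_succ, ZZ, pow_succ q]
  linarith

theorem rho_le {r : ℕ} (hr : 4 ≤ r) : 0 < 1 / ((r : ℝ) - 1) ∧ 1 / ((r : ℝ) - 1) ≤ 1 / 3 := by
  have h : (4 : ℝ) ≤ r := by exact_mod_cast hr
  exact ⟨one_div_pos.2 (by linarith), one_div_le_one_div_of_le (by norm_num) (by linarith)⟩

theorem LL_one {r : ℕ} (hr : 4 ≤ r) {n : ℝ} (hn : 2 ≤ n) (hb : 0 ≤ b) (hq : 0 < q)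
    (hd : b ^ 2 ≤ 4 * q) {p : ℕ → ℝ} (hp0 : p 0 = 2) (hp1 : p 1 = b)
    (hp : ∀ a, p (a + 2) = b * p (a + 1) - q * p a) (m : ℕ) :
    0 < LL r n b p (PP b q 0 1 (m + 1)) := by
  have h : Adm b 0 1 := Or.inl ⟨rfl, rfl⟩
  have h1 := B_le (by omega : 3 ≤ r) h hb hd hp0 hp1 hp (m + 1) 0
  have h2 := C_ge (by omega : 3 ≤ r) h hb hd (m + 1)
  have h3 := AA_ge hq.le (h.hy hb) (m + 1)
  have h4 : 0 < ZZ q (m + 1) := by
    rw [ZZ_succ]
    positivity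
  obtain ⟨-, h5⟩ := rho_le hr
  simp only [pow_zero, one_mul, zero_mul, zero_div, mul_zero, zero_add] at h1 h2 h3
  rw [div_eq_mul_one_div] at h1
  have h6 := h1.trans (mul_le_mul_of_nonneg_left h5 (sub_nonneg.2 h3))
  rw [LL_apply]
  change 0 < _ * AA b q 0 1 (m + 1) - _ + _
  nlinarith [mul_le_mul_of_nonneg_left h6 (show 0 ≤ n by linarith),
    mul_nonneg (sub_nonneg.2 hn) (h4.le.trans h3)]

theorem LL_two {r : ℕ} (hr : 4 ≤ r) {n : ℝ} (hn : 2 ≤ n) (hb : 0 ≤ b)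
    (hd : b ^ 2 ≤ 4 * q) {p : ℕ → ℝ} (hp0 : p 0 = 2) (hp1 : p 1 = b)
    (hp : ∀ a, p (a + 2) = b * p (a + 1) - q * p a) (m : ℕ) :
    (n - 2) * (AA b q 1 (-(b / 2)) m - b / 2 * ZZ q m) ≤ LL r n b p (PP b q 1 (-(b / 2)) m) := by
  have hq : 0 ≤ q := by nlinarith [sq_nonneg b]
  have h : Adm b 1 (-(b / 2)) := Or.inr ⟨rfl, rfl⟩
  have h1 := B_le (by omega : 3 ≤ r) h hb hd hp0 hp1 hp m 0
  have h2 := C_ge (by omega : 3 ≤ r) h hb hd m
  have h3 := AA_ge hq (h.hy hb) m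
  have h4 := mul_nonneg hb (ZZ_nonneg hq m)
  obtain ⟨-, h5⟩ := rho_le hr
  simp only [pow_zero, one_mul] at h1 h2
  rw [div_eq_mul_one_div _ ((r : ℝ) - 1)] at h1 h2
  rw [LL_apply]
  change _ ≤ _ * AA b q 1 (-(b / 2)) m - _ + _
  generalize 1 / ((r : ℝ) - 1) = ρ at h1 h2 h5
  have h6 : 0 ≤ AA b q 1 (-(b / 2)) m - b / 2 * ZZ q m := by linarith
  have h7 := mul_le_mul_of_nonneg_left h1 (show 0 ≤ 3 * n by linarith)
  have h8 := mul_nonneg (mul_nonneg h6 (show 0 ≤ n by linarith)) (sub_nonneg.2 h5)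
  have h9 := mul_nonneg (mul_nonneg h4 (show 0 ≤ n - 1 by linarith)) (sub_nonneg.2 h5)
  nlinarith

/-! ### negative discriminant is necessary -/

theorem AA_one_gt (hq : 0 < q) (hd : 4 * q < b ^ 2) (m : ℕ) :
    ((m : ℝ) + 2) * (2 * m + 3) * q ^ (m + 1) < AA b q 0 1 (m + 2) := by
  have hy : ∀ m, q ^ m ≤ yy b q 0 1 m := fun m => by
    simp only [yy, mul_zero, zero_add, one_mul]
    exact pow_le_pow_left₀ hq.le (by nlinarith) m
  have he : ∀ m : ℕ, (4 * (m : ℝ) + 5) * q ^ (m + 1) < ee b q 0 1 (m + 1) := fun m => by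
    induction m with
    | zero =>
      rw [ee_succ, ee_zero]
      simp [yy]
      linarith
    | succ m ih =>
      rw [ee_succ, pow_succ q (m + 1)]
      have h1 := mul_le_mul hd.le (hy (m + 1)) (by positivity) (sq_nonneg b)
      push_cast
      nlinarith [mul_lt_mul_of_pos_left ih hq]
  induction m with
  | zero =>
    have h1 := he 0
    rw [AA_succ, AA_succ, AA_zero, ee_zero]
    simp at h1 ⊢
    linarith
  | succ m ih =>
    have h1 := he (m + 1)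
    rw [AA_succ]
    rw [pow_succ q (m + 1)] at h1 ⊢
    push_cast at h1 ⊢
    nlinarith [mul_lt_mul_of_pos_left ih hq]

theorem AA_two_step (hb : 0 ≤ b) (hq : 0 ≤ q) (m : ℕ) :
    (q + 2 * b ^ 2) * AA b q 1 (-(b / 2)) m ≤ AA b q 1 (-(b / 2)) (m + 1) := by
  have h : 2 * b ^ 2 * AA b q 1 (-(b / 2)) m ≤ ee b q 1 (-(b / 2)) m := by
    induction m with
    | zero =>
      rw [AA_zero, ee_zero]
      linarith
    | succ m ih =>
      have h1 := ee_sub (b := b) (q := q) (t0 := 1) (t1 := -(b / 2)) m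
      have h2 : yy b q 1 (-(b / 2)) m = 2 * ee b q 1 (-(b / 2)) m + b / 2 * q ^ m := by
        have h3 : ee b q 1 (-(b / 2)) m = yy b q 1 (-(b / 2)) m - b * DD b q 1 (-(b / 2)) m := rfl
        linarith
      have h4 : 0 ≤ b ^ 2 * (b / 2 * q ^ m) := by positivity
      rw [AA_succ, ee_succ, h2]
      nlinarith [mul_le_mul_of_nonneg_left ih hq]
  rw [AA_succ]
  linarith

theorem AA_two_nonneg (hb : 0 ≤ b) (hq : 0 ≤ q) (m : ℕ) : 0 ≤ AA b q 1 (-(b / 2)) m := by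
  refine le_trans ?_ (AA_ge hq (by linarith) m)
  exact mul_nonneg (by linarith) (ZZ_nonneg hq m)

theorem sum_abs_le {A : ℕ → ℝ} {d : ℝ} (hA : ∀ m, 0 ≤ A m) (h : ∀ m, 8 * |d| * A m ≤ A (m + 1))
    (M : ℕ) : ∀ w : ℕ → ℝ, (∀ j, |w j| ≤ 1) →
      |∑ j ∈ range M, w j * d ^ j * A (M - j)| ≤ 8 / 7 * A M := by
  induction M with
  | zero => intro w _; simpa using hA 0
  | succ M ih =>
    intro w hw
    have h1 : ∑ j ∈ range (M + 1), w j * d ^ j * A (M + 1 - j) =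
        d * ∑ j ∈ range M, w (j + 1) * d ^ j * A (M - j) + w 0 * A (M + 1) := by
      rw [sum_range_succ', mul_sum]
      simp only [Nat.add_sub_add_right, pow_zero, mul_one, Nat.sub_zero]
      exact congrArg (· + _) (sum_congr rfl fun j _ => by ring)
    rw [h1]
    refine (abs_add_le _ _).trans ?_
    rw [abs_mul, abs_mul, abs_of_nonneg (hA _)]
    have h2 := mul_le_mul_of_nonneg_left (ih (fun j => w (j + 1)) fun j => hw _) (abs_nonneg d)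
    have h3 := mul_le_mul_of_nonneg_right (hw 0) (hA (M + 1))
    linarith [h M]

theorem sum_two_ge (hb : 0 < b) (hq : 0 < q) (hd : 4 * q < b ^ 2) {w : ℕ → ℝ} (hw0 : w 0 = 1)
    (hw : ∀ j, |w j| ≤ 1) (m : ℕ) : b / 2 * (((m : ℝ) + 2) * (2 * m + 5) * q ^ (m + 1)) ≤
      ∑ j ∈ range (m + 2), w j * (q - b ^ 2 / 4) ^ j * AA b q 1 (-(b / 2)) (m + 2 - j) := by
  have hA := AA_two_nonneg hb.le hq.le
  have h1 : ∀ m, 8 * |q - b ^ 2 / 4| * AA b q 1 (-(b / 2)) m ≤ AA b q 1 (-(b / 2)) (m + 1) :=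
    fun m => le_trans (mul_le_mul_of_nonneg_right (by
      rw [abs_of_neg (by linarith)]
      linarith) (hA m)) (AA_two_step hb.le hq.le m)
  have h2 := sum_abs_le hA h1 (m + 1) (fun j => w (j + 1)) fun j => hw _
  have h3 : ∑ j ∈ range (m + 2), w j * (q - b ^ 2 / 4) ^ j * AA b q 1 (-(b / 2)) (m + 2 - j) =
      (q - b ^ 2 / 4) * ∑ j ∈ range (m + 1), w (j + 1) * (q - b ^ 2 / 4) ^ j *
        AA b q 1 (-(b / 2)) (m + 1 - j) + AA b q 1 (-(b / 2)) (m + 2) := by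
    rw [sum_range_succ', mul_sum, hw0]
    simp only [pow_zero, mul_one, Nat.sub_zero, one_mul]
    exact congrArg (· + _) (sum_congr rfl fun j _ => by
      rw [show m + 2 - (j + 1) = m + 1 - j by omega]
      ring)
  have h4 := mul_le_mul_of_nonneg_left h2 (abs_nonneg (q - b ^ 2 / 4))
  rw [← abs_mul] at h4
  have h5 : b / 2 * (((m : ℝ) + 2) * (2 * m + 5) * q ^ (m + 1)) ≤
      6 / 7 * AA b q 1 (-(b / 2)) (m + 2) := by
    clear h2 h3 h4
    induction m with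
    | zero =>
      rw [AA_succ, AA_succ, AA_zero, ee_succ, ee_zero]
      simp [yy]
      nlinarith [mul_lt_mul_of_pos_left hd hb, mul_pos hb hq]
    | succ m ih =>
      have a1 := AA_two_step hb.le hq.le (m + 2)
      have a2 := mul_le_mul_of_nonneg_right (show 9 * q ≤ q + 2 * b ^ 2 by linarith) (hA (m + 2))
      have a3 := mul_le_mul_of_nonneg_left ih hq.le
      have a4 : (0 : ℝ) ≤ m := Nat.cast_nonneg m
      have a5 : 0 ≤ b * (q ^ (m + 1) * q) := by positivity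
      rw [pow_succ q (m + 1)]
      push_cast
      nlinarith [mul_nonneg a5 a4, mul_nonneg a5 (sq_nonneg (m : ℝ))]
  rw [h3]
  linarith [neg_abs_le ((q - b ^ 2 / 4) * ∑ j ∈ range (m + 1), w (j + 1) * (q - b ^ 2 / 4) ^ j *
    AA b q 1 (-(b / 2)) (m + 1 - j)), h1 (m + 1)]

end Vale.Agent.P231Z.D.Num
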