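import Vale.Agent.P231Z.D.Alg

/-!
# P231 (D), block `topZ`, part 1: the top Chern class modulo `t ^ 2 = z ^ 2 = 0`
-/

namespace Vale.Agent.P231Z.D.TZ

open PowerSeries Finset Vale.Agent.P231 Vale.Agent.P231.ChW

noncomputable section

variable {A : Type*} [CommRing A] [Algebra ℝ A]

/-! ### the Euler operator -/

/-- the operator `s d/ds` -/
def Eu (F : PowerSeries A) : PowerSeries A := X * d⁄dX A F

theorem coeff_Eu (F : PowerSeries A) (n : ℕ) : coeff n (Eu F) = (n : ℝ) • coeff n F := by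
  cases n with
  | zero => rw [Eu, coeff_zero_X_mul, Nat.cast_zero, zero_smul]
  | succ n =>
    rw [Eu, coeff_succ_X_mul, coeff_derivative, Algebra.smul_def, map_natCast]
    push_cast
    ring

omit [Algebra ℝ A] in
theorem Eu_mul (F G : PowerSeries A) : Eu (F * G) = Eu F * G + F * Eu G := by
  unfold Eu
  rw [Derivation.leibniz, smul_eq_mul, smul_eq_mul]
  ring

omit [Algebra ℝ A] in
theorem Eu_lin (a : A) (F : PowerSeries A) : Eu (1 + C a * F) = C a * Eu F := by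
  unfold Eu
  rw [map_add, derivative_one, Derivation.leibniz, derivative_C, smul_zero, add_zero, zero_add,
    smul_eq_mul]
  ring

theorem Eu_unique {F G W : PowerSeries A} (h : Eu F = W * F) (h' : Eu G = W * G)
    (h0 : coeff 0 W = 0) (hFG : coeff 0 F = coeff 0 G) : F = G := by
  ext k
  induction k using Nat.strong_induction_on with
  | _ k ih =>
    cases k with
    | zero => exact hFG
    | succ k =>
      have h1 := congrArg (coeff (k + 1)) h
      have h2 := congrArg (coeff (k + 1)) h'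
      rw [coeff_Eu, coeff_mul] at h1 h2
      have h3 : ∑ p ∈ antidiagonal (k + 1), coeff p.1 W * coeff p.2 F =
          ∑ p ∈ antidiagonal (k + 1), coeff p.1 W * coeff p.2 G := by
        refine Finset.sum_congr rfl fun p hp => ?_
        rw [HasAntidiagonal.mem_antidiagonal] at hp
        rcases Nat.eq_zero_or_pos p.1 with h4 | h4
        · rw [h4, h0, zero_mul, zero_mul]
        · rw [ih p.2 (by omega)]
      rw [h3, ← h2] at h1
      have h5 : ((k + 1 : ℕ) : ℝ) ≠ 0 := by positivity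
      have h6 := congrArg (fun a => ((k + 1 : ℕ) : ℝ)⁻¹ • a) h1
      simp only [smul_smul, inv_mul_cancel₀ h5, one_smul] at h6
      exact h6

/-- the logarithmic derivative in terms of the power sums -/
def ns (s : ℕ → A) : PowerSeries A := X * PowerSeries.mk fun i => (-1 : ℝ) ^ i • s (i + 1)

theorem coeff_ns (s : ℕ → A) (n : ℕ) : coeff (n + 1) (ns s) = (-1 : ℝ) ^ n • s (n + 1) := by
  rw [ns, coeff_succ_X_mul, coeff_mk]

theorem coeff_zero_ns (s : ℕ → A) : coeff 0 (ns s) = 0 := by rw [ns, coeff_zero_X_mul]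

theorem Eu_newton {s e : ℕ → A} (h : NewtonRec ℝ s e) :
    Eu (PowerSeries.mk e) = ns s * PowerSeries.mk e := by
  ext n
  cases n with
  | zero => rw [Eu, ns, mul_assoc, coeff_zero_X_mul, coeff_zero_X_mul]
  | succ n =>
    rw [coeff_Eu, coeff_mk, ns, mul_assoc, coeff_succ_X_mul, coeff_mul,
      Finset.Nat.sum_antidiagonal_eq_sum_range_succ_mk, Nat.cast_succ, h.2 n]
    exact Finset.sum_congr rfl fun j _ => by rw [coeff_mk, coeff_mk, smul_mul_assoc]

/-! ### series in `x s ^ r` -/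

/-- the substitution `w = x s ^ r` -/
def xe (r : ℕ) (hr : r ≠ 0) (x : A) : PowerSeries ℝ →+* PowerSeries A :=
  (PowerSeries.expand r hr).toRingHom.comp (S2T.ev x)

variable {r : ℕ} (hr : r ≠ 0) (x : A)

theorem coeff_xe (F : PowerSeries ℝ) (n : ℕ) :
    coeff n (xe r hr x F) = if r ∣ n then coeff (n / r) F • x ^ (n / r) else 0 := by
  have h : xe r hr x F = PowerSeries.expand r hr (S2T.ev x F) := rfl
  rw [h, coeff_expand, S2T.coeff_ev, Algebra.smul_def, mul_comm]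

theorem coeff_xe_mul (F : PowerSeries ℝ) (a : ℕ) :
    coeff (r * a) (xe r hr x F) = coeff a F • x ^ a := by
  rw [coeff_xe, if_pos (dvd_mul_right r a), Nat.mul_div_cancel_left _ (Nat.pos_of_ne_zero hr)]

theorem coeff_xe_not (F : PowerSeries ℝ) {n : ℕ} (h : ¬ r ∣ n) : coeff n (xe r hr x F) = 0 := by
  rw [coeff_xe, if_neg h]

theorem coeff_sh (F : PowerSeries ℝ) (m a : ℕ) {n : ℕ} (h : n = r * a + m) :
    coeff n (X ^ m * xe r hr x F) = coeff a F • x ^ a := by
  rw [h, coeff_X_pow_mul, coeff_xe_mul]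

theorem coeff_sh_not (F : PowerSeries ℝ) (m : ℕ) {n : ℕ} (h : ∀ a, n ≠ r * a + m) :
    coeff n (X ^ m * xe r hr x F) = 0 := by
  rw [coeff_X_pow_mul']
  split_ifs with h1
  · refine coeff_xe_not hr x F ?_
    rintro ⟨a, ha⟩
    exact h a (by omega)
  · rfl

theorem Eu_xe (F : PowerSeries ℝ) : Eu (xe r hr x F) = xe r hr x (C (r : ℝ) * Eu F) := by
  ext n
  rw [coeff_Eu, coeff_xe, coeff_xe]
  split_ifs with h
  · obtain ⟨a, rfl⟩ := h
    rw [Nat.mul_div_cancel_left _ (Nat.pos_of_ne_zero hr), coeff_C_mul, coeff_Eu, smul_smul,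
      smul_eq_mul, Nat.cast_mul, mul_assoc]
  · exact smul_zero _

/-! ### the power sums of the plane -/

omit [Algebra ℝ A] in
theorem geom (hr : r ≠ 0) (y : A) : (1 - C y * X ^ r) *
    PowerSeries.expand r hr (PowerSeries.mk fun a => y ^ a) = 1 := by
  have h := congrArg (PowerSeries.expand r hr) (S2T.mk_pow y)
  rwa [map_mul, map_sub, map_one, map_mul, expand_C, expand_X] at h

theorem plane_sums (hr : r ≠ 0) {b q : ℝ} {x0 x1 : A} (hδ : (x0 - x1) ^ 2 = 0) {u : ℕ → A}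
    (h : NewtonRec ℝ u (cP r b q x0 x1)) (n : ℕ) : (-1 : ℝ) ^ n • u (n + 1) =
      if r ∣ n + 1 then -((r : ℝ) • (b • (x0 + x1)) ^ ((n + 1) / r)) else 0 := by
  set y := b • (x0 + x1) with hy
  have h1 : PowerSeries.mk (cP r b q x0 x1) = 1 - C y * X ^ r := by
    ext j
    rw [coeff_mk, cP, map_sub, coeff_one, coeff_C_mul, coeff_X_pow, hδ, smul_zero, ite_self]
    by_cases h0 : j = 0
    · rw [if_pos h0, if_pos h0, if_neg (by omega), mul_zero, sub_zero]
    · rw [if_neg h0, if_neg h0]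
      split_ifs
      · rw [mul_one, zero_sub]
      · rw [mul_zero, sub_zero]
  have h2 := Eu_newton h
  rw [h1] at h2
  have h3 : Eu (1 - C y * X ^ r) = -(C ((r : ℝ) • y) * X ^ r) := by
    ext j
    rw [coeff_Eu, map_sub, coeff_one, coeff_C_mul, map_neg, coeff_C_mul, coeff_X_pow]
    by_cases h0 : j = 0
    · rw [h0, Nat.cast_zero, zero_smul, if_neg (by omega), mul_zero, neg_zero]
    · rw [if_neg h0]
      split_ifs with h4
      · rw [h4, mul_one, mul_one, zero_sub, smul_neg]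
      · rw [mul_zero, mul_zero, sub_zero, smul_zero, neg_zero]
  have h4 : ns u = -(C ((r : ℝ) • y) *
      (X ^ r * PowerSeries.expand r hr (PowerSeries.mk fun a => y ^ a))) := by
    have h5 := geom hr y
    rw [h3] at h2
    linear_combination (-ns u) * h5 -
      PowerSeries.expand r hr (PowerSeries.mk fun a => y ^ a) * h2
  rw [← coeff_ns, h4, map_neg, coeff_C_mul, coeff_X_pow_mul']
  by_cases h5 : r ∣ n + 1
  · obtain ⟨a, ha⟩ := h5
    obtain ⟨a, rfl⟩ : ∃ a', a = a' + 1 := ⟨a - 1, by rcases a with _ | a <;> simp_all⟩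
    have h6 : r ≤ n + 1 := by rw [ha]; exact Nat.le_mul_of_pos_right r (Nat.succ_pos a)
    have h7 : n + 1 - r = r * a := by rw [ha, Nat.mul_succ, Nat.add_sub_cancel]
    rw [if_pos h6, h7, coeff_expand_mul, coeff_mk, if_pos ⟨a + 1, ha⟩, ha,
      Nat.mul_div_cancel_left _ (Nat.pos_of_ne_zero hr), smul_mul_assoc, pow_succ']
  · rw [if_neg h5]
    split_ifs with h6
    · rw [coeff_expand_of_not_dvd, mul_zero, neg_zero]
      intro h7
      exact h5 ((Nat.dvd_sub_iff_left h6 (dvd_refl r)).1 h7)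
    · rw [mul_zero, neg_zero]

omit [Algebra ℝ A] in
theorem taylor (x d : A) (a : ℕ) :
    ∃ R, (x - d) ^ (a + 1) = x ^ (a + 1) - ((a : A) + 1) * x ^ a * d + d ^ 2 * R := by
  induction a with
  | zero => exact ⟨0, by simp⟩
  | succ a ih =>
    obtain ⟨R, hR⟩ := ih
    refine ⟨R * (x - d) + ((a : A) + 1) * x ^ a, ?_⟩
    rw [pow_succ (x - d) (a + 1), hR]
    push_cast
    ring

/-! ### the real series -/

/-- `(k + 1) p a - (2 b) ^ a` -/
def uu (k : ℕ) (b : ℝ) (p : ℕ → ℝ) (a : ℕ) : ℝ := ((k : ℝ) + 1) * p a - (2 * b) ^ a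

/-- the logarithmic derivative of the series `c` -/
def gam (k : ℕ) (b : ℝ) (p : ℕ → ℝ) : PowerSeries ℝ :=
  X * PowerSeries.mk fun a => (2 * b) ^ (a + 1) - ((k : ℝ) + 1) / 2 * p (a + 1)

theorem Eu_c {k : ℕ} {b : ℝ} {p c : ℕ → ℝ} (hc : CS k b p c) :
    Eu (PowerSeries.mk c) = gam k b p * PowerSeries.mk c := by
  ext n
  cases n with
  | zero => rw [Eu, gam, mul_assoc, coeff_zero_X_mul, coeff_zero_X_mul]
  | succ n =>
    rw [coeff_Eu, coeff_mk, gam, mul_assoc, coeff_succ_X_mul, coeff_mul,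
      Finset.Nat.sum_antidiagonal_eq_sum_range_succ_mk, Nat.cast_succ, smul_eq_mul, hc.cs n]
    exact Finset.sum_congr rfl fun j _ => by rw [coeff_mk, coeff_mk]

/-- the series of the `t` part -/
def sB (k r : ℕ) (b : ℝ) (p : ℕ → ℝ) : PowerSeries ℝ :=
  C (1 / 2 : ℝ) * (C ((r * (k - 1) : ℕ) : ℝ) - C (r : ℝ) * gam k b p)

/-- the series of the `z` part -/
def sZ (k r : ℕ) (b : ℝ) (p : ℕ → ℝ) : PowerSeries ℝ :=
  PowerSeries.mk fun a => uu k b p (a + 1) / (2 * ((r : ℝ) * (a + 1) - 1))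

/-- the series of the `δ` part -/
def sE (b : ℝ) : PowerSeries ℝ := PowerSeries.mk fun a => -(2 * b) ^ (a + 1) / 4

theorem coeff_gam (k : ℕ) (b : ℝ) (p : ℕ → ℝ) (a : ℕ) : coeff (a + 1) (gam k b p) =
    (2 * b) ^ (a + 1) - ((k : ℝ) + 1) / 2 * p (a + 1) := by
  rw [gam, coeff_succ_X_mul, coeff_mk]

theorem coeff_zero_gam (k : ℕ) (b : ℝ) (p : ℕ → ℝ) : coeff 0 (gam k b p) = 0 := by
  rw [gam, coeff_zero_X_mul]

theorem coeff_zero_sB (k r : ℕ) (b : ℝ) (p : ℕ → ℝ) :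
    coeff 0 (sB k r b p) = 1 / 2 * ((r * (k - 1) : ℕ) : ℝ) := by
  rw [sB, coeff_C_mul, map_sub, coeff_C_mul, coeff_zero_gam, coeff_zero_C, mul_zero, sub_zero]

theorem coeff_sB (k r : ℕ) (b : ℝ) (p : ℕ → ℝ) (a : ℕ) : coeff (a + 1) (sB k r b p) =
    -(1 / 2 * (r * ((2 * b) ^ (a + 1) - ((k : ℝ) + 1) / 2 * p (a + 1)))) := by
  rw [sB, coeff_C_mul, map_sub, coeff_C_mul, coeff_gam, coeff_C, if_neg (by omega)]
  ring

/-- the derivative of `tg` -/
def mm (r : ℕ) (t : ℕ → ℝ) (x : A) (n : ℕ) : A :=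
  if r ∣ n then (t (n / r) * (n / r : ℕ)) • x ^ (n / r - 1) else 0

/-- the relations in the quotient ring -/
structure Red (k r : ℕ) (b q : ℝ) (p : ℕ → ℝ) (x0 x1 t z : A) (u ww ss cW : ℕ → A) : Prop where
  R : Rel k r b q p x0 x1 t z u ww ss cW
  tz : t * z = x0 - x1
  t2 : t ^ 2 = 0
  z2 : z ^ 2 = 0
  odd : ∀ j : ℕ, (2 * (j : ℝ) + 2) • ss (2 * j + 1) + (((j : ℝ) + 1) * (2 * j + 1)) •
    (t * ss (2 * j)) = (1 / 2 : ℝ) • (z * mm r (tv k r b p) x0 (2 * j + 2))

variable {k : ℕ} {b q : ℝ} {p : ℕ → ℝ} {x0 x1 t z : A} {u ww ss cW : ℕ → A}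

namespace Red

theorem d2 (h : Red k r b q p x0 x1 t z u ww ss cW) : (x0 - x1) ^ 2 = 0 := by
  rw [← h.tz, mul_pow, h.t2, zero_mul]

theorem tx (h : Red k r b q p x0 x1 t z u ww ss cW) (a : ℕ) : t * x1 ^ a = t * x0 ^ a := by
  have h1 : t * x1 = t * x0 := by linear_combination t * h.tz - z * h.t2
  induction a with
  | zero => rw [pow_zero, pow_zero]
  | succ a ih => linear_combination x1 * ih + x0 ^ a * h1

/-- the even power sums of the plane -/
theorem u_mul (h : Red k r b q p x0 x1 t z u ww ss cW) (hr : r ≠ 0) (he : Even r) (a : ℕ) :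
    u (r * (a + 1)) = ((r : ℝ) * (2 * b) ^ (a + 1)) • x0 ^ (a + 1) -
      ((r : ℝ) * (2 * b) ^ (a + 1) * ((a + 1) / 2)) • (x0 ^ a * (x0 - x1)) := by
  obtain ⟨n, hn⟩ : ∃ n, r * (a + 1) = n + 1 :=
    Nat.exists_eq_succ_of_ne_zero (Nat.mul_ne_zero hr (Nat.succ_ne_zero a))
  have h1 := plane_sums hr h.d2 h.R.np n
  have h2 : Odd n := by
    have h3 : Even (n + 1) := hn ▸ he.mul_right _
    rwa [Nat.even_add_one, Nat.not_even_iff_odd] at h3
  rw [h2.neg_one_pow, ← hn, if_pos (dvd_mul_right _ _),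
    Nat.mul_div_cancel_left _ (Nat.pos_of_ne_zero hr), neg_smul, one_smul, neg_inj] at h1
  obtain ⟨R, hR⟩ := taylor (2 * x0) (x0 - x1) a
  have h3 : x0 + x1 = 2 * x0 - (x0 - x1) := by ring
  rw [h1, smul_pow, h3, hR, h.d2]
  have h4 : (algebraMap ℝ A) (((a : ℝ) + 1) / 2) * 2 = (a : A) + 1 := by
    rw [← map_ofNat (algebraMap ℝ A) 2, ← map_mul, div_mul_cancel₀ _ two_ne_zero, map_add,
      map_natCast, map_one]
  simp only [Algebra.smul_def, map_mul, map_pow, map_ofNat]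
  rw [← h4]
  ring

theorem u_not (h : Red k r b q p x0 x1 t z u ww ss cW) (hr : r ≠ 0) {n : ℕ} (hn : ¬ r ∣ n) :
    u n = 0 := by
  obtain ⟨n, rfl⟩ : ∃ m, n = m + 1 := Nat.exists_eq_succ_of_ne_zero (by
    rintro rfl
    exact hn (dvd_zero r))
  have h1 := plane_sums hr h.d2 h.R.np n
  rw [if_neg hn] at h1
  have h2 : (-1 : ℝ) ^ n ≠ 0 := pow_ne_zero _ (by norm_num)
  have h3 := congrArg (fun a => ((-1 : ℝ) ^ n)⁻¹ • a) h1
  simpa only [smul_smul, inv_mul_cancel₀ h2, one_smul, smul_zero] using h3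

theorem half {v w : A} (h : (2 : ℝ) • v = w) : v = (1 / 2 : ℝ) • w := by
  rw [← h, smul_smul]
  norm_num

theorem tg_mul (hr : r ≠ 0) (f : ℕ → ℝ) (x : A) (a : ℕ) : tg r f x (r * a) = f a • x ^ a := by
  rw [tg, if_pos (dvd_mul_right _ _), Nat.mul_div_cancel_left _ (Nat.pos_of_ne_zero hr)]

/-- the even power sums at the second end, multiplied by `t` -/
theorem t_ss (h : Red k r b q p x0 x1 t z u ww ss cW) (hr : r ≠ 0) (he : Even r) (j : ℕ) :
    t * ss (2 * j) = (2 : ℝ) • (t * coeff (2 * j) (xe r hr x0 (sB k r b p))) := by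
  rcases Nat.eq_zero_or_pos j with rfl | hj
  · have h1 := coeff_xe_mul hr x0 (sB k r b p) 0
    rw [mul_zero] at h1
    rw [mul_zero, h1, coeff_zero_sB, h.R.s0, pow_zero, mul_smul_comm, smul_smul, mul_one,
      Algebra.algebraMap_eq_smul_one, mul_smul_comm, mul_one]
    congr 1
    ring
  have h1 := half (h.R.ev1 j hj)
  by_cases h2 : r ∣ 2 * j
  · obtain ⟨a, ha⟩ := h2
    obtain ⟨a, rfl⟩ : ∃ a', a = a' + 1 := ⟨a - 1, by rcases a with _ | a <;> omega⟩
    have h3 : t * (x0 ^ a * (x0 - x1)) = 0 := by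
      linear_combination (-(t * x0 ^ a)) * h.tz + x0 ^ a * z * h.t2
    rw [h1, ha, tg_mul hr, h.u_mul hr he, coeff_xe_mul, coeff_sB, mul_smul_comm, mul_sub, mul_sub,
      mul_smul_comm, mul_smul_comm, mul_smul_comm, mul_smul_comm, h.tx, h3, smul_zero, sub_zero,
      ← sub_smul, smul_smul, smul_smul, tv]
    congr 1
    ring
  · rw [h1, tg, if_neg h2, h.u_not hr h2, coeff_xe_not hr x0 _ h2, sub_zero, smul_zero, mul_zero,
      smul_zero]

theorem ww_odd (h : Red k r b q p x0 x1 t z u ww ss cW) (j : ℕ) :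
    ww (2 * j + 1) = ((2 * (j : ℝ) + 1) / 2) • (t * ss (2 * j)) +
      (1 / (4 * ((j : ℝ) + 1))) • (z * mm r (tv k r b p) x0 (2 * j + 2)) := by
  have h1 := h.R.wz (2 * j + 1)
  rw [Finset.sum_range_succ', Finset.sum_range_succ'] at h1
  have h2 : ∑ i ∈ range (2 * j), (((2 * j + 1).choose (i + 1 + 1) : ℕ) : ℝ) •
      (t ^ (i + 1 + 1) * ss (2 * j + 1 - (i + 1 + 1))) = 0 := by
    refine Finset.sum_eq_zero fun i _ => ?_
    rw [add_assoc, pow_add, h.t2, mul_zero, zero_mul, smul_zero]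
  rw [h2, zero_add, zero_add, Nat.choose_one_right, pow_one, Nat.choose_zero_right, pow_zero,
    one_mul, Nat.sub_zero, Nat.add_sub_cancel, Nat.cast_one, one_smul] at h1
  have h3 : (2 * (j : ℝ) + 2) ≠ 0 := by positivity
  have h4 := congrArg (fun a => (2 * (j : ℝ) + 2)⁻¹ • a) (eq_sub_of_add_eq (h.odd j))
  simp only [smul_smul, inv_mul_cancel₀ h3, one_smul, smul_sub] at h4
  rw [h1, h4, add_sub, add_comm, add_sub_assoc, ← sub_smul, add_comm]
  congr 2
  · push_cast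
    field_simp
    ring
  · field_simp
    ring

end Red

end

end Vale.Agent.P231Z.D.TZ
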