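import Vale.Agent.P231.S2X.Values
import Vale.Agent.P231Z.D.Alg

/-!
# P231 (D): the values of the integral over the space of oriented planes, abstract part
-/

set_option linter.unusedSectionVars false
set_option linter.unusedVariables false

open Set Module Filter Topology
open scoped ContDiff

namespace Vale.Agent.P231Z.D.ValA

open Vale.Agent.P231 Vale.Agent.P231.Fm Vale.Agent.P231.W Vale.Agent.P231.H584
  Vale.Agent.P231.S2X

noncomputable section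

variable {X : Type*} {D : Dif X} {T : ℝ} {Φ : X × ℝ → X}

/-- the integral and the degrees, for a generator of degree `2 m + 2` -/
structure GI (h : IsFlow D T Φ) (m n : ℕ) (ν F1 F2 B : Form D) (I : Form D →ₗ[ℝ] ℝ) : Prop where
  Id : ∀ w : Form D, I w.d = 0
  Ib : ∀ w, Basic Φ h.map w → I w = 0
  Ideg : ∀ (k : ℕ) (w : Form D), Form.IsDeg k w → k + 1 ≠ (2 * m + 2) * (2 * n) + 2 * m → I w = 0
  gν : Form.IsDeg 1 ν
  g1 : Form.IsDeg (2 * m + 2) F1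
  g2 : Form.IsDeg (2 * m + 2) F2
  gB : Form.IsDeg (2 * m + 1) B
  p1 : F1 ^ (n + 1) = 0
  p2 : F2 ^ (n + 1) = 0
  p12 : ∀ a b, 2 * n ≤ a + b → F1 ^ a * F2 ^ b = 0
  ex : ∃ u : Form D, B * hh n F1 F2 = u.d
  nz : I (B * (J Φ h.map T B * (F1 ^ (n - 1) * F2 ^ n))) ≠ 0

variable {h : IsFlow D T Φ} {κ : ℝ} {ν F1 F2 B : Form D} (G : S2X.Geo h κ ν F1 F2 B) {m n : ℕ}
  {I : Form D →ₗ[ℝ] ℝ}

/-- the functional -/
def PP (N : GI h m n ν F1 F2 B I) : HH' Φ h.map →ₗ[ℝ] ℝ := Ph h G.νb G.νo N.Id N.Ib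

variable (N : GI h m n ν F1 F2 B I)

theorem P_mono (a b : ℕ) (w : Bas Φ h.map) :
    PP G N (G.x1 ^ a * G.x2 ^ b * Ideal.Quotient.mk (Exa Φ h.map) w) =
      (κ⁻¹) ^ a * (κ⁻¹) ^ b * I (ν * (F1 ^ a * F2 ^ b * w.1)) := by
  rw [Geo.x1, Geo.x2, ← map_pow, ← map_pow, ← map_mul, ← map_mul, PP, Ph_mk]
  have h1 : ((G.bx1 ^ a * G.bx2 ^ b * w : Bas Φ h.map) : Form D) =
      (κ⁻¹ • F1) ^ a * (κ⁻¹ • F2) ^ b * w.1 := rfl
  rw [h1, smul_pow, smul_pow, smul_mul_smul_comm, smul_mul_assoc, mul_smul_comm, map_smul,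
    smul_eq_mul]

include N in
theorem deg_J : Form.IsDeg (2 * m) (J Φ h.map T B) := by
  rw [J_def, KT]
  exact ((N.gB.pull _ h.map).pull _ (map_scale T)).K

include N in
theorem I_deg (a b : ℕ) {k : ℕ} {w : Form D} (hw : Form.IsDeg k w)
    (hk : (2 * m + 2) * (a + b) + k + 2 ≠ (2 * m + 2) * (2 * n) + 2 * m) :
    I (ν * (F1 ^ a * F2 ^ b * w)) = 0 := by
  refine N.Ideg _ _ (N.gν.mul (((N.g1.pow a).mul (N.g2.pow b)).mul hw)) fun h1 => hk ?_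
  rw [← h1]
  ring

include G N in
/-- the averaging formula -/
theorem avg_z {w : Form D} (hwd : w.d = 0) (hwb : Basic Φ h.map w) :
    I (ν * (J Φ h.map T B * (J Φ h.map T B * w))) = T * I (B * (J Φ h.map T B * w)) := by
  have hb : Basic Φ h.map (J Φ h.map T B * w) := Basic.mul (J_basic h _) hwb
  have hc : (J Φ h.map T B * w).d = 0 := mul_closed G.Jc hwd
  have hτ : Basic Φ h.map (B * (J Φ h.map T B * w)).d := by
    rw [d_mul_closed _ hc, G.Bd]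
    exact Basic.mul (Basic.sub G.b1 G.b2) hb
  rw [avg h G.ν1 G.νo N.Id N.Ib hτ, J_mul_basic _ _ hb]

include G N in
/-- antisymmetry -/
theorem anti (hn : 1 ≤ n) : I (B * (J Φ h.map T B * (F1 ^ n * F2 ^ (n - 1)))) =
    -I (B * (J Φ h.map T B * (F1 ^ (n - 1) * F2 ^ n))) := by
  obtain ⟨s, rfl⟩ : ∃ s, n = s + 1 := ⟨n - 1, by omega⟩
  rw [Nat.add_sub_cancel, ← sub_eq_zero, sub_neg_eq_add, ← map_add, ← mul_add, ← mul_add,
    ← hh_mul_pow N.p2]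
  obtain ⟨u, hu⟩ := N.ex
  have hc : (J Φ h.map T B * F2 ^ s).d = 0 := mul_closed G.Jc (pow_closed G.d2 s)
  have h1 : B * (J Φ h.map T B * (hh (s + 1) F1 F2 * F2 ^ s)) =
      (B * hh (s + 1) F1 F2) * (J Φ h.map T B * F2 ^ s) := by
    have h2 : J Φ h.map T B * hh (s + 1) F1 F2 = hh (s + 1) F1 F2 * J Φ h.map T B :=
      (even_comm G.Je _).eq
    rw [← mul_assoc (J Φ h.map T B), h2]
    simp only [mul_assoc]
  rw [h1, hu, ← d_mul_closed _ hc, N.Id]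

theorem P_zz (a b : ℕ) : PP G N (G.x1 ^ a * G.x2 ^ b * G.z ^ 2) =
    (κ⁻¹) ^ a * (κ⁻¹) ^ b * (κ⁻¹ * κ⁻¹ *
      (T * I (B * (J Φ h.map T B * (F1 ^ a * F2 ^ b))))) := by
  rw [Geo.z, ← map_pow, P_mono G N]
  have h6 : ((G.bz ^ 2 : Bas Φ h.map) : Form D) =
      (κ⁻¹ • J Φ h.map T B) * (κ⁻¹ • J Φ h.map T B) := sq (κ⁻¹ • J Φ h.map T B)
  have h7 : F1 ^ a * F2 ^ b * ((κ⁻¹ * κ⁻¹) • (J Φ h.map T B * J Φ h.map T B)) =
      (κ⁻¹ * κ⁻¹) • (J Φ h.map T B * (J Φ h.map T B * (F1 ^ a * F2 ^ b))) := by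
    have h8 : F1 ^ a * F2 ^ b * (J Φ h.map T B * J Φ h.map T B) =
        J Φ h.map T B * J Φ h.map T B * (F1 ^ a * F2 ^ b) :=
      (even_comm (mul_even (pow_even G.e1 a) (pow_even G.e2 b)) _).eq
    rw [mul_smul_comm, h8, mul_assoc (J Φ h.map T B)]
  rw [h6, smul_mul_smul_comm, h7, mul_smul_comm, map_smul, smul_eq_mul,
    avg_z G N (mul_closed (pow_closed G.d1 a) (pow_closed G.d2 b))
      (Basic.mul (Basic.pow G.b1 a) (Basic.pow G.b2 b))]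

/-- the values on the power `m - 1` of `y` -/
theorem val_y (hm : 1 ≤ m) (a b : ℕ) : PP G N (G.x2 ^ a * G.x1 ^ b * G.y ^ (m - 1)) = 0 := by
  have hgy : Form.IsDeg (2 * (m - 1)) ((T⁻¹ • ν.d) ^ (m - 1)) := ((N.gν.d).smul _).pow _
  rw [mul_comm (G.x2 ^ a), Geo.y, ← map_pow, P_mono G N]
  have h1 : ((G.by_ ^ (m - 1) : Bas Φ h.map) : Form D) = (T⁻¹ • ν.d) ^ (m - 1) := rfl
  rw [h1]
  by_cases hab : b + a = 2 * n
  · rw [N.p12 b a hab.ge, zero_mul, mul_zero, map_zero, mul_zero]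
  · refine mul_eq_zero_of_right _ (I_deg N b a hgy fun h2 => hab ?_)
    have h3 : (2 * m + 2) * (b + a) = (2 * m + 2) * (2 * n) := by omega
    exact Nat.eq_of_mul_eq_mul_left (by omega) h3

/-- the values on the square of `z` -/
theorem val_z (hn : 1 ≤ n) : ∃ κ₀ : ℝ, κ₀ ≠ 0 ∧
    ∀ a b, PP G N (G.x2 ^ a * G.x1 ^ b * G.z ^ 2) = κ₀ * lam n a b := by
  refine ⟨(κ⁻¹) ^ (n - 1) * (κ⁻¹) ^ n * (κ⁻¹ * κ⁻¹ *
        (T * I (B * (J Φ h.map T B * (F1 ^ (n - 1) * F2 ^ n))))), ?_, fun a b => ?_⟩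
  · have h1 : κ⁻¹ ≠ 0 := inv_ne_zero G.hκ
    exact mul_ne_zero (mul_ne_zero (pow_ne_zero _ h1) (pow_ne_zero _ h1))
      (mul_ne_zero (mul_ne_zero h1 h1) (mul_ne_zero G.hT N.nz))
  rw [mul_comm (G.x2 ^ a), lam]
  by_cases hab : b + a + 1 = 2 * n
  · rw [P_zz G N]
    by_cases h1 : a = n ∧ b + 1 = n
    · obtain ⟨h2, h3⟩ := h1
      have h4 : n - 1 = b := by omega
      rw [if_pos ⟨h2, h3⟩, if_neg (by omega), sub_zero, mul_one, h4, h2]
    · rw [if_neg h1]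
      by_cases h5 : a + 1 = n ∧ b = n
      · obtain ⟨h2, h3⟩ := h5
        have h4 : n - 1 = a := by omega
        rw [if_pos ⟨h2, h3⟩, h3]
        have h6 := anti G N hn
        rw [h4] at h6
        rw [h4, h6]
        ring
      · rw [if_neg h5]
        rcases Nat.lt_or_ge n b with h7 | h7
        · rw [pow_zero_of N.p1 h7]
          simp
        · rw [pow_zero_of N.p2 (a := a) (by omega)]
          simp
  · have hgz : Form.IsDeg (2 * m * 2) ((κ⁻¹ • J Φ h.map T B) ^ 2) := ((deg_J N).smul _).pow 2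
    rw [if_neg (by omega), if_neg (by omega), sub_zero, mul_zero, Geo.z, ← map_pow, P_mono G N]
    refine mul_eq_zero_of_right _ (I_deg N b a hgz fun h2 => hab ?_)
    have h3 : (2 * m + 2) * (b + a + 1) = (2 * m + 2) * (2 * n) := by
      rw [mul_add (2 * m + 2) (b + a)]
      omega
    exact Nat.eq_of_mul_eq_mul_left (by omega) h3

end

end Vale.Agent.P231Z.D.ValA
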