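import Vale.Agent.P231.S2T.Dim2
import Vale.Agent.P231.Co.Low

/-!
# P231 (D), block D3 (ii): iterated integrals along the fibres of two sphere bundles
-/

set_option linter.unusedSectionVars false
set_option linter.unusedVariables false

open Set Filter Module
open scoped ContDiff Topology

namespace Vale.Agent.P231Z.D.VF

noncomputable section

open Vale.Agent.P231 Vale.Agent.P231.Fm Vale.Agent.P231.W Vale.Agent.P231.WA Vale.Agent.P231.Co

theorem exists_dx {V : Type*} [NormedAddCommGroup V] [NormedSpace ℝ V] [FiniteDimensional ℝ V]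
    (A : Lam V) : ∃ a : V →L[ℝ] ℝ, prt 1 A = Fm.dx a := by
  induction A using Lam.left_ind with
  | h1 r => exact ⟨0, by rw [prt_algebraMap, if_neg one_ne_zero, map_zero]⟩
  | h2 a w _ =>
    refine ⟨aug w • a, ?_⟩
    rw [prt_succ_dxl_mul 0, prt_zero, ← Algebra.commutes, ← Algebra.smul_def, map_smul, dx_eq]
  | h3 v w hv hw =>
    obtain ⟨a, ha⟩ := hv
    obtain ⟨b, hb⟩ := hw
    exact ⟨a + b, by rw [map_add, ha, hb, map_add]⟩

/-- forms of degree one are determined by their values on curves -/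
theorem deg_one_ext {X : Type*} {D : Dif X} {w : Form D} (hw : Form.IsDeg 1 w)
    (h : ∀ γ : ℝ → X, D.At γ 0 → w.val γ 0 = 0) : w = 0 := by
  refine Form.ext_val fun V _ _ _ u x hu => ?_
  obtain ⟨a, ha⟩ := exists_dx (w.val u x)
  have h1 : w.val u x = Fm.dx a := by
    rw [← ha, ← Form.part_val, hw.part_eq]
  have h2 : a = 0 := by
    ext v
    have h3 : ContDiff ℝ ∞ (fun t : ℝ => x + t • v) :=
      contDiff_const.add (contDiff_id.smul contDiff_const)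
    have h4 : D.At u ((fun t : ℝ => x + t • v) 0) := by simpa using hu
    have h5 := w.nat (g := fun t : ℝ => x + t • v) (x := 0) h4 (Sm.of_contDiff h3 0)
    rw [h _ (D.comp (g := fun t : ℝ => x + t • v) (x := 0) h4 (Sm.of_contDiff h3 0))] at h5
    have h6 : HasDerivAt (fun t : ℝ => x + t • v) v 0 := by
      simpa using ((hasDerivAt_id (0 : ℝ)).smul_const v).const_add x
    have h7 : x + (0 : ℝ) • v = x := by rw [zero_smul, add_zero]
    have h8 := congrArg (fun A : Lam ℝ => aug (iprod (1 : ℝ) A)) h5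
    simp only [h7, h1, Fm.pull_dx, iprod_dx, map_zero, AlgHom.commutes] at h8
    rw [h6.hasFDerivAt.fderiv] at h8
    simpa using h8.symm
  rw [h1, h2, map_zero, Form.zero_val]

theorem dimEq_line {O : Set ℝ} (hO : ∀ s ∈ O, ∀ᶠ t in 𝓝 s, t ∈ O) :
    WF.DimEq ((Dif.lin ℝ).on O) 1 := by
  intro V _ _ _ u x hu
  let φ : ℝ ≃L[ℝ] EuclideanSpace ℝ (Fin 1) := ContinuousLinearEquiv.ofFinrankEq (by
    rw [finrank_euclideanSpace, Fintype.card_fin, finrank_self])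
  refine ⟨φ.symm, φ ∘ u, Sm.comp (f := φ) (Sm.of_contDiff φ.contDiff _) hu.1,
    ⟨Sm.of_contDiff φ.symm.contDiff _, ?_⟩, Eventually.of_forall fun y => ?_⟩
  · have h1 : ∀ᶠ t in 𝓝 (φ.symm ((φ ∘ u) x)), t ∈ O := by
      rw [Function.comp_apply, φ.symm_apply_apply]
      exact hO _ hu.2.self_of_nhds
    exact φ.symm.continuous.continuousAt.eventually h1
  · exact (φ.symm_apply_apply (u y)).symm

variable {B S T Fr Fr' : Type*} {DB : Dif B} {DS : Dif S} {DT : Dif T} {DF : Dif Fr}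
  {DF' : Dif Fr'}
  {G : Type} [NormedAddCommGroup G] [InnerProductSpace ℝ G] [FiniteDimensional ℝ G]
  [MeasurableSpace G] [BorelSpace G] {r : ℕ} (o : OrthonormalBasis (Fin r) ℝ G)
  {G' : Type} [NormedAddCommGroup G'] [InnerProductSpace ℝ G'] [FiniteDimensional ℝ G']
  [MeasurableSpace G'] [BorelSpace G'] {r' : ℕ} (o' : OrthonormalBasis (Fin r') ℝ G')
  {ϖ : S → B} {q : Fr → B} {ev : Fr × G → S} {ϖ' : T → S} {q' : Fr' → S} {ev' : Fr' × G' → T}
  (h : Bun DB DS DF G ϖ q ev) (h' : Bun DS DT DF' G' ϖ' q' ev')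

/-- the parameters near which a curve is a plot -/
def dom (DB : Dif B) (γ : ℝ → B) : Set ℝ := {s | DB.At γ s}

theorem map_dom (γ : ℝ → B) : ((Dif.lin ℝ).on (dom DB γ)).Map DB γ :=
  fun hu => DB.comp (u := γ) hu.2.self_of_nhds hu.1

/-- the total space over a curve -/
abbrev dT (DB : Dif B) (DS : Dif S) (DT : Dif T) (ϖ : S → B) (ϖ' : T → S) (γ : ℝ → B) :
    Dif ((ℝ × S) × T) :=
  dPb (dPb ((Dif.lin ℝ).on (dom DB γ)) DS ϖ γ) DT ϖ' Prod.snd

/-- the iterated integral along a curve only depends on the form over the curve -/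
theorem SI2_curve {w : Form DT} {γ : ℝ → B} (hγ : DB.At γ 0)
    (hw : (Form.pull Prod.snd map_pb_snd w : Form (dT DB DS DT ϖ ϖ' γ)) = 0) :
    (h.SI o (h'.SI o' w)).val γ 0 = 0 := by
  have h1 := h.SI_pb o (map_dom γ) (h'.SI o' w)
  have h2 := h'.SI_pb o' (map_pb_snd (DY := (Dif.lin ℝ).on (dom DB γ)) (DS := DS) (π := ϖ)
    (p := γ)) w
  rw [hw, Bun.SI_zero] at h2
  rw [← h2, Bun.SI_zero] at h1
  have h3 : ((Dif.lin ℝ).on (dom DB γ)).At (id : ℝ → ℝ) 0 :=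
    ⟨Sm.of_contDiff contDiff_id 0, DB.open' hγ⟩
  have h4 := congrArg (fun a : Form ((Dif.lin ℝ).on (dom DB γ)) => a.val (id : ℝ → ℝ) 0) h1
  rw [Form.pull_val _ _ h3, Form.zero_val] at h4
  exact h4.symm

/-- forms which vanish on a fibre -/
theorem SI2_fib {w : Form DT} {b : B} (hb : DB.At (fun _ : ℝ => b) 0)
    (hw : ∀ {V : Type} [NormedAddCommGroup V] [NormedSpace ℝ V] [FiniteDimensional ℝ V]
      (Q : V → T) (x : V), DT.At Q x → (∀ᶠ s in 𝓝 x, ϖ (ϖ' (Q s)) = b) → w.val Q x = 0) :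
    (h.SI o (h'.SI o' w)).val (fun _ : ℝ => b) 0 = 0 := by
  refine SI2_curve o o' h h' hb (Form.ext_val fun V _ _ _ u x hu => ?_)
  rw [Form.pull_val _ _ hu, Form.zero_val]
  refine hw _ _ hu.1.2 ?_
  filter_upwards [hu.2, hu.1.1.2] with s h1 h2
  have h3 : ϖ' (u s).2 = (u s).1.2 := h1
  have h4 : ϖ (u s).1.2 = b := h2
  change ϖ (ϖ' (u s).2) = b
  rw [h3, h4]

open Classical in
/-- the flow over a curve -/
def lf (ϖ' : T → S) (Φ : T × ℝ → T) (z : ((ℝ × S) × T) × ℝ) : (ℝ × S) × T :=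
  ((z.1.1.1, if ϖ' z.1.2 = z.1.1.2 then ϖ' (Φ (z.1.2, z.2)) else z.1.1.2), Φ (z.1.2, z.2))

include h' in
theorem map_lf {Φ : T × ℝ → T} (hΦ : (DT.prod (Dif.lin ℝ)).Map DT Φ)
    (hϖ : ∀ t s, ϖ (ϖ' (Φ (t, s))) = ϖ (ϖ' t)) (γ : ℝ → B) :
    ((dT DB DS DT ϖ ϖ' γ).prod (Dif.lin ℝ)).Map (dT DB DS DT ϖ ϖ' γ) (lf ϖ' Φ) := by
  intro V _ _ _ u x hu
  obtain ⟨⟨⟨⟨⟨a1, a2⟩, a3⟩, a4⟩, a5⟩, a6⟩ := hu
  have b1 : DT.At (Φ ∘ fun y => ((u y).1.2, (u y).2)) x := hΦ ⟨a4, a6⟩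
  have b2 : ∀ᶠ y in 𝓝 x, (lf ϖ' Φ (u y)).1.2 = ϖ' (Φ ((u y).1.2, (u y).2)) := by
    filter_upwards [a5] with y hy
    exact if_pos hy
  refine ⟨⟨⟨⟨a1, DS.congr (h'.hπ b1) (b2.mono fun y hy => hy.symm)⟩, ?_⟩, b1⟩, ?_⟩
  · filter_upwards [b2, a3, a5] with y h1 h2 h3
    have h4 : ϖ' (u y).1.2 = (u y).1.1.2 := h3
    have h5 : ϖ (u y).1.1.2 = γ (u y).1.1.1 := h2
    change ϖ (lf ϖ' Φ (u y)).1.2 = γ (u y).1.1.1
    rw [h1, hϖ, h4, h5]
  · filter_upwards [b2] with y h1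
    exact h1.symm

/-- **the iterated integral kills basic forms** (one degree above the dimension of the fibres) -/
theorem SI2_basic {Φ : T × ℝ → T} (hΦ : (DT.prod (Dif.lin ℝ)).Map DT Φ)
    (h0 : ∀ t, Φ (t, 0) = t) (hmv : ∀ t, WG.Moves DT Φ t)
    (hϖ : ∀ t s, ϖ (ϖ' (Φ (t, s))) = ϖ (ϖ' t)) {l l' : ℕ} (hl : r = l + 1) (hl' : r' = l' + 1)
    {w : Form DT} (hw : Form.IsDeg (1 + l + l') w) (hb : Basic Φ hΦ w) :
    h.SI o (h'.SI o' w) = 0 := by
  have hG : finrank ℝ G = l + 1 := by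
    rw [finrank_eq_card_basis o.toBasis, Fintype.card_fin, hl]
  have hG' : finrank ℝ G' = l' + 1 := by
    rw [finrank_eq_card_basis o'.toBasis, Fintype.card_fin, hl']
  have d1 : Form.IsDeg (1 + l) (h'.SI o' w) := h'.isDeg_SI o' hw (by omega)
  have d2 : Form.IsDeg 1 (h.SI o (h'.SI o' w)) := h.isDeg_SI o d1 (by omega)
  refine deg_one_ext d2 fun γ hγ => SI2_curve o o' h h' hγ ?_
  have e1 : WF.DimEq ((Dif.lin ℝ).on (dom DB γ)) 1 := dimEq_line fun s hs => DB.open' hs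
  have e2 : WF.DimEq (dPb ((Dif.lin ℝ).on (dom DB γ)) DS ϖ γ) (1 + l) :=
    S2T.dimEq_bun (h.pb (map_dom γ)) hG e1 rfl
  have e3 : WF.DimEq (dT DB DS DT ϖ ϖ' γ) (1 + l + l') :=
    S2T.dimEq_bun (h'.pb (map_pb_snd (DY := (Dif.lin ℝ).on (dom DB γ)) (DS := DS) (π := ϖ)
      (p := γ))) hG' e2 rfl
  refine WG.basic_top_eq_zero e3 (map_lf h' hΦ hϖ γ) (fun v => ?_) (fun v => ?_)
    (hw.pull _ _) ?_
  · refine Prod.ext (Prod.ext rfl ?_) (h0 _)
    unfold lf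
    dsimp only
    split_ifs with h1
    · rw [h0, h1]
    · rfl
  · obtain ⟨f, hf, a, ha, h1⟩ := hmv v.2
    refine ⟨fun z => f z.2, ?_, a, ha, h1⟩
    intro V _ _ _ u x hu hux
    exact hf (u := fun y => (u y).2) hu.1.2 (congrArg Prod.snd hux)
  · refine Form.ext_val fun V _ _ _ u x hu => ?_
    have b0 : (DT.prod (Dif.lin ℝ)).At (fun y => ((u y).1.2, (u y).2)) x := ⟨hu.1.1.2, hu.2⟩
    have b1 := congrArg (fun a : Form (DT.prod (Dif.lin ℝ)) =>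
      a.val (fun y => ((u y).1.2, (u y).2)) x) hb
    have b2 := Form.pull_val hΦ w b0
    have b3 := Form.pull_val (Dif.map_fst (D := DT) (D' := Dif.lin ℝ)) w b0
    replace b1 := b2.symm.trans (b1.trans b3)
    have c1 : (dT DB DS DT ϖ ϖ' γ).At (lf ϖ' Φ ∘ u) x := map_lf h' hΦ hϖ γ hu
    have c2 : (dT DB DS DT ϖ ϖ' γ).At (Prod.fst ∘ u) x := hu.1
    refine (Form.pull_val _ _ hu).trans ((Form.pull_val _ _ c1).trans (b1.trans ?_))
    have c3 := Form.pull_val (Dif.map_fst (D := dT DB DS DT ϖ ϖ' γ) (D' := Dif.lin ℝ))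
      (Form.pull Prod.snd map_pb_snd w : Form (dT DB DS DT ϖ ϖ' γ)) hu
    rw [Form.pull_val _ _ c2] at c3
    exact c3.symm

end

end Vale.Agent.P231Z.D.VF
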