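import Vale.Agent.P231Z.D.ValFibB
import Vale.Agent.P231Z.D.ValFibC
import Vale.Agent.P231Z.Res.AngZ

/-!
# P231 (D), block D3 (ii): the top power of the curvature against `B b₀`
-/

set_option maxSynthPendingDepth 3
set_option linter.unusedSectionVars false
set_option linter.unusedVariables false

open Bundle Manifold Set Filter Module
open scoped ContDiff Manifold Topology

namespace Vale.Agent.P231Z.D

noncomputable section

open Vale.Agent.P234 Vale.Agent.P231 Vale.Agent.P231.Fm Vale.Agent.P231.W Vale.Agent.P231.WR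
open Vale.Agent.P231.S2II Vale.Agent.P231.X3 Vale.Agent.P231.CoZ

variable {E : Type*} [NormedAddCommGroup E] [NormedSpace ℝ E]
  {M : Type*} [MetricSpace M] [ChartedSpace E M]
  [RiemannianBundle (fun x : M => TangentSpace 𝓘(ℝ, E) x)]
  {e : ∀ x : M, TangentSpace 𝓘(ℝ, E) x → M}
  [FiniteDimensional ℝ E] [IsManifold 𝓘(ℝ, E) ∞ M]
  [IsContMDiffRiemannianBundle 𝓘(ℝ, E) ∞ E (fun x : M => TangentSpace 𝓘(ℝ, E) x)]
  [CompactSpace M] [ConnectedSpace M] [IsRiemannianManifold 𝓘(ℝ, E) M]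
  {D : ℝ} {m k K : ℕ} (G : X3.Geo e D (2 * m + 1)) (P : PF E M K) {p : M}
  {Pi : TangentSpace 𝓘(ℝ, E) p → TangentSpace 𝓘(ℝ, E) p →L[ℝ] TangentSpace 𝓘(ℝ, E) p}
  {o : TangentSpace 𝓘(ℝ, E) p → Fm.Lam (TangentSpace 𝓘(ℝ, E) p)}
  {ρ : TangentSpace 𝓘(ℝ, E) p → ℝ} {r₀ : ℝ}
  (hJ : FE.LineP e D p m Pi o) (hρ : WE.Rho e D p ρ r₀)

namespace VF

/-- the difference of the two sides -/
def wD : Form (dPr e D) :=
  X3.nu e D P * (X3.nu e D P).d ^ (2 * m) - cF m • (BB G hJ hρ * b0 G hJ hρ)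

theorem nu_deg : Form.IsDeg 1 (X3.nu e D P) := by
  rw [X3.nu, ChW.conn]
  exact Form.IsDeg.sum fun i _ =>
    (Form.isDeg_fn _ (sm_ww P i).mp).mul (Form.isDeg_fn _ (sm_vv P i).mp).d

theorem wD_deg : Form.IsDeg (4 * m + 1) (wD G P hJ hρ) := by
  have gB : Form.IsDeg (2 * m + 1) (BB G hJ hρ) :=
    (S2II.isDeg_B0 G.F (Om_deg G hJ hρ)).pull _ map_v
  refine Form.IsDeg.sub ?_ (Form.IsDeg.smul _ ?_)
  · exact Co.degc ((nu_deg P).mul ((nu_deg P).d.pow (2 * m))) (by omega)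
  · exact Co.degc (gB.mul (b0_deg G hJ hρ)) (by omega)

theorem wD_basic : Basic G.R G.map_R (wD G P hJ hρ).d := by
  have g := geo G P hJ hρ
  have h1 : ((X3.nu e D P).d ^ (2 * m)).d = 0 := H584.pow_closed (Form.d_d _) _
  have h2 : (b0 G hJ hρ).d = 0 := g.Jc
  rw [wD, Form.d_sub, Form.d_smul, H584.d_mul_closed _ h1, H584.d_mul_closed _ h2, g.Bd]
  exact H584.Basic.sub (H584.Basic.mul g.νb (H584.Basic.pow g.νb _))
    (H584.Basic.smul _ (H584.Basic.mul (H584.Basic.sub g.b1 g.b2) (H584.J_basic G.isFlow_R _)))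

variable (hb : S2II.Orn G.F G.hD G.hB G.hdiam (l := 2 * m + 1) (b0 G hJ hρ))

/-- the integral of the difference along the fibres over the space of cut pairs vanishes -/
theorem SI_wD (h2 : 2 ≤ finrank ℝ E) {b : Form (dUT E M)} {c : Form (dZ e D)}
    (hZ : OrnZ (2 * m + 1) b c) :
    (bun_Z G.F G.hD G.hB G.hdiam G.hP hZ ⟨m, rfl⟩).SI (bas (2 * m + 1 + 1))
      (SL G.F G.hD G.hB G.hdiam G.hP hb ⟨m, rfl⟩ (wD G P hJ hρ)) = 0 := by
  have hnt : Nontrivial E := nontrivial_of_finrank_pos (R := ℝ) (by omega)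
  set h := bun_Z G.F G.hD G.hB G.hdiam G.hP hZ ⟨m, rfl⟩ with hh
  set h' := bun_SL G.F G.hD G.hB G.hdiam G.hP hb ⟨m, rfl⟩ with hh'
  have d1 : Form.IsDeg (2 * m + 1) (h'.SI (bas (2 * m + 1)) (wD G P hJ hρ)) :=
    h'.isDeg_SI _ (wD_deg G P hJ hρ) (by omega)
  have d2 : Form.IsDeg 0 (h.SI (bas (2 * m + 1 + 1)) (h'.SI (bas (2 * m + 1)) (wD G P hJ hρ))) :=
    h.isDeg_SI _ d1 (by omega)
  have e1 : h.SI (bas (2 * m + 1 + 1)) (h'.SI (bas (2 * m + 1)) (wD G P hJ hρ).d) = 0 :=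
    SI2_basic _ _ h h' G.map_R G.isFlow_R.zero (S2II.moves_R G.F G.hD G.hB G.hdiam)
      (fun t s => Prod.ext (G.foot_R t s) (G.bar_R t s)) (l := 2 * m + 1) (l' := 2 * m) rfl rfl
      (Co.degc (wD_deg G P hJ hρ).d (by omega)) (wD_basic G P hJ hρ)
  rw [h'.SI_d, h.SI_smul, h.SI_d, smul_smul] at e1
  have e2 := (smul_eq_zero.1 e1).resolve_left
    (mul_ne_zero (pow_ne_zero _ (by norm_num)) (pow_ne_zero _ (by norm_num)))
  obtain ⟨c₀, hc₀⟩ := h.const_base (bas (2 * m + 1 + 1)) (by omega)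
    (Res.const_UT G.F (by omega)) e2 d2
  obtain ⟨v₀, hv₀⟩ := S2II.exists_foot (E := E) p
  have hu : (dZ e D).At (fun _ : ℝ => fb e D v₀) 0 :=
    ⟨fun _ => v₀, EventuallyEq.rfl, WF.const_at v₀ 0⟩
  have e3 := SI2_fib (bas (2 * m + 1 + 1)) (bas (2 * m + 1)) h h' (w := wD G P hJ hρ) hu
    (fun {V} _ _ _ Q x hQ hq => fibZ_id G P hJ hρ (bar e D v₀) Q x hQ (hq.mono fun s hs =>
      ⟨(congrArg Prod.fst hs).trans hv₀, congrArg Prod.snd hs⟩))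
  rw [hc₀, Form.smul_val, Form.one_val hu] at e3
  have e4 : c₀ = 0 := (smul_eq_zero.1 e3).resolve_right one_ne_zero
  rw [e4, zero_smul] at hc₀
  exact hc₀

include hb in
/-- forms of top degree on the unit tangent bundle do not come from the space of cut pairs -/
theorem pull_fb_top {N : ℕ} (hN : finrank ℝ E = N + 1) (h2 : 2 ≤ finrank ℝ E)
    {a : Form (dZ e D)} (ha : Form.IsDeg (2 * N + 1) a) :
    Form.pull (fb e D) map_fb a = 0 := by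
  obtain ⟨κ, hκ, h1⟩ := SL_self G.F G.hD G.hB G.hdiam G.hP hb ⟨m, rfl⟩ h2
  have h3 := SL_mul G.F G.hD G.hB G.hdiam G.hP hb ⟨m, rfl⟩ (b0 G hJ hρ)
    (Form.pull (fb e D) map_fb a)
  have hm : (dPr e D).Map (dZ e D) (fun t => fb e D t.v) := fun h => map_fb (map_v h)
  have h4 : Form.pull Pr.v map_v (Form.pull (fb e D) map_fb a) =
      Form.pull (fun t : Pr e D => fb e D t.v) hm a :=
    H584.pull_pull (k := fun t : Pr e D => fb e D t.v) map_v map_fb hm (fun _ => rfl) a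
  have h5 : Basic G.R G.map_R (Form.pull (fun t : Pr e D => fb e D t.v) hm a) := by
    have hk : ((dPr e D).prod (Dif.lin ℝ)).Map (dZ e D) (fun t => fb e D t.1.v) :=
      fun h => hm h.1
    exact (H584.pull_pull (k := fun t : Pr e D × ℝ => fb e D t.1.v) G.map_R hm hk
      (fun t => Prod.ext (G.foot_R t.1 t.2) (G.bar_R t.1 t.2)) a).trans
      (H584.pull_pull (k := fun t : Pr e D × ℝ => fb e D t.1.v)
        (Dif.map_fst (D := dPr e D) (D' := Dif.lin ℝ)) hm hk (fun _ => rfl) a).symm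
  have h6 : b0 G hJ hρ * Form.pull (fun t : Pr e D => fb e D t.v) hm a = 0 :=
    WG.basic_top_eq_zero (S2II.dimEq_Pr G.F G.hD G.hB G.hdiam G.hP hN
      (m := 2 * m + (2 * N + 1)) (by omega)) G.map_R G.isFlow_R.zero
      (S2II.moves_R G.F G.hD G.hB G.hdiam) ((b0_deg G hJ hρ).mul (ha.pull _ hm))
      (H584.Basic.mul (H584.J_basic G.isFlow_R _) h5)
  rw [h4, h6, map_zero, h1, smul_mul_assoc, one_mul] at h3
  exact (smul_eq_zero.1 h3.symm).resolve_left hκ.ne'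

end VF

open VF in
/-- **the top power of the curvature against `B b₀`** -/
theorem fib_val (hm : 1 ≤ m) (hk : 1 ≤ k) (hE : finrank ℝ E = (2 * m + 2) * k)
    (hb : S2II.Orn G.F G.hD G.hB G.hdiam (l := 2 * m + 1) (b0 G hJ hρ)) :
    ∃ c : ℝ, 0 < (-1) ^ m * c ∧ ∀ a b : ℕ, a + b + 1 = 2 * k → ∃ κ : Form (dUT E M),
      SL G.F G.hD G.hB G.hdiam (l := 2 * m + 1) G.hP hb ⟨m, rfl⟩
        (X3.nu e D P * (F0 G hJ hρ ^ a * F1 G hJ hρ ^ b * (X3.nu e D P).d ^ (2 * m))) =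
      c • SL G.F G.hD G.hB G.hdiam (l := 2 * m + 1) G.hP hb ⟨m, rfl⟩
        (BB G hJ hρ * (b0 G hJ hρ * (F0 G hJ hρ ^ a * F1 G hJ hρ ^ b))) + κ.d := by
  refine ⟨cF m, cF_pos m, fun a b hab => ?_⟩
  have h2 : 2 ≤ finrank ℝ E := by rw [hE]; nlinarith
  obtain ⟨N, hN⟩ : ∃ N, finrank ℝ E = N + 1 := ⟨finrank ℝ E - 1, by omega⟩
  obtain ⟨hZ, hc⟩ := Res.ornZ_FF G.F G.hD G.hB G.hdiam (S2T.Geo.hl G) hJ hρ h2
  obtain ⟨κ₀, -, hang⟩ := Res.exists_angZ G.F G.hD G.hB G.hdiam G.hP ⟨m, rfl⟩ (by omega) hZ hc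
  have h0 := SI_wD G P hJ hρ hb h2 hZ
  set h := bun_Z G.F G.hD G.hB G.hdiam G.hP hZ ⟨m, rfl⟩ with hh
  have g := geo G P hJ hρ
  let X : Form (dZ e D) := Form.pull Prod.fst map_Zfst (Om G hJ hρ) ^ a *
    Form.pull Prod.snd (map_Zsnd G.F) (Om G hJ hρ) ^ b
  have hX : Form.IsDeg ((2 * m + 2) * a + (2 * m + 2) * b) X :=
    (((Om_deg G hJ hρ).pull _ map_Zfst).pow a).mul (((Om_deg G hJ hρ).pull _ (map_Zsnd G.F)).pow b)
  have e1 : Form.pull Pr.v map_v (Form.pull (fb e D) h.hπ X) =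
      F0 G hJ hρ ^ a * F1 G hJ hρ ^ b := by
    rw [Co.pull_mul, Co.pull_mul, CoC.pull_pow', CoC.pull_pow', CoC.pull_pow', CoC.pull_pow',
      H584.pull_pull (k := foot) h.hπ map_Zfst map_foot (fun _ => rfl),
      H584.pull_pull (k := bar e D) h.hπ (map_Zsnd G.F) (map_bar G.F D) (fun _ => rfl)]
  set σ := SL G.F G.hD G.hB G.hdiam G.hP hb ⟨m, rfl⟩ (wD G P hJ hρ) *
    Form.pull (fb e D) h.hπ X with hσ
  have d1 : Form.IsDeg (2 * m + 1) (SL G.F G.hD G.hB G.hdiam G.hP hb ⟨m, rfl⟩ (wD G P hJ hρ)) :=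
    (bun_SL G.F G.hD G.hB G.hdiam G.hP hb ⟨m, rfl⟩).isDeg_SI _ (wD_deg G P hJ hρ) (by omega)
  have d2 : Form.IsDeg (2 * N + 1) σ := by
    refine Co.degc (d1.mul (hX.pull _ h.hπ)) ?_
    have h3 : (2 * m + 2) * (a + b + 1) = 2 * (N + 1) := by
      rw [hab, ← hN, hE]
      ring
    nlinarith
  have hdim : WA.DimLE (dUT E M) (2 * N + 1) := fun hu => WF.dimLE_UT E M hN hu
  have d3 : σ.d = 0 := hdim.isDeg_eq_zero (by omega) d2.d
  have d4 : h.SI (bas (2 * m + 1 + 1)) σ = 0 := by rw [hσ, h.SI_mul_π, h0, zero_mul]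
  obtain ⟨a', κ, -, ha', e2, -⟩ := h.gysin2 _ hang (by omega) d3 d4 d2
  have e3 : Form.pull (fb e D) h.hπ a' = 0 := pull_fb_top G hJ hρ hb hN h2 ha'
  rw [e3, zero_add, hσ,
    ← SL_mul G.F G.hD G.hB G.hdiam G.hP hb ⟨m, rfl⟩, e1, wD, sub_mul, smul_mul_assoc, map_sub, map_smul,
    sub_eq_iff_eq_add', mul_assoc, mul_assoc] at e2
  refine ⟨κ, Eq.trans ?_ e2⟩
  rw [(H584.even_comm (H584.mul_even (H584.pow_even g.e2 a) (H584.pow_even g.e1 b)) _).eq]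

end

end Vale.Agent.P231Z.D
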