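import Vale.Agent.P231.S2X.Fib2
import Vale.Agent.P231.FE.Std

/-!
# P231 (D), block D3 (ii): linear algebra of the fibre identity
-/

set_option linter.unusedSectionVars false
set_option linter.unusedVariables false

open Set Filter Module
open scoped ContDiff Topology

namespace Vale.Agent.P231Z.D.VF

noncomputable section

open Vale.Agent.P231 Vale.Agent.P231.Fm Vale.Agent.P231.S2X

/-- powers of a sum with a square zero term -/
theorem add_pow_sq {A : Type*} [Ring A] {x y : A} (hc : x * y = y * x) (hx : x * x = 0) (k : ℕ) :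
    (x + y) ^ (k + 1) = y ^ (k + 1) + (k + 1) • (x * y ^ k) := by
  induction k with
  | zero => simp [add_comm]
  | succ k ih =>
    have h1 : x * y ^ k * x = 0 := by
      have h2 : y ^ k * x = x * y ^ k := ((Commute.pow_right hc k).eq).symm
      rw [mul_assoc, h2, ← mul_assoc, hx, zero_mul]
    have h2 : y ^ (k + 1) * x = x * y ^ (k + 1) := ((Commute.pow_right hc (k + 1)).eq).symm
    rw [pow_succ (x + y) (k + 1), ih, add_mul, mul_add, mul_add, smul_mul_assoc, smul_mul_assoc,
      h1, smul_zero, zero_add, h2, ← pow_succ, mul_assoc, ← pow_succ,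
      succ_nsmul (x * y ^ (k + 1)) (k + 1)]
    abel

section Lam

variable {X : Type} [NormedAddCommGroup X] [NormedSpace ℝ X] [FiniteDimensional ℝ X]

/-- the product of a family of one-forms -/
def wp {n : ℕ} (a : Fin n → X →L[ℝ] ℝ) : Lam X := (List.ofFn fun i => dx (a i)).prod

theorem wp_zero (a : Fin 0 → X →L[ℝ] ℝ) : wp a = 1 := by simp [wp]

theorem wp_succ {n : ℕ} (a : Fin (n + 1) → X →L[ℝ] ℝ) :
    wp a = dx (a 0) * wp (fun i => a i.succ) := by
  rw [wp, List.ofFn_succ, List.prod_cons, wp]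

theorem inv_wp {n : ℕ} (a : Fin n → X →L[ℝ] ℝ) : inv (wp a) = (-1 : ℝ) ^ n • wp a := by
  induction n with
  | zero => rw [wp_zero, map_one, pow_zero, one_smul]
  | succ n ih =>
    rw [wp_succ, map_mul, inv_dx, ih, mul_smul_comm, neg_mul, smul_neg, pow_succ, mul_neg_one,
      neg_smul]

theorem wp_mul_dx {n : ℕ} (a : Fin n → X →L[ℝ] ℝ) (i : Fin n) : wp a * dx (a i) = 0 := by
  induction n with
  | zero => exact i.elim0
  | succ n ih =>
    rw [wp_succ]
    refine Fin.cases ?_ (fun j => ?_) i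
    · have h1 : wp (fun i : Fin n => a i.succ) * dx (a 0) =
          dx (a 0) * inv (wp (fun i : Fin n => a i.succ)) := by
        rw [dx_mul, Fm.inv_inv]
      rw [mul_assoc, h1, ← mul_assoc, dx_mul_self, zero_mul]
    · rw [mul_assoc, ih (fun i : Fin n => a i.succ) j, mul_zero]

theorem mul_wp_comb {n : ℕ} (a b : Fin n → X →L[ℝ] ℝ) (c s : ℝ) (A : Lam X)
    (hA : ∀ i, A * dx (a i) = 0) :
    A * wp (fun i => c • a i + s • b i) = s ^ n • (A * wp b) := by
  induction n generalizing A with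
  | zero => rw [wp_zero, wp_zero, pow_zero, one_smul]
  | succ n ih =>
    have h1 : ∀ i : Fin n, A * dx (b 0) * dx (a i.succ) = 0 := by
      intro i
      rw [mul_assoc, dx_anticomm, mul_neg, ← mul_assoc, hA, zero_mul, neg_zero]
    have h2 := ih (fun i => a i.succ) (fun i => b i.succ) (A * dx (b 0)) h1
    rw [wp_succ, wp_succ b, ← mul_assoc, map_add, map_smul, map_smul, mul_add, mul_smul_comm,
      mul_smul_comm, hA, smul_zero, zero_add, smul_mul_assoc, h2, smul_smul, ← pow_succ',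
      mul_assoc]

theorem continuous_wp {n : ℕ} {Y : Type*} [TopologicalSpace Y] {a : Fin n → Y → X →L[ℝ] ℝ}
    (ha : ∀ i, Continuous (a i)) : Continuous fun y => wp fun i => a i y := by
  induction n with
  | zero =>
    simp only [wp_zero]
    exact continuous_const
  | succ n ih =>
    simp only [wp_succ]
    exact (dx.continuous.comp (ha 0)).mul (ih fun i => ha i.succ)

/-- the sign of the shuffle -/
def sgn (n : ℕ) : ℝ := ∏ i ∈ Finset.range n, (-1 : ℝ) ^ i

theorem sgn_two_mul (m : ℕ) : sgn (2 * m) = (-1) ^ m := by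
  induction m with
  | zero => simp [sgn]
  | succ m ih =>
    rw [show 2 * (m + 1) = 2 * m + 1 + 1 by ring, sgn, Finset.prod_range_succ,
      Finset.prod_range_succ, ← sgn, ih, pow_succ (-1 : ℝ) (2 * m), pow_mul, neg_one_sq, one_pow,
      pow_succ]
    ring

/-- the powers of a sum of decomposable two-forms -/
theorem sum_pow {n : ℕ} (a b : Fin n → X →L[ℝ] ℝ) :
    (∑ i, dx (a i) * dx (b i)) ^ n = ((n.factorial : ℝ) * sgn n) • (wp a * wp b) ∧
      (∑ i, dx (a i) * dx (b i)) ^ (n + 1) = 0 := by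
  induction n with
  | zero => simp [wp_zero, sgn]
  | succ n ih =>
    obtain ⟨h1, h2⟩ := ih (fun i => a i.succ) (fun i => b i.succ)
    have he : inv (dx (a 0) * dx (b 0)) = dx (a 0) * dx (b 0) := by
      rw [map_mul, inv_dx, inv_dx, neg_mul_neg]
    have hx : dx (a 0) * dx (b 0) * (dx (a 0) * dx (b 0)) = 0 := by
      rw [mul_assoc, ← mul_assoc (dx (b 0)), dx_anticomm (b 0), neg_mul, mul_neg, ← mul_assoc,
        ← mul_assoc, dx_mul_self, zero_mul, zero_mul, neg_zero]
    have hc := mul_comm_of_even he (∑ i : Fin n, dx (a i.succ) * dx (b i.succ))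
    rw [Fin.sum_univ_succ]
    refine ⟨?_, ?_⟩
    · rw [add_pow_sq hc hx, h2, zero_add, h1, wp_succ a, wp_succ b, mul_smul_comm,
        ← Nat.cast_smul_eq_nsmul ℝ, smul_smul]
      have h3 : dx (b 0) * wp (fun i : Fin n => a i.succ) =
          (-1 : ℝ) ^ n • (wp (fun i : Fin n => a i.succ) * dx (b 0)) := by
        rw [dx_mul, inv_wp, smul_mul_assoc]
      rw [mul_assoc (dx (a 0)), ← mul_assoc (dx (b 0)), h3, smul_mul_assoc, mul_smul_comm,
        smul_smul, sgn, sgn, Finset.prod_range_succ, Nat.factorial_succ]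
      simp only [mul_assoc]
      congr 1
      push_cast
      ring
    · rw [add_pow_sq hc hx, h2, mul_zero, smul_zero, add_zero, pow_succ, h2, zero_mul]

/-- the integral of the rotated product -/
theorem mul_int_rot {n : ℕ} (a b : Fin n → X →L[ℝ] ℝ) :
    wp a * ∫ t in (0 : ℝ)..(2 * Real.pi), wp (fun i => Real.cos t • a i + Real.sin t • b i) =
      (∫ t in (0 : ℝ)..(2 * Real.pi), Real.sin t ^ n) • (wp a * wp b) := by
  have hc : Continuous fun t : ℝ => wp (fun i => Real.cos t • a i + Real.sin t • b i) :=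
    continuous_wp fun i => by fun_prop
  have h1 := (ContinuousLinearMap.mul ℝ (Lam X) (wp a)).intervalIntegral_comp_comm
    (hc.intervalIntegrable (μ := MeasureTheory.volume) 0 (2 * Real.pi))
  simp only [ContinuousLinearMap.mul_apply'] at h1
  rw [← h1]
  simp only [mul_wp_comb a b _ _ _ (wp_mul_dx a)]
  rw [intervalIntegral.integral_smul_const]

theorem int_sin_pos (m : ℕ) : 0 < ∫ t in (0 : ℝ)..(2 * Real.pi), Real.sin t ^ (2 * m) := by
  have hc : Continuous fun t : ℝ => Real.sin t ^ (2 * m) := by fun_prop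
  rw [← intervalIntegral.integral_add_adjacent_intervals (b := Real.pi)
    (hc.intervalIntegrable _ _) (hc.intervalIntegrable _ _)]
  have h1 := integral_sin_pow_pos (n := 2 * m)
  have h2 : 0 ≤ ∫ t in Real.pi..(2 * Real.pi), Real.sin t ^ (2 * m) :=
    intervalIntegral.integral_nonneg (by linarith [Real.pi_pos]) fun t _ =>
      (even_two_mul m).pow_nonneg _
  linarith

end Lam

section Lin

variable {T : Type*} [NormedAddCommGroup T] [InnerProductSpace ℝ T] [FiniteDimensional ℝ T]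
  {X : Type} [NormedAddCommGroup X] [NormedSpace ℝ X] [FiniteDimensional ℝ X] {n : ℕ}

theorem pull_wdg (L : X →L[ℝ] T) (g : Fin n → T) :
    Fm.pull L (FE.wdg g) = wp fun i => (innerSL ℝ (g i)).comp L := by
  induction n with
  | zero => rw [wp_zero, FE.wdg, List.ofFn_zero, List.prod_nil, map_one]
  | succ n ih => rw [FE.wdg_succ, wp_succ, map_mul, pull_dx, ih]

theorem pull_wp {Y : Type} [NormedAddCommGroup Y] [NormedSpace ℝ Y] [FiniteDimensional ℝ Y]
    (L : X →L[ℝ] Y) (a : Fin n → Y →L[ℝ] ℝ) :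
    Fm.pull L (wp a) = wp fun i => (a i).comp L := by
  induction n with
  | zero => rw [wp_zero, wp_zero, map_one]
  | succ n ih => rw [wp_succ, wp_succ, map_mul, pull_dx, ih]

theorem iprod_wdg2 {g : Fin (n + 2) → T} (hg : Orthonormal ℝ g) (c s : ℝ) :
    iprod (c • g 0 + s • g 1) (FE.wdg g) =
      c • (dx (innerSL ℝ (g 1)) * FE.wdg fun i : Fin n => g i.succ.succ) -
      s • (dx (innerSL ℝ (g 0)) * FE.wdg fun i : Fin n => g i.succ.succ) := by
  have hon := orthonormal_iff_ite.1 hg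
  have h01 : (0 : Fin (n + 2)) ≠ 1 := Fin.zero_ne_one
  have h0 : innerSL ℝ (g 0) (c • g 0 + s • g 1) = c := by
    rw [innerSL_apply_apply, inner_add_right, inner_smul_right, inner_smul_right, hon, hon,
      if_pos rfl, if_neg h01]
    ring
  have h1 : innerSL ℝ (g 1) (c • g 0 + s • g 1) = s := by
    rw [innerSL_apply_apply, inner_add_right, inner_smul_right, inner_smul_right, hon, hon,
      if_neg h01.symm, if_pos rfl]
    ring
  have h2 : iprod (c • g 0 + s • g 1) (FE.wdg fun i : Fin n => g i.succ.succ) = 0 := by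
    refine FE.iprod_wdg fun i => ?_
    rw [inner_add_right, inner_smul_right, inner_smul_right, hon, hon,
      if_neg (Fin.succ_ne_zero _), if_neg (Fin.succ_succ_ne_one i)]
    ring
  rw [FE.wdg_succ, FE.wdg_succ, iprod_dx_mul, iprod_dx_mul, h2, h0]
  have h3 : g (Fin.succ 0) = g 1 := rfl
  rw [h3, h1, mul_zero, sub_zero, mul_smul_comm]

/-- the integrand of `b₀` -/
theorem at1_rot' {g : Fin (n + 2) → T} (hg : Orthonormal ℝ g) {u w : X → T} {x : X}
    (hu : DifferentiableAt ℝ u x) (hw : DifferentiableAt ℝ w x) (hux : u x = g 0)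
    (hwx : w x = g 1) (t : ℝ) :
    at1 (Fm.pull (fderiv ℝ (fun q : X × ℝ => Real.cos q.2 • u q.1 + Real.sin q.2 • w q.1) (x, t))
      (iprod (Real.cos t • g 0 + Real.sin t • g 1) (FE.wdg g))) =
      wp fun i : Fin n => Real.cos t • al (g i.succ.succ) u x + Real.sin t • al (g i.succ.succ) w x := by
  have hon := orthonormal_iff_ite.1 hg
  have h01 : (0 : Fin (n + 2)) ≠ 1 := Fin.zero_ne_one
  have i0 : (inner ℝ (g 0) (-Real.sin t • u x + Real.cos t • w x) : ℝ) = -Real.sin t := by
    rw [hux, hwx, inner_add_right, inner_smul_right, inner_smul_right, hon, hon, if_pos rfl,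
      if_neg h01]
    ring
  have i1 : (inner ℝ (g 1) (-Real.sin t • u x + Real.cos t • w x) : ℝ) = Real.cos t := by
    rw [hux, hwx, inner_add_right, inner_smul_right, inner_smul_right, hon, hon,
      if_neg h01.symm, if_pos rfl]
    ring
  have i2 : ∀ i : Fin n,
      (inner ℝ (g i.succ.succ) (-Real.sin t • u x + Real.cos t • w x) : ℝ) = 0 := by
    intro i
    rw [hux, hwx, inner_add_right, inner_smul_right, inner_smul_right, hon, hon,
      if_neg (Fin.succ_ne_zero _), if_neg (Fin.succ_succ_ne_one i)]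
    ring
  have e2 : ∀ i : Fin n, (innerSL ℝ (g i.succ.succ)).comp (fderiv ℝ
      (fun q : X × ℝ => Real.cos q.2 • u q.1 + Real.sin q.2 • w q.1) (x, t)) =
      (Real.cos t • al (g i.succ.succ) u x + Real.sin t • al (g i.succ.succ) w x).comp
      (ContinuousLinearMap.fst ℝ X ℝ) := by
    intro i
    rw [al_rot _ hu hw t, i2, zero_smul, add_zero]
  have key : ∀ i, Fm.pull (fderiv ℝ
      (fun q : X × ℝ => Real.cos q.2 • u q.1 + Real.sin q.2 • w q.1) (x, t))
      (dx (innerSL ℝ (g i)) * FE.wdg fun i : Fin n => g i.succ.succ) =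
      dx ((innerSL ℝ (g i)).comp (fderiv ℝ
      (fun q : X × ℝ => Real.cos q.2 • u q.1 + Real.sin q.2 • w q.1) (x, t))) *
      Fm.pull (ContinuousLinearMap.fst ℝ X ℝ)
        (wp fun i : Fin n =>
          Real.cos t • al (g i.succ.succ) u x + Real.sin t • al (g i.succ.succ) w x) := by
    intro i
    rw [map_mul, pull_dx, pull_wdg, pull_wp]
    simp only [e2]
  rw [iprod_wdg2 hg, map_sub, map_smul, map_smul, key, key, map_sub, map_smul, map_smul,
    WR.at1_dx_mul_fst, WR.at1_dx_mul_fst, al_rot (g 0) hu hw t, al_rot (g 1) hu hw t, i0, i1]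
  set b := wp fun i : Fin n =>
    Real.cos t • al (g i.succ.succ) u x + Real.sin t • al (g i.succ.succ) w x with hb
  simp only [add_apply, ContinuousLinearMap.comp_apply,
    ContinuousLinearMap.coe_fst', map_zero, zero_add, smul_apply,
    ContinuousLinearMap.coe_snd', smul_eq_mul, mul_one]
  rw [smul_smul, smul_smul, ← sub_smul]
  have h1 : Real.cos t * Real.cos t - Real.sin t * -Real.sin t = 1 := by
    have := Real.cos_sq_add_sin_sq t
    linear_combination this
  rw [h1, one_smul]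

/-- the value of the angular form -/
theorem pull_iprod_wdg {g : Fin (n + 2) → T} (hg : Orthonormal ℝ g) (u : X → T) (x : X) :
    Fm.pull (fderiv ℝ u x) (iprod (g 0) (FE.wdg g)) =
      dx (al (g 1) u x) * wp fun i : Fin n => al (g i.succ.succ) u x := by
  have h1 := iprod_wdg2 hg 1 0
  rw [one_smul, zero_smul, add_zero, one_smul, zero_smul, sub_zero] at h1
  rw [h1, map_mul, pull_dx, pull_wdg]
  rfl

theorem al_exp' {k : ℕ} {g : Fin k → T} {u : X → T} {x : X} (hu : DifferentiableAt ℝ u x)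
    (hsp : ∀ᶠ s in 𝓝 x, u s = ∑ m, (inner ℝ (g m) (u s) : ℝ) • g m) (a : T) :
    al a u x = ∑ m, (inner ℝ a (g m) : ℝ) • al (g m) u x := by
  have h1 : HasFDerivAt (fun s => ∑ m, (inner ℝ (g m) (u s) : ℝ) • g m)
      (∑ m, ((innerSL ℝ (g m)).comp (fderiv ℝ u x)).smulRight (g m)) x := by
    refine HasFDerivAt.fun_sum fun m _ => ?_
    exact (((innerSL ℝ (g m)).hasFDerivAt).comp x hu.hasFDerivAt).smul_const (g m)
  have h2 := (h1.congr_of_eventuallyEq hsp).fderiv
  ext h
  rw [al_apply, h2]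
  simp only [_root_.sum_apply, ContinuousLinearMap.smulRight_apply, inner_sum,
    inner_smul_right, _root_.smul_apply, smul_eq_mul]
  refine Finset.sum_congr rfl fun m _ => ?_
  rw [mul_comm]
  rfl

theorem parseval_sum' {K k : ℕ} {Xi : Fin K → T}
    (hP : ∀ ξ : T, ∑ i, (inner ℝ (Xi i) ξ : ℝ) • Xi i = ξ)
    {g : Fin k → T} (hg : Orthonormal ℝ g) (a b : Fin k → (X →L[ℝ] ℝ)) :
    ∑ i, dx (∑ m, (inner ℝ (Xi i) (g m) : ℝ) • a m) * dx (∑ m, (inner ℝ (Xi i) (g m) : ℝ) • b m) =
      ∑ m, dx (a m) * dx (b m) := by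
  have hon := orthonormal_iff_ite.1 hg
  have h0 : ∀ m n, ∑ i, (inner ℝ (Xi i) (g m) : ℝ) * (inner ℝ (Xi i) (g n) : ℝ) =
      if m = n then 1 else 0 := by
    intro m n
    rw [← hon m n]
    conv_rhs => rw [← hP (g n), inner_sum]
    refine Finset.sum_congr rfl fun i _ => ?_
    rw [inner_smul_right, real_inner_comm (Xi i) (g m), mul_comm]
  have h1 : ∀ i, dx (∑ m, (inner ℝ (Xi i) (g m) : ℝ) • a m) *
      dx (∑ m, (inner ℝ (Xi i) (g m) : ℝ) • b m) =
      ∑ m, ∑ n, ((inner ℝ (Xi i) (g m) : ℝ) * (inner ℝ (Xi i) (g n) : ℝ)) •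
        (dx (a m) * dx (b n)) := by
    intro i
    rw [map_sum, map_sum, Finset.sum_mul_sum]
    refine Finset.sum_congr rfl fun m _ => Finset.sum_congr rfl fun n _ => ?_
    rw [map_smul, map_smul, smul_mul_smul_comm]
  simp only [h1]
  rw [Finset.sum_comm]
  refine Finset.sum_congr rfl fun m _ => ?_
  rw [Finset.sum_comm, Finset.sum_eq_single m]
  · rw [← Finset.sum_smul, h0, if_pos rfl, one_smul]
  · intro n _ hn
    rw [← Finset.sum_smul, h0, if_neg (Ne.symm hn), zero_smul]
  · intro h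
    exact absurd (Finset.mem_univ m) h

theorem al_self {u : X → T} {x : X} (hu : DifferentiableAt ℝ u x)
    (hn : ∀ᶠ s in 𝓝 x, ‖u s‖ = 1) : al (u x) u x = 0 := by
  have h1 := al_anti (m := 0) (k := 0) (g := fun _ => u x) (u := fun _ => u) (x := x) (c := 1)
    (fun _ => hu) (fun _ => rfl) (hn.mono fun s hs => by
      rw [real_inner_self_eq_norm_sq, hs, one_pow])
  ext h
  have h2 := congrArg (fun L : X →L[ℝ] ℝ => L h) h1
  simp only [_root_.neg_apply] at h2
  change al (u x) u x h = 0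
  linarith

/-- the curvature of the connection form -/
theorem curv2 {K : ℕ} {Xi : Fin K → T} (hP : ∀ ξ : T, ∑ i, (inner ℝ (Xi i) ξ : ℝ) • Xi i = ξ)
    {g : Fin (n + 2) → T} (hg : Orthonormal ℝ g) {u w : X → T} {x : X}
    (hu : DifferentiableAt ℝ u x) (hw : DifferentiableAt ℝ w x) (hux : u x = g 0)
    (hwx : w x = g 1) (hun : ∀ᶠ s in 𝓝 x, ‖u s‖ = 1) (hwn : ∀ᶠ s in 𝓝 x, ‖w s‖ = 1)
    (hus : ∀ᶠ s in 𝓝 x, u s = ∑ m, (inner ℝ (g m) (u s) : ℝ) • g m)
    (hws : ∀ᶠ s in 𝓝 x, w s = ∑ m, (inner ℝ (g m) (w s) : ℝ) • g m) :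
    ∑ i, dx (al (Xi i) w x) * dx (al (Xi i) u x) =
      -∑ i : Fin n, dx (al (g i.succ.succ) u x) * dx (al (g i.succ.succ) w x) := by
  have e1 : ∀ i, al (Xi i) u x = _ := fun i => al_exp' hu hus (Xi i)
  have e2 : ∀ i, al (Xi i) w x = _ := fun i => al_exp' hw hws (Xi i)
  have h0 : al (g 0) u x = 0 := by rw [← hux]; exact al_self hu hun
  have h1 : al (g (Fin.succ 0)) w x = 0 := by
    have h2 : g (Fin.succ 0) = w x := hwx.symm
    rw [h2]
    exact al_self hw hwn
  simp only [e1, e2]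
  rw [parseval_sum' hP hg, Fin.sum_univ_succ, Fin.sum_univ_succ, h0, h1, map_zero, mul_zero,
    zero_mul, zero_add, zero_add, ← Finset.sum_neg_distrib]
  exact Finset.sum_congr rfl fun i _ => dx_anticomm _ _

/-- the connection form -/
theorem conn_val {K : ℕ} {Xi : Fin K → T} (hP : ∀ ξ : T, ∑ i, (inner ℝ (Xi i) ξ : ℝ) • Xi i = ξ)
    (a : T) (u : X → T) (x : X) :
    ∑ i, algebraMap ℝ (Lam X) (inner ℝ (Xi i) a : ℝ) * dx (al (Xi i) u x) = dx (al a u x) := by
  have h1 : al a u x = ∑ i, (inner ℝ (Xi i) a : ℝ) • al (Xi i) u x := by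
    ext h
    rw [al_apply]
    conv_lhs => rw [← hP a, sum_inner]
    simp only [_root_.sum_apply, _root_.smul_apply, smul_eq_mul, al_apply]
    exact Finset.sum_congr rfl fun i _ => by rw [real_inner_smul_left]
  rw [h1, map_sum]
  exact Finset.sum_congr rfl fun i _ => by rw [map_smul, Algebra.smul_def]

/-- an orthonormal basis with two given first vectors -/
theorem exists_two {P : Submodule ℝ T} (hP : finrank ℝ P = n + 2) {u w : T} (hu : ‖u‖ = 1)
    (hw : ‖w‖ = 1) (huw : inner ℝ u w = (0 : ℝ)) (huP : u ∈ P) (hwP : w ∈ P) :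
    ∃ g : Fin (n + 2) → T, Orthonormal ℝ g ∧ (∀ a, g a ∈ P) ∧ g 0 = u ∧ g 1 = w := by
  classical
  let v : Fin (n + 2) → P := fun i => if i = 0 then ⟨u, huP⟩ else ⟨w, hwP⟩
  have v0 : v 0 = ⟨u, huP⟩ := if_pos rfl
  have v1 : v 1 = ⟨w, hwP⟩ := if_neg Fin.zero_ne_one.symm
  have h1 : Orthonormal ℝ (({0, 1} : Set (Fin (n + 2))).domRestrict v) := by
    refine ⟨fun i => ?_, fun i j hij => ?_⟩
    · obtain ⟨i, rfl | rfl⟩ := i
      · change ‖v 0‖ = 1
        rw [v0]
        exact hu
      · change ‖v 1‖ = 1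
        rw [v1]
        exact hw
    · obtain ⟨i, rfl | rfl⟩ := i <;> obtain ⟨j, rfl | rfl⟩ := j
      · exact absurd rfl hij
      · change inner ℝ (v 0) (v 1) = (0 : ℝ)
        rw [v0, v1]
        exact huw
      · change inner ℝ (v 1) (v 0) = (0 : ℝ)
        rw [v0, v1, real_inner_comm]
        exact huw
      · exact absurd rfl hij
  obtain ⟨b, hb⟩ := Orthonormal.exists_orthonormalBasis_extension_of_card_eq
    (by rw [hP, Fintype.card_fin]) h1
  refine ⟨fun a => b a, ?_, fun a => (b a).2, ?_, ?_⟩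
  · exact b.orthonormal.comp_linearIsometry P.subtypeₗᵢ
  · change ((b 0 : P) : T) = u
    rw [hb 0 (Or.inl rfl), v0]
  · change ((b 1 : P) : T) = w
    rw [hb 1 (Or.inr rfl), v1]

end Lin

end

end Vale.Agent.P231Z.D.VF
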