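import Vale.Agent.P231Z.D.Defs
import Vale.Agent.P231Z.D.ValFibA
import Vale.Agent.P231.S2X.Fib3

/-!
# P231 (D), block D3 (ii): the identity on the fibres over the base point
-/

set_option maxSynthPendingDepth 3
set_option linter.unusedSectionVars false
set_option linter.unusedVariables false

open Bundle Manifold Set Filter Module
open scoped ContDiff Manifold Topology

namespace Vale.Agent.P231Z.D.VF

noncomputable section

open Vale.Agent.P234 Vale.Agent.P231 Vale.Agent.P231.Fm Vale.Agent.P231.W Vale.Agent.P231.WR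
open Vale.Agent.P231.S2X Vale.Agent.P231.X3

variable {E : Type*} [NormedAddCommGroup E] [NormedSpace ℝ E]
  {M : Type*} [MetricSpace M] [ChartedSpace E M]
  [RiemannianBundle (fun x : M => TangentSpace 𝓘(ℝ, E) x)]
  {e : ∀ x : M, TangentSpace 𝓘(ℝ, E) x → M}
  [FiniteDimensional ℝ E] [IsManifold 𝓘(ℝ, E) ∞ M]
  [IsContMDiffRiemannianBundle 𝓘(ℝ, E) ∞ E (fun x : M => TangentSpace 𝓘(ℝ, E) x)]
  [CompactSpace M] [ConnectedSpace M] [IsRiemannianManifold 𝓘(ℝ, E) M]
  {D : ℝ} {m K : ℕ} {p : M}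
  {Pi : TangentSpace 𝓘(ℝ, E) p → TangentSpace 𝓘(ℝ, E) p →L[ℝ] TangentSpace 𝓘(ℝ, E) p}
  {o : TangentSpace 𝓘(ℝ, E) p → Fm.Lam (TangentSpace 𝓘(ℝ, E) p)}
  {ρ : TangentSpace 𝓘(ℝ, E) p → ℝ} {r₀ : ℝ}
  {X : Type} [NormedAddCommGroup X] [NormedSpace ℝ X] [FiniteDimensional ℝ X]

theorem norm_tvp {U : UT E M} (h : foot U = p) : ‖tvp p U‖ = 1 := by
  subst h
  exact nm_vec' U

theorem exp_tvp {U : UT E M} (h : foot U = p) : e p (D • tvp p U) = bar e D U := by
  subst h
  rfl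

/-- **`b₀` on the fibre over `(p, q)`** -/
theorem b0_fib (F : Facts e) (hD : 0 < D) (hB : InjGE e D)
    (hdiam : ∀ p q : M, dist p q ≤ D)
    (hl : ∀ x y : M, dist x y = D → finrank ℝ (H775.Pl e D x y) = 2 * m + 2)
    (hJ : FE.LineP e D p m Pi o) (hρ : WE.Rho e D p ρ r₀) (a : ℝ) {q : M}
    {P : X → Pr e D} {u w : X → TangentSpace 𝓘(ℝ, E) p} {x : X} (h : FPl e D p q P u w x)
    {g : Fin (2 * m + 2) → TangentSpace 𝓘(ℝ, E) p} (hg : Orthonormal ℝ g) (h0 : u x = g 0)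
    (h1 : w x = g 1) {ε : ℝ} (ho : o (u x) = ε • FE.wdg g) :
    (L3.b0P F hD hB hdiam (FE.FF F hD hB hdiam hl hJ hρ a)).val P x =
      (a * ((2 * m + 1).factorial : ℝ) * ε) • ∫ t in (0 : ℝ)..(2 * Real.pi),
        wp fun i : Fin (2 * m) =>
          Real.cos t • al (g i.succ.succ) u x + Real.sin t • al (g i.succ.succ) w x := by
  have hu0 : ‖u x‖ = 1 := by rw [h0]; exact hg.1 0
  have hun : u x ≠ 0 := FE.ne_zero_of_unit hu0
  have hbar : ∀ (y : M) (b : E), y = p → ∀ c : TangentSpace 𝓘(ℝ, E) p, b = c →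
      e y (D • b : E) = e p (D • c) := by
    rintro y b rfl c rfl
    rfl
  have key : ∀ t : ℝ, H584.co (Form.pull (R F hD hB hdiam) (isFlow_R F hD hB hdiam).map
      (Form.pull Pr.v map_v (B0 F D (FE.FF F hD hB hdiam hl hJ hρ a)))) P x t =
      (a * ((2 * m + 1).factorial : ℝ) * ε) • wp fun i : Fin (2 * m) =>
          Real.cos t • al (g i.succ.succ) u x + Real.sin t • al (g i.succ.succ) w x := by
    intro t
    rw [H584.co, Form.pull_val _ _ (Form.cyl_at h.at t),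
      Form.pull_val _ _ (map_R F hD hB hdiam (Form.cyl_at h.at t))]
    have hfst : Tendsto (Prod.fst : X × ℝ → X) (𝓝 (x, t)) (𝓝 x) := continuous_fst.continuousAt
    have hsu : Sm (fun q : X × ℝ => u q.1) (x, t) :=
      Sm.comp (f := u) (g := Prod.fst) (x := ((x, t) : X × ℝ)) h.su (Sm.of_contDiff contDiff_fst _)
    have hsw : Sm (fun q : X × ℝ => w q.1) (x, t) :=
      Sm.comp (f := w) (g := Prod.fst) (x := ((x, t) : X × ℝ)) h.sw (Sm.of_contDiff contDiff_fst _)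
    have hs : Sm (fun q : X × ℝ => Real.cos q.2 • u q.1 + Real.sin q.2 • w q.1) (x, t) := by
      filter_upwards [hsu, hsw] with z g1 g2
      exact ((Real.contDiff_cos.comp contDiff_snd).contDiffAt.smul g1).add
        ((Real.contDiff_sin.comp contDiff_snd).contDiffAt.smul g2)
    have hev : ∀ᶠ z in 𝓝 ((x, t) : X × ℝ),
        foot ((Pr.v ∘ R F hD hB hdiam ∘ Form.cyl P) z) = p ∧
        (vec' ((Pr.v ∘ R F hD hB hdiam ∘ Form.cyl P) z) : E) =
          Real.cos z.2 • u z.1 + Real.sin z.2 • w z.1 := by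
      filter_upwards [hfst.eventually h.ev] with z hz
      refine ⟨hz.1, ?_⟩
      change Real.cos z.2 • vec' (P z.1).v + Real.sin z.2 • vec' (P z.1).w = _
      rw [hz.2.1, hz.2.2.1]
      rfl
    have hcut : ∀ᶠ z in 𝓝 ((x, t) : X × ℝ),
        Pi (Real.cos t • u x + Real.sin t • w x) (Real.cos z.2 • u z.1 + Real.sin z.2 • w z.1) =
          Real.cos z.2 • u z.1 + Real.sin z.2 • w z.1 := by
      have hun2 : ∀ᶠ z in 𝓝 ((x, t) : X × ℝ), ‖Real.cos z.2 • u z.1 + Real.sin z.2 • w z.1‖ = 1 ∧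
          e p (D • (Real.cos z.2 • u z.1 + Real.sin z.2 • w z.1)) = q := by
        filter_upwards [hfst.eventually h.ev, hev] with z hz hz'
        constructor
        · have g1 := nm_vec' ((Pr.v ∘ R F hD hB hdiam ∘ Form.cyl P) z)
          rw [hz'.1, hz'.2] at g1
          exact g1
        · have g2 : bar e D ((Pr.v ∘ R F hD hB hdiam ∘ Form.cyl P) z) = q :=
            (bar_rv F hD hB hdiam (P z.1) z.2).trans hz.2.2.2
          rw [← g2]
          exact (hbar _ _ hz'.1 _ hz'.2).symm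
      filter_upwards [hun2] with z hz
      have g3 := hun2.self_of_nhds
      exact (hJ.cut _ _ g3.1 hz.1).1 (g3.2.trans hz.2.symm)
    have hB0 := FE.B0_fibre F hD hB hdiam hl hJ hρ a hs hev hcut
    have hU : Real.cos t • u x + Real.sin t • w x = Real.cos t • g 0 + Real.sin t • g 1 := by
      rw [h0, h1]
    have ho' : o (Real.cos t • u x + Real.sin t • w x) = ε • FE.wdg g := by
      rw [← ho]
      have g3 : ‖Real.cos t • u x + Real.sin t • w x‖ = 1 := by
        have g1 := nm_vec' ((Pr.v ∘ R F hD hB hdiam ∘ Form.cyl P) (x, t))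
        rw [hev.self_of_nhds.1, hev.self_of_nhds.2] at g1
        exact g1
      refine hJ.os.or.rel _ _ hun (FE.ne_zero_of_unit g3) ?_
      refine (hJ.cut _ _ hu0 g3).1 ?_
      have g4 := h.ev.self_of_nhds
      have g5 : e p (D • u x) = q := by
        rw [← g4.2.2.2]
        exact (hbar _ _ g4.1 _ g4.2.1).symm
      have g6 : bar e D ((Pr.v ∘ R F hD hB hdiam ∘ Form.cyl P) (x, t)) = q :=
        (bar_rv F hD hB hdiam (P x) t).trans g4.2.2.2
      rw [g5, ← g6]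
      exact hbar _ _ hev.self_of_nhds.1 _ hev.self_of_nhds.2
    refine (congrArg at1 hB0).trans ?_
    simp only []
    rw [ho', map_smul, map_smul, map_smul, map_smul, smul_smul, hU,
      at1_rot' hg h.su.differentiableAt h.sw.differentiableAt h0 h1 t]
  change (KT (2 * Real.pi) (Form.pull (R F hD hB hdiam) (isFlow_R F hD hB hdiam).map
      (Form.pull Pr.v map_v (B0 F D (FE.FF F hD hB hdiam hl hJ hρ a))))).val P x = _
  rw [H584.KT_val _ _ h.at]
  simp only [key]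
  rw [intervalIntegral.integral_smul]

theorem em_eq (P : PF E M K) (i : Fin K) {y : M} (hy : y = p) (U : UT E M) :
    P.em y (vec' U) i = inner ℝ (P.X i p) (tvp p U) := by
  subst hy
  rfl

theorem fderiv_em (P : PF E M K) (i : Fin K) {y : X → M} {U : X → UT E M} {x : X}
    (hy : ∀ᶠ s in 𝓝 x, y s = p) (hU : Sm (fun s => tvp p (U s)) x) :
    fderiv ℝ (fun s => P.em (y s) (vec' (U s)) i) x = al (P.X i p) (fun s => tvp p (U s)) x := by
  have h1 : (fun s => P.em (y s) (vec' (U s)) i) =ᶠ[𝓝 x]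
      fun s => (inner ℝ (P.X i p) (tvp p (U s)) : ℝ) := hy.mono fun s hs => em_eq P i hs _
  rw [h1.fderiv_eq]
  exact ((innerSL ℝ (P.X i p)).hasFDerivAt.comp x hU.differentiableAt.hasFDerivAt).fderiv

variable (G : X3.Geo e D (2 * m + 1)) (P : PF E M K)
  (hJ : FE.LineP e D p m Pi o) (hρ : WE.Rho e D p ρ r₀)

/-- the constant of the fibre identity -/
def cF (m : ℕ) : ℝ := ((2 * m).factorial : ℝ) * (-1) ^ m /
  (((2 * m + 1).factorial : ℝ) ^ 2 * ∫ t in (0 : ℝ)..(2 * Real.pi), Real.sin t ^ (2 * m))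

theorem cF_pos (m : ℕ) : 0 < (-1) ^ m * cF m := by
  have h1 := int_sin_pos m
  have h2 : (-1 : ℝ) ^ m * (-1) ^ m = 1 := by rw [← mul_pow, neg_mul_neg, one_mul, one_pow]
  rw [cF, ← mul_div_assoc, mul_comm (((2 * m).factorial : ℝ)), ← mul_assoc, h2, one_mul]
  positivity

/-- **the identity on the fibres over the base point** -/
theorem fibZ_id : FibZ p (X3.nu e D P * (X3.nu e D P).d ^ (2 * m) -
    cF m • (BB G hJ hρ * b0 G hJ hρ)) := by
  intro q X _ _ _ Q x hQ hpq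
  have hp : ∀ᶠ s in 𝓝 x, foot (Q s).v = p := hpq.mono fun s hs => hs.1
  have hp' : ∀ᶠ s in 𝓝 x, foot (Q s).w = p := hp.mono fun s hs => (Q s).isL.foot_eq.trans hs
  set u : X → TangentSpace 𝓘(ℝ, E) p := fun s => tvp p (Q s).v with hu
  set w : X → TangentSpace 𝓘(ℝ, E) p := fun s => tvp p (Q s).w with hw
  have su : Sm u x := sm_fibre (E := E) (map_v hQ) hp
  have sw : Sm w x := sm_fibre (E := E) (map_w hQ) hp'
  have h : FPl e D p q Q u w x := ⟨su, sw, hpq.mono fun s hs => ⟨hs.1, rfl, rfl, hs.2⟩⟩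
  have hun : ∀ᶠ s in 𝓝 x, ‖u s‖ = 1 := hp.mono fun s hs => norm_tvp hs
  have hwn : ∀ᶠ s in 𝓝 x, ‖w s‖ = 1 := hp'.mono fun s hs => norm_tvp hs
  have hue : ∀ᶠ s in 𝓝 x, e p (D • u s) = q := hpq.mono fun s hs => (exp_tvp hs.1).trans hs.2
  have hwe : ∀ᶠ s in 𝓝 x, e p (D • w s) = q := by
    filter_upwards [hp', hpq] with s h1 h2
    exact (exp_tvp h1).trans ((Q s).isL.bar_eq.trans h2.2)
  have hux := hun.self_of_nhds
  have hu0 : u x ≠ 0 := FE.ne_zero_of_unit hux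
  have hPu : ∀ᶠ s in 𝓝 x, Pi (u x) (u s) = u s := by
    filter_upwards [hun, hue] with s h1 h2
    exact (hJ.cut _ _ hux h1).1 (hue.self_of_nhds.trans h2.symm)
  have hPw : ∀ᶠ s in 𝓝 x, Pi (u x) (w s) = w s := by
    filter_upwards [hwn, hwe] with s h1 h2
    exact (hJ.cut _ _ hux h1).1 (hue.self_of_nhds.trans h2.symm)
  have huw : inner ℝ (u x) (w x) = (0 : ℝ) := by
    have key : ∀ y : M, y = p → ip y (vec' (Q x).v) (vec' (Q x).w) = inner ℝ (u x) (w x) := by
      rintro y rfl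
      rfl
    exact (key _ hp.self_of_nhds).symm.trans (Q x).isL.orth
  have hrk := hJ.os.sp.rank _ hu0
  obtain ⟨g, hg, hgP, hg0, hg1⟩ := exists_two (n := 2 * m) hrk hux hwn.self_of_nhds huw
    ((hJ.os.mem_range_iff hu0).2 hPu.self_of_nhds) ((hJ.os.mem_range_iff hu0).2 hPw.self_of_nhds)
  obtain ⟨ε, hε, ho⟩ : ∃ ε : ℝ, ε * ε = 1 ∧ o (u x) = ε • FE.wdg g := by
    rcases hJ.os.o_pm hu0 hg (fun a => (hJ.os.mem_range_iff hu0).1 (hgP a)) with h1 | h1
    · exact ⟨1, one_mul 1, by rw [one_smul]; exact h1⟩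
    · exact ⟨-1, by norm_num, by rw [neg_one_smul]; exact h1⟩
  have hus : ∀ᶠ s in 𝓝 x, u s = ∑ j, (inner ℝ (g j) (u s) : ℝ) • g j := hPu.mono fun s hs =>
    (FE.sum_of_P hrk hg hgP ((hJ.os.mem_range_iff hu0).2 hs)).symm
  have hws : ∀ᶠ s in 𝓝 x, w s = ∑ j, (inner ℝ (g j) (w s) : ℝ) • g j := hPw.mono fun s hs =>
    (FE.sum_of_P hrk hg hgP ((hJ.os.mem_range_iff hu0).2 hs)).symm
  set a : Fin (2 * m) → X →L[ℝ] ℝ := fun i => al (g i.succ.succ) u x with ha
  set b : Fin (2 * m) → X →L[ℝ] ℝ := fun i => al (g i.succ.succ) w x with hb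
  -- the four values
  have v1 : (b0 G hJ hρ).val Q x = (1 * ((2 * m + 1).factorial : ℝ) * ε) •
      ∫ t in (0 : ℝ)..(2 * Real.pi), wp fun i => Real.cos t • a i + Real.sin t • b i :=
    b0_fib G.F G.hD G.hB G.hdiam (S2T.Geo.hl G) hJ hρ 1 h hg hg0.symm hg1.symm ho
  have v2 : (BB G hJ hρ).val Q x =
      (1 * ((2 * m + 1).factorial : ℝ) * ε) • (dx (al (g 1) u x) * wp a) := by
    rw [BB, Form.pull_val _ _ hQ]
    refine (FE.B0_fibre G.F G.hD G.hB G.hdiam (S2T.Geo.hl G) hJ hρ 1 (U := Pr.v ∘ Q) su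
      (hp.mono fun s hs => ⟨hs, rfl⟩) hPu).trans ?_
    rw [ho, ← hg0, map_smul, map_smul, smul_smul, pull_iprod_wdg hg]
  have v3 : (X3.nu e D P).val Q x = dx (al (g 1) u x) := by
    rw [X3.nu, ChW.conn, val_sum, hg1, ← conn_val (fun ξ => P.parseval p ξ)]
    refine Finset.sum_congr rfl fun i _ => ?_
    rw [Form.mul_val, fr_val _ _ hQ, fr_d_val _ hQ]
    congr 2
    · exact em_eq P i hp.self_of_nhds _
    · exact fderiv_em P i hp su
  have v4 : (X3.nu e D P).d.val Q x = -∑ i, dx (a i) * dx (b i) := by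
    rw [X3.nu, conn_d_val _ _ hQ, ← curv2 (fun ξ => P.parseval p ξ) hg su.differentiableAt
      sw.differentiableAt hg0.symm hg1.symm hun hwn hus hws]
    refine Finset.sum_congr rfl fun i _ => ?_
    congr 2
    · exact fderiv_em P i hp sw
    · exact fderiv_em P i hp su
  rw [Form.sub_val, Form.smul_val, Form.mul_val, Form.mul_val, WQ.pow_val _ hQ, v1, v2, v3, v4,
    (even_two_mul m).neg_pow, (sum_pow a b).1, sgn_two_mul, smul_mul_smul_comm, mul_assoc
    (dx (al (g 1) u x)), mul_int_rot, mul_smul_comm, mul_smul_comm, smul_smul, smul_smul,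
    ← sub_smul]
  have h1 := (int_sin_pos m).ne'
  have h2 : ((2 * m + 1).factorial : ℝ) ≠ 0 := by positivity
  have h3 : ((2 * m).factorial : ℝ) * (-1) ^ m - cF m * (1 * ((2 * m + 1).factorial : ℝ) * ε *
      (1 * ((2 * m + 1).factorial : ℝ) * ε)) *
      ∫ t in (0 : ℝ)..(2 * Real.pi), Real.sin t ^ (2 * m) = 0 := by
    have h4 : 1 * ((2 * m + 1).factorial : ℝ) * ε * (1 * ((2 * m + 1).factorial : ℝ) * ε) =
        ((2 * m + 1).factorial : ℝ) ^ 2 := by
      linear_combination ((2 * m + 1).factorial : ℝ) ^ 2 * hε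
    rw [h4, cF, mul_assoc, div_mul_cancel₀ _ (mul_ne_zero (pow_ne_zero 2 h2) h1), sub_self]
  rw [h3, zero_smul]

end

end Vale.Agent.P231Z.D.VF
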