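import Vale.Agent.P231Z.D.Defs
import Vale.Agent.P231Z.D.ValA
import Vale.Agent.P231.L3.NotExact

/-!
# P231 (D): the integral on the space of pairs, for the flow of rotations
-/

set_option maxSynthPendingDepth 3
set_option linter.unusedSectionVars false
set_option linter.unusedVariables false

open Bundle Manifold Set Filter Module MeasureTheory
open scoped ContDiff Manifold Topology ENNReal Real

namespace Vale.Agent.P231Z.D.ValI

noncomputable section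

open Vale.Agent.P234 Vale.Agent.P231 Vale.Agent.P231.Fm Vale.Agent.P231.W Vale.Agent.P231.WR
  Vale.Agent.P231.H766 Vale.Agent.P231.WG Vale.Agent.P231.S2II Vale.Agent.P231.WQ
  Vale.Agent.P231.L3

variable {E : Type*} [NormedAddCommGroup E] [NormedSpace ℝ E]
  {M : Type*} [MetricSpace M] [ChartedSpace E M]
  [RiemannianBundle (fun x : M => TangentSpace 𝓘(ℝ, E) x)]
  {e : ∀ x : M, TangentSpace 𝓘(ℝ, E) x → M}
  [FiniteDimensional ℝ E] [IsManifold 𝓘(ℝ, E) ∞ M]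
  [IsContMDiffRiemannianBundle 𝓘(ℝ, E) ∞ E (fun x : M => TangentSpace 𝓘(ℝ, E) x)]
  [CompactSpace M] [ConnectedSpace M] [IsRiemannianManifold 𝓘(ℝ, E) M]
  (F : Facts e) {D : ℝ} (hD : 0 < D) (hB : InjGE e D) (hdiam : ∀ p q : M, dist p q ≤ D)
  {m n N : ℕ}

variable (hl : ∀ x y : M, dist x y = D → finrank ℝ (H775.Pl e D x y) = 2 * m + 2)
  (hN : finrank ℝ E = N + 1) (hE : N + 1 = (2 * m + 2) * (n + 1))
  {p : M}
  {Pi : TangentSpace 𝓘(ℝ, E) p → TangentSpace 𝓘(ℝ, E) p →L[ℝ] TangentSpace 𝓘(ℝ, E) p}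
  {o : TangentSpace 𝓘(ℝ, E) p → Fm.Lam (TangentSpace 𝓘(ℝ, E) p)}
  {ρ : TangentSpace 𝓘(ℝ, E) p → ℝ} {r₀ : ℝ}
  (hJ : FE.LineP e D p m Pi o) (hρ : WE.Rho e D p ρ r₀) {a : ℝ} (ha : a ≠ 0)

section core

variable [MeasurableSpace M] [BorelSpace M]
  {Lm : Pr e D × ℝ → Pr e D} {Y : Pr e D → E} {ε₀ : ℝ} (hL : PushL F hD hB hdiam Lm Y ε₀)
  (g : Pr e D × ℝ → M) (hg : ((dPr e D).prod (Dif.lin ℝ)).Map (dM E M) g)
  (hg0 : ∀ b, g (b, 0) = foot b.v) (hg1 : ∀ b t, g (Lm (b, t), 1) = g (b, 1))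
  {R : ℝ} (X : Fr e p R) (v0 : UT E M) {r : Eu E → ℝ} {K : Set (Eu E)} (hr : Q.Cut r K)
  (hDR : D < R) (b : OrthonormalBasis (Fin (N + 1)) ℝ (Eu E))

/-- the value of the right-hand side is not zero -/
theorem q_ne (hm : 1 ≤ m)
    (hrad : ∀ y z : Eu E, (inner ℝ y z : ℝ) = 0 → fderiv ℝ r y z = 0) :
    (inst F hD hB hdiam hl hN hE hJ hρ ha hL g hg hg0 hg1 X v0 hr hDR b).I
      ((inst F hD hB hdiam hl hN hE hJ hρ ha hL g hg hg0 hg1 X v0 hr hDR b).B0 *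
        ((inst F hD hB hdiam hl hN hE hJ hρ ha hL g hg hg0 hg1 X v0 hr hDR b).Fx ^ (n + 1) *
          (inst F hD hB hdiam hl hN hE hJ hρ ha hL g hg hg0 hg1 X v0 hr hDR b).Fb ^ n)) ≠ 0 := by
  have h0 : finrank ℝ E = (2 * m + 2) * (n + 1) := hN.trans hE
  have hs : ∀ v : UT E M, ∃ q : Pr e D, q.v = v := fun v => by
    have : NeZero (2 * m + 1) := ⟨by omega⟩
    obtain ⟨W, hW⟩ := exists_isLF F hD hB hdiam (l := 2 * m + 1) hl v
    exact ⟨S2II.Fr.p0 (⟨(v, W), hW⟩ : S2II.Fr e D (2 * m + 1)), rfl⟩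
  have h1 := Q2.II_eq X v0 F hD hB hdiam hs (FE.FF_d F hD hB hdiam hl hJ hρ a)
    (FE.FF_deg F hD hB hdiam hl hJ hρ a) ⟨m + 1, by ring⟩ (by omega) (n := n + 1) (by omega) h0
    b.toBasis hr hrad hDR (FE.ang_PsiE hJ.os a) (WQ.cut_rho hρ) (WQ.closedBall_sub hρ)
    (fun x hx => FE.FF_ef F hD hB hdiam hl hJ hρ a hx)
    (fun y hy => FE.B0_cc F hD hB hdiam hl hJ hρ a (hD.trans hDR) X v0 hy)
  have h2 := (FE.q_le hJ.os ha hm (Nat.succ_pos n) h0 b hr).2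
  have h3 : (inst F hD hB hdiam hl hN hE hJ hρ ha hL g hg hg0 hg1 X v0 hr hDR b).I
      ((inst F hD hB hdiam hl hN hE hJ hρ ha hL g hg hg0 hg1 X v0 hr hDR b).B0 *
        ((inst F hD hB hdiam hl hN hE hJ hρ ha hL g hg hg0 hg1 X v0 hr hDR b).Fx ^ (n + 1) *
          (inst F hD hB hdiam hl hN hE hJ hρ ha hL g hg hg0 hg1 X v0 hr hDR b).Fb ^ n)) =
      Q.qv volume b.toBasis r (FE.PsiE m a p Pi o) (n + 1 - 1) *
        Q.qv volume b.toBasis r (FE.PsiE m a p Pi o) (n + 1 - 1) := h1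
  rw [h3]
  exact mul_ne_zero h2 h2

end core

include F hD hB hdiam hl hN hE ha in
/-- **the integral on the space of pairs**: `F₁` is the form at the cut point, `F₂` the form at
the foot point -/
theorem exists_gi [NeZero (2 * m + 1)] (hm : 1 ≤ m) {ν F1 F2 B : Form (dPr e D)}
    (hν : Form.IsDeg 1 ν)
    (h1 : F1 = Form.pull Pr.v map_v (Form.pull (bar e D) (map_bar F D)
      (FE.FF F hD hB hdiam hl hJ hρ a)))
    (h2 : F2 = Form.pull Pr.v map_v (Form.pull foot map_foot (FE.FF F hD hB hdiam hl hJ hρ a)))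
    (hB' : B = Form.pull Pr.v map_v (B0 F D (FE.FF F hD hB hdiam hl hJ hρ a))) :
    ∃ (I : Form (dPr e D) →ₗ[ℝ] ℝ) (I' : Form (dUT E M) →ₗ[ℝ] ℝ),
      ValA.GI (isFlow_R F hD hB hdiam) m (n + 1) ν F1 F2 B I ∧ (∀ w : Form (dUT E M), I' w.d = 0) ∧
      ∀ w, I w = I' (SL F hD hB hdiam (l := 2 * m + 1) hl
        (S2II.orn_b0P F hD hB hdiam (two_le hN hE) hl hJ hρ ha) ⟨m, rfl⟩ w) := by
  borelize M
  have hnt : Nontrivial E := nontrivial_of_finrank_pos (R := ℝ) (by omega)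
  obtain ⟨v0, -⟩ := S2II.exists_foot (E := E) p
  obtain ⟨X⟩ := nonempty_fr F hD hB p (D + 1)
  obtain ⟨r, K, hr, hrad⟩ := exists_radCut (V := Eu E)
  have hDR : D < D + 1 := lt_add_one D
  let b : OrthonormalBasis (Fin (N + 1)) ℝ (Eu E) :=
    (stdOrthonormalBasis ℝ (Eu E)).reindex (finCongr (by
      rw [finrank_euclideanSpace, Fintype.card_fin, hN]))
  obtain ⟨T, Lm, Y, ε₀, hT, hw, hL, -, hrev, -⟩ :=
    S2N.exists_all F hD hB hdiam (l := 2 * m + 1) hl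
  obtain ⟨g, hg, hg0, hg1, -⟩ := hL.exists_b1 (l := 2 * m + 1) hl
  let S := inst F hD hB hdiam hl hN hE hJ hρ ha hL g hg hg0 hg1 X v0 hr hDR b
  have hq := q_ne F hD hB hdiam hl hN hE hJ hρ ha hL g hg hg0 hg1 X v0 hr hDR b hm hrad
  have hO4 := S2II.isDeg_FF F hD hB hdiam hl hJ hρ a
  have hOd := FE.FF_d F hD hB hdiam hl hJ hρ a
  have hB0 : Form.IsDeg (2 * m + 1) (B0 F D (FE.FF F hD hB hdiam hl hJ hρ a)) :=
    S2II.isDeg_B0 F hO4
  have hdim : WA.DimLE (dUT E M) (2 * N + 1) := L.dimLE_bridge (WF.dimLE_UT E M hN)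
  have e1 : F1 = Form.pull S.pi S.hpi S.Fb := h1
  have e2 : F2 = Form.pull S.pi S.hpi S.Fx := h2
  have e3 : B = Form.pull S.pi S.hpi S.B0 := hB'
  have hpow : ∀ (w : Form (dUT E M)) (k : ℕ), Form.pull S.pi S.hpi w ^ k =
      Form.pull S.pi S.hpi (w ^ k) := fun w k => (map_pow (Form.pullA S.pi S.hpi) w k).symm
  have hmul : ∀ w w' : Form (dUT E M), Form.pull S.pi S.hpi w * Form.pull S.pi S.hpi w' =
      Form.pull S.pi S.hpi (w * w') := fun w w' => (map_mul (Form.pullA S.pi S.hpi) w w').symm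
  have h0 : Form.pull S.pi S.hpi 0 = 0 := map_zero (Form.pullA S.pi S.hpi)
  have hNn : (2 * m + 2) * (2 * (n + 1)) = 2 * N + 2 := by
    rw [mul_left_comm, ← hE]
    ring
  refine ⟨S.I ∘ₗ S.P, S.I, ⟨fun w => S.hId w, fun w hw => S.hIψ w hw, fun k w hk hne => ?_, hν,
    ?_, ?_, ?_, ?_, ?_, fun i j hij => ?_, ?_, ?_⟩, fun w => sys_I_d S w, fun w => rfl⟩
  · change WG.II X v0 b.toBasis hr hDR (S.P w) = 0
    rw [II_part X v0 b.toBasis hr hDR rfl]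
    have h5 : Form.part (2 * N + 1) (S.P w) = S.P (Form.part (2 * N + 1 + 2 * m) w) :=
      S2II.part_SL F hD hB hdiam (l := 2 * m + 1) hl
        (S2II.orn_b0P F hD hB hdiam (two_le hN hE) hl hJ hρ ha) ⟨m, rfl⟩ (by omega) w
    have h6 : Form.part (2 * N + 1 + 2 * m) w = 0 := by
      rw [← hk.part_eq]
      exact Form.part_part_of_ne (by omega) w
    rw [h5, h6, map_zero, map_zero]
  · rw [h1]
    exact (hO4.pull _ (map_bar F D)).pull _ map_v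
  · rw [h2]
    exact (hO4.pull _ map_foot).pull _ map_v
  · rw [hB']
    exact hB0.pull _ map_v
  · rw [e1, hpow, S.Fb_good.2.2, h0]
  · rw [e2, hpow, S.Fx_good.2.2, h0]
  · rw [e1, e2, hpow, hpow, hmul]
    have h3 : S.Fb ^ i * S.Fx ^ j = 0 := by
      have hb4 : Form.IsDeg (2 * m + 2) S.Fb := hO4.pull _ S.bar_map
      have hx4 : Form.IsDeg (2 * m + 2) S.Fx := hO4.pull _ S.hfoot
      refine hdim.isDeg_eq_zero ?_ ((hb4.pow i).mul (hx4.pow j))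
      have h4 : (2 * m + 2) * (2 * (n + 1)) ≤ (2 * m + 2) * (i + j) := Nat.mul_le_mul_left _ hij
      rw [mul_add (2 * m + 2) i j] at h4
      omega
    rw [h3, h0]
  · obtain ⟨u, hu⟩ := (S.pthB0.pull S.hpi).symm.ex
    refine ⟨-u, ?_⟩
    rw [e1, e2, e3, Form.d_neg, ← hu, neg_mul, neg_neg]
  · have c1 : S.P (B * (J (R F hD hB hdiam) (isFlow_R F hD hB hdiam).map (2 * π) B *
        (F1 ^ n * F2 ^ (n + 1)))) = S.k • (S.B0 * (S.Fx ^ (n + 1) * S.Fb ^ n)) := by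
      have hJb : J (R F hD hB hdiam) (isFlow_R F hD hB hdiam).map (2 * π) B = S.b0 := by
        rw [hB']
        rfl
      have c2 := S.b0_sg
      rw [hJb, ← sys_P, ← mul_assoc, ← (H584.even_comm c2 B).eq, mul_assoc, e1, e2, e3, hpow, hpow,
        hmul, hmul, (H584.even_comm (H584.pow_even S.Fb_good.2.1 n) (S.Fx ^ (n + 1))).eq]
    have c3 : (S.I ∘ₗ S.P) (B * (J (R F hD hB hdiam) (isFlow_R F hD hB hdiam).map (2 * π) B *
        (F1 ^ n * F2 ^ (n + 1)))) = S.k • S.I (S.B0 * (S.Fx ^ (n + 1) * S.Fb ^ n)) := by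
      rw [LinearMap.comp_apply, c1, map_smul]
    rw [Nat.add_sub_cancel, c3]
    exact smul_ne_zero S.hk hq

end

end Vale.Agent.P231Z.D.ValI
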