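import Vale.Agent.P231.S2X.Fib3
import Vale.Agent.P231.CoZ.Val
import Vale.Agent.P231.S2II.Dim

/-!
# P231 (D): the fibre of the space of pairs over a cut pair
-/

set_option maxSynthPendingDepth 3
set_option linter.unusedSectionVars false
set_option linter.unusedVariables false

open Bundle Manifold Set Filter Module MeasureTheory
open scoped ContDiff Manifold Topology ENNReal Real

namespace Vale.Agent.P231Z.D.ValL

noncomputable section

open Vale.Agent.P234 Vale.Agent.P231 Vale.Agent.P231.Fm Vale.Agent.P231.W Vale.Agent.P231.WR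
  Vale.Agent.P231.S2II

/-- charts of the unit sphere -/
theorem sph_chart {V : Type} [NormedAddCommGroup V] [InnerProductSpace ℝ V]
    [FiniteDimensional ℝ V] {n : ℕ} (hV : finrank ℝ V = n + 1) {E' : Type}
    [NormedAddCommGroup E'] [NormedSpace ℝ E'] [FiniteDimensional ℝ E'] {ξ : E' → V} {x : E'}
    (hξ : Sm ξ x) (h1 : ∀ᶠ y in 𝓝 x, ‖ξ y‖ = 1) :
    ∃ (c : EuclideanSpace ℝ (Fin n) → V) (τ : E' → EuclideanSpace ℝ (Fin n)),
      ContDiff ℝ ∞ c ∧ (∀ z, ‖c z‖ = 1) ∧ Sm τ x ∧ ∀ᶠ y in 𝓝 x, c (τ y) = ξ y := by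
  have hn0 : ‖ξ x‖ = 1 := h1.self_of_nhds
  set ξ0 : V := ξ x with hξ0
  have hne : ξ0 ≠ 0 := by
    intro h
    rw [h, norm_zero] at hn0
    exact zero_ne_one hn0
  let T : Submodule ℝ V := (ℝ ∙ ξ0)ᗮ
  have : Fact (finrank ℝ V = n + 1) := ⟨hV⟩
  have hT : finrank ℝ T = n := Submodule.finrank_orthogonal_span_singleton hne
  let φ : T ≃L[ℝ] EuclideanSpace ℝ (Fin n) := ContinuousLinearEquiv.ofFinrankEq (by
    rw [hT, finrank_euclideanSpace, Fintype.card_fin])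
  obtain ⟨pK, hpK⟩ : ∃ p : V →L[ℝ] T, ∀ a : V, a = (inner ℝ ξ0 a : ℝ) • ξ0 + p a :=
    exists_chart_sphere hn0
  have hin : Sm (fun y => (inner ℝ ξ0 (ξ y) : ℝ)) x := by
    filter_upwards [hξ] with y hy using contDiffAt_const.inner ℝ hy
  have hin0 : (inner ℝ ξ0 (ξ x) : ℝ) = 1 := by
    rw [← hξ0, real_inner_self_eq_norm_sq, hn0, one_pow]
  have hpos : ∀ᶠ y in 𝓝 x, (0 : ℝ) < inner ℝ ξ0 (ξ y) := by
    refine hin.continuousAt.eventually (lt_mem_nhds ?_)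
    change (0 : ℝ) < inner ℝ ξ0 (ξ x)
    rw [hin0]
    exact one_pos
  have k1 : ContDiff ℝ ∞ (fun z : EuclideanSpace ℝ (Fin n) => ξ0 + ((φ.symm z : T) : V)) :=
    contDiff_const.add (T.subtypeL.contDiff.comp φ.symm.contDiff)
  have k2 : ∀ z : EuclideanSpace ℝ (Fin n), ξ0 + ((φ.symm z : T) : V) ≠ 0 := fun z =>
    ne_zero_of_chart hn0 (φ.symm z)
  refine ⟨fun z => rad (ξ0 + ((φ.symm z : T) : V)),
    fun y => φ ((inner ℝ ξ0 (ξ y) : ℝ)⁻¹ • pK (ξ y)), ?_, fun z => S2I.norm_rad (k2 z), ?_, ?_⟩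
  · exact ((k1.norm ℝ k2).inv fun z => norm_ne_zero_iff.2 (k2 z)).smul k1
  · filter_upwards [hin, hξ, hpos] with y h2 h3 h4
    exact φ.contDiff.contDiffAt.comp y ((h2.inv h4.ne').smul (pK.contDiff.contDiffAt.comp y h3))
  · filter_upwards [h1, hpos] with y h2 h3
    rw [φ.symm_apply_apply]
    have h4 : ξ0 + (((inner ℝ ξ0 (ξ y) : ℝ)⁻¹ • pK (ξ y) : T) : V) =
        (inner ℝ ξ0 (ξ y) : ℝ)⁻¹ • ξ y := by
      have h5 : (((inner ℝ ξ0 (ξ y) : ℝ)⁻¹ • pK (ξ y) : T) : V) =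
          (inner ℝ ξ0 (ξ y) : ℝ)⁻¹ • ((pK (ξ y) : T) : V) := rfl
      have h6 : (inner ℝ ξ0 (ξ y) : ℝ)⁻¹ • ξ y = (inner ℝ ξ0 (ξ y) : ℝ)⁻¹ •
          ((inner ℝ ξ0 (ξ y) : ℝ) • ξ0 + ((pK (ξ y) : T) : V)) := congrArg _ (hpK (ξ y))
      rw [h5, h6, smul_add, smul_smul, inv_mul_cancel₀ h3.ne', one_smul]
    rw [h4, S2I.rad_smul _ (inv_pos.2 h3), rad, h2, inv_one, one_smul]

/-- fibre integration is local along the base -/
theorem SI_loc {B S Fr : Type*} {DB : Dif B} {DS : Dif S} {DF : Dif Fr}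
    {F : Type} [NormedAddCommGroup F] [InnerProductSpace ℝ F] [FiniteDimensional ℝ F]
    {ϖ : S → B} {q : Fr → B} {ev : Fr × F → S} (h : Co.Bun DB DS DF F ϖ q ev)
    [MeasurableSpace F] [BorelSpace F] {r : ℕ} (o : OrthonormalBasis (Fin r) ℝ F) (A : Set B)
    {σ : Form DS} (hσ : Form.pull id (Dif.map_on (O := ϖ ⁻¹' A)) σ = 0) :
    Form.pull id (Dif.map_on (O := A)) (h.SI o σ) = 0 := by
  refine Form.ext_val fun V _ _ _ u x hu => ?_
  obtain ⟨f, hf, hfu⟩ := h.hq.lift hu.1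
  have hfA : (DF.on (q ⁻¹' A)).At f x := ⟨hf, by
    filter_upwards [hfu, hu.2] with y h1 h2
    have h3 : q (f y) = u y := h1
    change q (f y) ∈ A
    rw [h3]
    exact h2⟩
  have hi : (DF.on (q ⁻¹' A)).Map DF id := Dif.map_on
  have h4 := Co.si_nat o hi (Form.pull ev h.hev σ)
  have h5 : Form.pull (fun p : Fr × F => (id p.1, p.2)) (Co.map_SB hi)
      (Form.pull ev h.hev σ) = 0 := by
    refine Form.ext_val fun V' _ _ _ w y hw => ?_
    have h6 : (DS.on (ϖ ⁻¹' A)).At (ev ∘ w) y := ⟨h.hev (Co.map_SB hi hw), by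
      filter_upwards [h.comm' (Co.map_SB hi hw), hw.1.1.2] with s h7 h8
      change ϖ (ev (w s)) ∈ A
      have h9 : ϖ (ev (w s)) = q (w s).1 := h7
      rw [h9]
      exact h8⟩
    have h7 := congrArg (fun a : Form (DS.on (ϖ ⁻¹' A)) => a.val (ev ∘ w) y) hσ
    beta_reduce at h7
    rw [Form.pull_val _ _ h6] at h7
    rw [Form.pull_val _ _ hw, Form.pull_val _ _ (Co.map_SB hi hw)]
    exact h7
  rw [h5, Co.si_zero, ← h.pull_SI o] at h4
  have h8 := congrArg (fun a : Form (DF.on (q ⁻¹' A)) => a.val f x) h4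
  beta_reduce at h8
  rw [Form.pull_val _ _ hfA, Form.pull_val _ _ (hi hfA)] at h8
  rw [Form.pull_val _ _ hu, Form.zero_val]
  refine Eq.trans ?_ h8.symm
  exact ((h.SI o σ).congr (h.hq.map hf) hfu).symm

variable {E : Type*} [NormedAddCommGroup E] [NormedSpace ℝ E]
  {M : Type*} [MetricSpace M] [ChartedSpace E M]
  [RiemannianBundle (fun x : M => TangentSpace 𝓘(ℝ, E) x)]
  {e : ∀ x : M, TangentSpace 𝓘(ℝ, E) x → M}
  [FiniteDimensional ℝ E] [IsManifold 𝓘(ℝ, E) ∞ M]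
  [IsContMDiffRiemannianBundle 𝓘(ℝ, E) ∞ E (fun x : M => TangentSpace 𝓘(ℝ, E) x)]
  [CompactSpace M] [ConnectedSpace M] [IsRiemannianManifold 𝓘(ℝ, E) M]
  (F : Facts e) {D : ℝ} (hD : 0 < D) (hB : InjGE e D) (hdiam : ∀ p q : M, dist p q ≤ D)
  {l : ℕ} [NeZero l] (hP : ∀ x y : M, dist x y = D → finrank ℝ (H775.Pl e D x y) = l + 1)

/-- the unit sphere of the plane of a frame -/
def sph (f : Fr e D l) : Set (UT E M) := {v | foot v = foot f.v ∧ bar e D v = bar e D f.v}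

include F hD hB hdiam hP in
theorem dim_sph (f : Fr e D l) : WF.DimEq ((dUT E M).on (sph f)) l := by
  intro E' _ _ _ u x hu
  have hc := S2X.at_constFr f x
  have hξ : Sm (fun s => CoZ.pc f (vec' (u s))) x := by
    have h1 : ∀ i, Sm (fun s => CoZ.pc f (vec' (u s)) i) x := fun i =>
      sm_ip' (u := fun _ => f.v) (CoZ.at_pv hc i) hu.1
        (Eventually.of_forall fun s => CoZ.foot_pv f i) (hu.2.mono fun s hs => hs.1)
    filter_upwards [eventually_all.2 h1] with y hy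
    exact contDiffAt_euclidean.2 hy
  have h2 : ∀ᶠ s in 𝓝 x, ‖CoZ.pc f (vec' (u s))‖ = 1 ∧
      CoZ.evP (f, CoZ.pc f (vec' (u s))) = u s := by
    filter_upwards [hu.2] with s hs
    have h3 := CoZ.pb_pc F hD hB hdiam hP f (CoZ.mem_of_eq F hD hB hdiam hP f hs.1 hs.2)
    have h4 : ‖CoZ.pc f (vec' (u s))‖ = 1 := by
      have h5 : ‖CoZ.pc f (vec' (u s))‖ ^ 2 = 1 := by
        rw [← real_inner_self_eq_norm_sq, ← CoZ.ip_pb_pb f, h3, ← hs.1]
        exact ip_vec' (u s)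
      exact (sq_eq_sq₀ (norm_nonneg _) zero_le_one).1 (h5.trans (one_pow 2).symm)
    refine ⟨h4, ?_⟩
    rw [CoZ.evP_of f h4]
    exact (mk_congr hs.1.symm h3).trans (mk_eta (u s))
  obtain ⟨c, τ, hc1, hc2, hτ, hcτ⟩ := sph_chart (V := Eul (l + 1)) (n := l)
    (by rw [finrank_euclideanSpace, Fintype.card_fin]) hξ (h2.mono fun s hs => hs.1)
  refine ⟨fun z => CoZ.evP (f, c z), τ, hτ, ⟨?_, Eventually.of_forall fun z =>
    ⟨CoZ.foot_evP _, CoZ.bar_evP F hD hB hdiam _⟩⟩, ?_⟩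
  · exact CoZ.map_evP (e := e) (D := D) (l := l) (u := fun z => (f, c z))
      ⟨⟨S2X.at_constFr f _, Sm.of_contDiff hc1 _⟩, Eventually.of_forall hc2⟩
  · filter_upwards [h2, hcτ] with s h3 h4
    change u s = CoZ.evP (f, c (τ s))
    rw [h4, h3.2]

include F hD hB hdiam hP in
theorem dim_fib (f₀ : Fr e D l) {j : ℕ} (hj : j + 1 = l + l) :
    WF.DimEq ((dPr e D).on (Pr.v ⁻¹' sph f₀)) j := by
  intro E' _ _ _ s x hs
  have hl0 := NeZero.pos l
  have hv0 : ((dUT E M).on (sph f₀)).At (Pr.v ∘ s) x := ⟨map_v hs.1, hs.2⟩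
  obtain ⟨c, g, hg, hc, hcg⟩ := dim_sph F hD hB hdiam hP f₀ hv0
  obtain ⟨f, hf, hfc⟩ := (lifts_Fr F hD hB hdiam hP).lift hc.1
  have hfg : (dFr e D l).At (f ∘ g) x := (dFr e D l).comp hf hg
  have hv : Fr.v ∘ (f ∘ g) =ᶠ[𝓝 x] Pr.v ∘ s := by
    filter_upwards [hg.continuousAt.eventually hfc, hcg] with y h1 h2
    change Fr.v (f (g y)) = Pr.v (s y)
    have h1' : Fr.v (f (g y)) = c (g y) := h1
    have h2' : Pr.v (s y) = c (g y) := h2
    rw [h1', h2']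
  obtain ⟨ξ, hξ, h1⟩ := exists_coord F hD hB hdiam hP hs.1 hfg hv
  obtain ⟨c', τ, hc1, hc2, hτ, hcτ⟩ := sph_chart (V := Eul l) (n := l - 1)
    (by rw [finrank_euclideanSpace, Fintype.card_fin]; omega) hξ (h1.mono fun s hs => hs.1)
  let V : Type := EuclideanSpace ℝ (Fin l) × EuclideanSpace ℝ (Fin (l - 1))
  have hV : finrank ℝ V = finrank ℝ (EuclideanSpace ℝ (Fin j)) := by
    change finrank ℝ (EuclideanSpace ℝ (Fin l) × EuclideanSpace ℝ (Fin (l - 1))) = _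
    rw [finrank_prod, finrank_euclideanSpace, finrank_euclideanSpace, finrank_euclideanSpace,
      Fintype.card_fin, Fintype.card_fin, Fintype.card_fin]
    omega
  let φ : V ≃L[ℝ] EuclideanSpace ℝ (Fin j) := ContinuousLinearEquiv.ofFinrankEq hV
  let κ : V → Pr e D := fun z => cone F hD hB hdiam (f z.1, c' z.2)
  have hκ : ((dPr e D).on (Pr.v ⁻¹' sph f₀)).At κ (g x, τ x) := by
    have h3 : Sm (Prod.fst : V → EuclideanSpace ℝ (Fin l)) (g x, τ x) :=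
      Sm.of_contDiff contDiff_fst _
    refine ⟨map_coneS F hD hB hdiam (u := fun z : V => (f z.1, c' z.2)) ⟨⟨?_, ?_⟩,
      Eventually.of_forall fun z => hc2 z.2⟩, ?_⟩
    · exact (dFr e D l).comp (g := (Prod.fst : V → EuclideanSpace ℝ (Fin l))) (u := f) hf h3
    · exact Sm.of_contDiff (hc1.comp contDiff_snd) _
    · have h4 : Tendsto (Prod.fst : V → EuclideanSpace ℝ (Fin l)) (𝓝 (g x, τ x)) (𝓝 (g x)) :=
        continuousAt_fst
      filter_upwards [h4.eventually hfc, h4.eventually hc.2] with z h5 h6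
      change (cone F hD hB hdiam (f z.1, c' z.2)).v ∈ sph f₀
      have h7 : Fr.v (f z.1) = c z.1 := h5
      rw [cone_v]
      change Fr.v (f z.1) ∈ sph f₀
      rw [h7]
      exact h6
  refine ⟨κ ∘ φ.symm, fun y => φ (g y, τ y), ?_, ?_, ?_⟩
  · exact Sm.comp (f := φ) (g := fun y => (g y, τ y)) (Sm.of_contDiff φ.contDiff _) (hg.prodMk hτ)
  · refine Dif.comp _ (u := κ) (g := φ.symm) ?_ (Sm.of_contDiff φ.symm.contDiff _)
    rw [φ.symm_apply_apply]
    exact hκ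
  · filter_upwards [h1, hcτ] with y h2 h3
    change s y = κ (φ.symm (φ (g y, τ y)))
    rw [φ.symm_apply_apply]
    change s y = cone F hD hB hdiam (f (g y), c' (τ y))
    rw [h3]
    exact h2.2.symm

include hP in
/-- basic forms of top degree vanish on the fibre -/
theorem basic_fib (f₀ : Fr e D l) {j : ℕ} (hj : j + 1 = l + l) {w : Form (dPr e D)}
    (hw : Form.IsDeg j w) (hb : Basic (R F hD hB hdiam) (map_R F hD hB hdiam) w) :
    Form.pull id (Dif.map_on (O := Pr.v ⁻¹' sph f₀)) w = 0 := by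
  have hΦ : (((dPr e D).on (Pr.v ⁻¹' sph f₀)).prod (Dif.lin ℝ)).Map
      ((dPr e D).on (Pr.v ⁻¹' sph f₀)) (R F hD hB hdiam) := by
    intro V _ _ _ u x hu
    refine ⟨map_R F hD hB hdiam ⟨hu.1.1, hu.2⟩, ?_⟩
    filter_upwards [hu.1.2] with y hy
    exact ⟨hy.1, (bar_rv F hD hB hdiam (u y).1 (u y).2).trans hy.2⟩
  refine WG.basic_top_eq_zero (dim_fib F hD hB hdiam hP f₀ hj) hΦ
    (isFlow_R F hD hB hdiam).zero (fun v => ?_) (hw.pull _ _) ?_
  · obtain ⟨f, hf, h⟩ := WR.moves_R F hD hB hdiam v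
    exact ⟨f, fun hu hx => hf hu.1 hx, h⟩
  · refine Form.ext_val fun V _ _ _ u x hu => ?_
    have hu' : ((dPr e D).prod (Dif.lin ℝ)).At u x := ⟨hu.1.1, hu.2⟩
    have h1 := congrArg (fun a : Form ((dPr e D).prod (Dif.lin ℝ)) => a.val u x) hb
    have h2 : (pr w).val u x = w.val (Prod.fst ∘ u) x :=
      Form.pull_val (Dif.map_fst (D := dPr e D) (D' := Dif.lin ℝ)) w hu'
    have h3 : (pr (Form.pull id (Dif.map_on (O := Pr.v ⁻¹' sph f₀)) w)).val u x =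
        (Form.pull id (Dif.map_on (O := Pr.v ⁻¹' sph f₀)) w).val (Prod.fst ∘ u) x :=
      Form.pull_val (Dif.map_fst (D := (dPr e D).on (Pr.v ⁻¹' sph f₀)) (D' := Dif.lin ℝ)) _ hu
    beta_reduce at h1
    rw [Form.pull_val _ _ hu', h2] at h1
    rw [Form.pull_val _ _ hu, Form.pull_val _ _ (hΦ hu), h3]
    exact h1.trans (Form.pull_val (Dif.map_on (O := Pr.v ⁻¹' sph f₀)) w hu.1).symm

end

end Vale.Agent.P231Z.D.ValL
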